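import Vale.Agent.P087.Defs

/-! # P087 — upper bound on `χ` by a shear and a Gaussian volume bound -/

noncomputable section

open MeasureTheory Filter
open scoped InnerProductSpace ENNReal

namespace Vale.Agent.P087

/-- The trace of the square in the orthonormal coordinates. -/
theorem trace_herm_sq {k : ℕ} (x : Fin k × Fin k → ℝ) :
    ((herm x * herm x).trace).re = ∑ p, x p ^ 2 := by
  have h2 : (Real.sqrt 2) * (Real.sqrt 2) = 2 := Real.mul_self_sqrt (by norm_num)
  have hterm : ∀ a b, (herm x a b * herm x b a).re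
      = if a = b then x (a, a) ^ 2 else (x (a, b) ^ 2 + x (b, a) ^ 2) / 2 := by
    intro a b
    simp only [herm]
    rcases lt_trichotomy a b with h | rfl | h
    · rw [if_neg h.ne, if_pos h, if_neg h.ne', if_neg h.asymm, if_neg h.ne]
      simp [Complex.mul_re, Complex.div_ofReal_re, Complex.div_ofReal_im]
      field_simp
      nlinarith [h2]
    · simp [sq]
    · rw [if_neg h.ne', if_neg h.asymm, if_neg h.ne, if_pos h, if_neg h.ne']
      simp [Complex.mul_re, Complex.div_ofReal_re, Complex.div_ofReal_im]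
      field_simp
      nlinarith [h2]
  have hsplit : ∀ a b, (herm x a b * herm x b a).re = (x (a, b) ^ 2 + x (b, a) ^ 2) / 2 := by
    intro a b
    rw [hterm]
    split
    · next h => subst h; ring
    · rfl
  simp only [Matrix.trace, Matrix.diag, Matrix.mul_apply, Complex.re_sum, hsplit]
  simp only [add_div, Finset.sum_add_distrib]
  rw [Finset.sum_comm (f := fun a b => x (b, a) ^ 2 / 2), Fintype.sum_prod_type,
    ← Finset.sum_add_distrib]
  refine Finset.sum_congr rfl fun a _ => ?_
  rw [← Finset.sum_add_distrib]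
  exact Finset.sum_congr rfl fun b _ => by ring

/-- The coordinates of a matrix; inverse to `herm` on self-adjoint matrices. -/
def coordOf {k : ℕ} (M : Matrix (Fin k) (Fin k) ℂ) : Fin k × Fin k → ℝ := fun p =>
  if p.1 = p.2 then (M p.1 p.1).re
  else if p.1 < p.2 then Real.sqrt 2 * (M p.1 p.2).re
  else Real.sqrt 2 * (M p.2 p.1).im

theorem herm_coordOf {k : ℕ} {M : Matrix (Fin k) (Fin k) ℂ} (hM : M.IsHermitian) :
    herm (coordOf M) = M := by
  have h2 : (Real.sqrt 2 : ℂ) ≠ 0 := by simp
  ext a b
  simp only [herm, coordOf]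
  have hba : M b a = (starRingEnd ℂ) (M a b) := (hM.apply b a).symm
  rcases lt_trichotomy a b with h | rfl | h
  · simp only [h.ne, h.ne', h, h.asymm, if_false, if_true]
    rw [div_eq_iff h2]
    apply Complex.ext <;> simp [mul_comm]
  · simp only [if_true]
    apply Complex.ext
    · simp
    · simp only [Complex.ofReal_im]
      have := congrArg Complex.im hba
      simp only [Complex.conj_im] at this
      linarith
  · simp only [h.ne, h.ne', h, h.asymm, if_false, if_true]
    rw [div_eq_iff h2, hM.apply a b |>.symm]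
    apply Complex.ext <;> simp [mul_comm]

theorem herm_sub {k : ℕ} (x z : Fin k × Fin k → ℝ) : herm (x - z) = herm x - herm z := by
  ext a b
  simp only [herm, Pi.sub_apply, Matrix.sub_apply]
  split_ifs <;> simp [sub_div, mul_sub, add_div] <;> ring

theorem isHermitian_herm {k : ℕ} (x : Fin k × Fin k → ℝ) : (herm x).IsHermitian := by
  ext a b
  simp only [Matrix.conjTranspose_apply, herm]
  rcases lt_trichotomy a b with h | rfl | h
  · simp [h.ne, h.ne', h, h.asymm, sub_eq_add_neg]
  · simp
  · simp [h.ne, h.ne', h, h.asymm, sub_eq_add_neg]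

theorem matMonom_conjTranspose {N k : ℕ} (A : Fin N → Matrix (Fin k) (Fin k) ℂ)
    (hA : ∀ j, (A j).IsHermitian) :
    ∀ w : List (Fin N), (matMonom A w).conjTranspose = matMonom A w.reverse
  | [] => by simp [matMonom]
  | j :: w => by
    have ih := matMonom_conjTranspose A hA w
    simp only [matMonom, List.map_cons, List.prod_cons, Matrix.conjTranspose_mul, List.reverse_cons,
      List.map_append, List.prod_append, List.map_nil, List.prod_nil, mul_one, (hA j).eq] at ih ⊢
    rw [ih]

/-- Gaussian volume bound for the ball of squared radius `k V`. -/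
theorem volume_sq_le {k : ℕ} (hk : 0 < k) {V : ℝ} (hV : 0 < V) :
    volume {x : Fin k × Fin k → ℝ | ∑ p, x p ^ 2 ≤ k * V}
      ≤ ENNReal.ofReal ((2 * Real.pi * Real.exp 1 * V / k) ^ ((k : ℝ) ^ 2 / 2)) := by
  have hk' : (0 : ℝ) < k := by exact_mod_cast hk
  set b : ℝ := k / (2 * V) with hb_def
  have hb : 0 < b := by positivity
  set f : (Fin k × Fin k → ℝ) → ℝ :=
    fun x => ∏ p, (Real.exp (1 / 2) * Real.exp (-b * x p ^ 2)) with hf
  have hg : Integrable (fun r : ℝ => Real.exp (1 / 2) * Real.exp (-b * r ^ 2)) :=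
    (integrable_exp_neg_mul_sq hb).const_mul _
  have hint : Integrable f := Integrable.fintype_prod (fun _ => hg)
  have hle : ∀ x ∈ {x : Fin k × Fin k → ℝ | ∑ p, x p ^ 2 ≤ k * V}, 1 ≤ f x := by
    intro x hx
    simp only [hf, ← Real.exp_add, ← Real.exp_sum]
    refine Real.one_le_exp ?_
    rw [Finset.sum_add_distrib, ← Finset.mul_sum, Finset.sum_const, Finset.card_univ,
      Fintype.card_prod, Fintype.card_fin, nsmul_eq_mul]
    have h1 : b * ∑ p, x p ^ 2 ≤ b * (k * V) := mul_le_mul_of_nonneg_left hx hb.le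
    have h2 : b * (k * V) = (k : ℝ) * k / 2 := by rw [hb_def]; field_simp
    push_cast
    nlinarith
  have hf0 : ∀ x, 0 ≤ f x := fun x => Finset.prod_nonneg fun p _ => by positivity
  have hms : MeasurableSet {x : Fin k × Fin k → ℝ | ∑ p, x p ^ 2 ≤ k * V} :=
    measurableSet_le (by fun_prop) measurable_const
  calc volume {x : Fin k × Fin k → ℝ | ∑ p, x p ^ 2 ≤ k * V}
      = ∫⁻ x in {x : Fin k × Fin k → ℝ | ∑ p, x p ^ 2 ≤ k * V}, 1 := by simp
    _ ≤ ∫⁻ x in {x : Fin k × Fin k → ℝ | ∑ p, x p ^ 2 ≤ k * V}, ENNReal.ofReal (f x) :=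
        setLIntegral_mono' hms fun x hx => by simpa using ENNReal.ofReal_le_ofReal (hle x hx)
    _ ≤ ∫⁻ x, ENNReal.ofReal (f x) := setLIntegral_le_lintegral _ _
    _ = ENNReal.ofReal (∫ x, f x) :=
        (ofReal_integral_eq_lintegral_ofReal hint (Eventually.of_forall hf0)).symm
    _ = ENNReal.ofReal ((2 * Real.pi * Real.exp 1 * V / k) ^ ((k : ℝ) ^ 2 / 2)) := by
        congr 1
        rw [hf, integral_fintype_prod_volume_eq_pow
            (fun r : ℝ => Real.exp (1 / 2) * Real.exp (-b * r ^ 2)),
          integral_const_mul, integral_gaussian, Fintype.card_prod, Fintype.card_fin]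
        have hpos : (0 : ℝ) ≤ 2 * Real.pi * Real.exp 1 * V / k := by positivity
        have e1 : Real.exp (1 / 2) * Real.sqrt (Real.pi / b)
            = Real.sqrt (2 * Real.pi * Real.exp 1 * V / k) := by
          rw [← Real.sqrt_sq (Real.exp_pos (1 / 2)).le, ← Real.sqrt_mul (sq_nonneg _),
            sq, ← Real.exp_add]
          congr 1
          rw [hb_def]
          norm_num
          field_simp
        rw [e1, Real.sqrt_eq_rpow, ← Real.rpow_natCast, ← Real.rpow_mul hpos]
        congr 1
        push_cast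
        ring

/-- The shear bound: product of the balls. -/
theorem volume_shear_le {n k : ℕ} (φ : (Fin 3 → Fin k × Fin k → ℝ) → Fin n → Fin k × Fin k → ℝ)
    (hφ : Continuous φ) (U U' : Set (Fin k × Fin k → ℝ)) (hU : MeasurableSet U)
    (hU' : MeasurableSet U') :
    volume {x : Fin (3 + n) → Fin k × Fin k → ℝ | (∀ c : Fin 3, x (Fin.castAdd n c) ∈ U) ∧
        ∀ i : Fin n, x (Fin.natAdd 3 i) - φ (fun c => x (Fin.castAdd n c)) i ∈ U'}
      ≤ volume U ^ 3 * volume U' ^ n := by
  set T : Set ((Fin 3 → Fin k × Fin k → ℝ) × (Fin n → Fin k × Fin k → ℝ)) :=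
    {q | (∀ c, q.1 c ∈ U) ∧ ∀ i, q.2 i - φ q.1 i ∈ U'} with hT
  have hTm : MeasurableSet T := by
    have hTi : T = {q | ∀ c, q.1 c ∈ U} ∩ {q | ∀ i, q.2 i - φ q.1 i ∈ U'} := rfl
    rw [hTi]
    refine MeasurableSet.inter ?_ ?_
    · rw [show {q : (Fin 3 → Fin k × Fin k → ℝ) × (Fin n → Fin k × Fin k → ℝ) | ∀ c, q.1 c ∈ U}
          = ⋂ c, (fun q => q.1 c) ⁻¹' U by ext; simp]
      exact MeasurableSet.iInter fun c => hU.preimage (by fun_prop)
    · rw [show {q : (Fin 3 → Fin k × Fin k → ℝ) × (Fin n → Fin k × Fin k → ℝ) |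
          ∀ i, q.2 i - φ q.1 i ∈ U'} = ⋂ i, (fun q => q.2 i - φ q.1 i) ⁻¹' U' by ext; simp]
      exact MeasurableSet.iInter fun i => hU'.preimage (by fun_prop)
  let e1 : (Fin (3 + n) → Fin k × Fin k → ℝ) ≃ᵐ (Fin 3 ⊕ Fin n → Fin k × Fin k → ℝ) :=
    (MeasurableEquiv.piCongrLeft (fun _ => Fin k × Fin k → ℝ) finSumFinEquiv).symm
  let e2 := MeasurableEquiv.sumPiEquivProdPi (fun _ : Fin 3 ⊕ Fin n => Fin k × Fin k → ℝ)
  have hmp : MeasurePreserving (e2 ∘ e1) volume (volume.prod volume) :=
    (volume_measurePreserving_sumPiEquivProdPi _).comp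
      ((volume_measurePreserving_piCongrLeft _ finSumFinEquiv).symm _)
  have hpre : {x : Fin (3 + n) → Fin k × Fin k → ℝ | (∀ c : Fin 3, x (Fin.castAdd n c) ∈ U) ∧
      ∀ i : Fin n, x (Fin.natAdd 3 i) - φ (fun c => x (Fin.castAdd n c)) i ∈ U'}
      = (e2 ∘ e1) ⁻¹' T := by
    ext x
    have h1 : ∀ s, (e1 x) s = x (finSumFinEquiv s) := fun s => by
      simp [e1, MeasurableEquiv.piCongrLeft, Equiv.piCongrLeft]
    simp [hT, e2, MeasurableEquiv.sumPiEquivProdPi, Equiv.sumPiEquivProdPi, h1]
  rw [hpre, hmp.measure_preimage hTm.nullMeasurableSet, Measure.prod_apply hTm]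
  have hslice : ∀ z, volume (Prod.mk z ⁻¹' T)
      ≤ (Set.univ.pi fun _ : Fin 3 => U).indicator (fun _ => volume U' ^ n) z := by
    intro z
    by_cases hz : z ∈ Set.univ.pi fun _ : Fin 3 => U
    · rw [Set.indicator_of_mem hz]
      have : Prod.mk z ⁻¹' T ⊆ Set.univ.pi fun i => (fun v => v - φ z i) ⁻¹' U' := by
        intro q hq i _
        exact hq.2 i
      refine (measure_mono this).trans_eq ?_
      rw [volume_pi_pi]
      simp [sub_eq_add_neg, measure_preimage_add_right]
    · rw [Set.indicator_of_notMem hz]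
      refine le_of_eq ?_
      convert measure_empty (μ := (volume : Measure (Fin n → Fin k × Fin k → ℝ)))
      ext q
      simp only [Set.mem_preimage, Set.mem_empty_iff_false, iff_false]
      exact fun hq => hz fun c _ => hq.1 c
  refine (lintegral_mono hslice).trans_eq ?_
  rw [lintegral_indicator_const (MeasurableSet.univ_pi fun _ => hU), volume_pi_pi]
  simp [mul_comm]

theorem chi_le {n : ℕ} {H : Type*} [NormedAddCommGroup H] [InnerProductSpace ℂ H] [CompleteSpace H]
    (Ω : H) (hΩ : ‖Ω‖ = 1) (X : Fin (3 + n) → H →L[ℂ] H) (W : Fin n → List (Fin (3 + n)))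
    (hW : ∀ i, (W i).reverse = W i)
    (hWz : ∀ i, ∀ z ∈ W i, ∃ c : Fin 3, z = Fin.castAdd n c)
    {V V' : ℝ} (hV : 0 < V) (hV' : 0 < V')
    (hZ : ∀ c : Fin 3, (vstate Ω (monom X [Fin.castAdd n c, Fin.castAdd n c])).re < V)
    (hY : ∀ i : Fin n, (vstate Ω (monom X [Fin.natAdd 3 i, Fin.natAdd 3 i])
        - vstate Ω (monom X (Fin.natAdd 3 i :: W i))
        - vstate Ω (monom X (W i ++ [Fin.natAdd 3 i]))
        + vstate Ω (monom X (W i ++ W i))).re < V') :
    chi Ω X ≤ ((3 / 2 * Real.log (2 * Real.pi * Real.exp 1 * V)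
      + (n : ℝ) / 2 * Real.log (2 * Real.pi * Real.exp 1 * V') : ℝ) : EReal) := by
  -- choice of the degree and of the tolerance
  set τ : List (Fin (3 + n)) → ℂ := fun w => vstate Ω (monom X w) with hτ
  set gZ : Fin 3 → ℝ := fun c => V - (τ [Fin.castAdd n c, Fin.castAdd n c]).re with hgZ
  set gY : Fin n → ℝ := fun i => V' - (τ [Fin.natAdd 3 i, Fin.natAdd 3 i]
    - τ (Fin.natAdd 3 i :: W i) - τ (W i ++ [Fin.natAdd 3 i]) + τ (W i ++ W i)).re with hgY
  obtain ⟨ε, hε, hεZ, hεY⟩ : ∃ ε, 0 < ε ∧ (∀ c, ε < gZ c) ∧ ∀ i, 4 * ε < gY i := by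
    have hf : ∀ᶠ ε in nhdsWithin (0 : ℝ) (Set.Ioi 0),
        0 < ε ∧ (∀ c, ε < gZ c) ∧ ∀ i, 4 * ε < gY i := by
      have hc : Filter.Tendsto (fun ε : ℝ => ε) (nhdsWithin 0 (Set.Ioi 0)) (nhds 0) :=
        nhdsWithin_le_nhds
      refine (eventually_mem_nhdsWithin.and ((eventually_all.2 fun c => ?_).and
        (eventually_all.2 fun i => ?_)))
      · exact hc.eventually (gt_mem_nhds (by simp only [hgZ, hτ]; linarith [hZ c]))
      · refine (hc.const_mul 4).eventually (gt_mem_nhds ?_)
        simp only [hgY, hτ, mul_zero]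
        linarith [hY i]
    exact hf.exists
  set m : ℕ := 2 + ∑ i, 2 * (W i).length with hm
  have hmW : ∀ i, 2 * (W i).length ≤ m := fun i => by
    have := Finset.single_le_sum (f := fun i => 2 * (W i).length) (fun _ _ => Nat.zero_le _)
      (Finset.mem_univ i)
    omega
  refine iSup₂_le fun R _ => ?_
  refine (iInf_le _ m).trans ((iInf_le _ ε).trans ((iInf_le _ hε).trans ?_))
  refine Filter.limsup_le_of_le (h := ?_)
  filter_upwards [eventually_gt_atTop 0] with k hk
  have hk' : (0 : ℝ) < k := by exact_mod_cast hk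
  -- the microstates lie in a sheared product of balls
  set φ : (Fin 3 → Fin k × Fin k → ℝ) → Fin n → Fin k × Fin k → ℝ := fun z i =>
    coordOf (matMonom (fun j => herm (Fin.append z (fun _ => 0) j)) (W i)) with hφ
  set ball : ℝ → Set (Fin k × Fin k → ℝ) := fun v => {u | ∑ p, u p ^ 2 ≤ k * v} with hball
  have hsub : microstates Ω X R m k ε ⊆
      {x | (∀ c : Fin 3, x (Fin.castAdd n c) ∈ ball V) ∧
        ∀ i : Fin n, x (Fin.natAdd 3 i) - φ (fun c => x (Fin.castAdd n c)) i ∈ ball V'} := by
    intro x hx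
    set A : Fin (3 + n) → Matrix (Fin k) (Fin k) ℂ := fun j => herm (x j)
    have hclose : ∀ w : List (Fin (3 + n)), w.length ≤ m → ‖ntr (matMonom A w) - τ w‖ < ε := by
      intro w hw
      rcases Nat.eq_zero_or_pos w.length with h0 | h0
      · rw [List.length_eq_zero_iff] at h0
        subst h0
        have h1 : τ [] = 1 := by
          simp [hτ, vstate, monom, inner_self_eq_norm_sq_to_K, hΩ]
        have h2 : ntr (matMonom A []) = 1 := by
          simp [ntr, matMonom, Matrix.trace_one, hk.ne']
        rw [h1, h2, sub_self, norm_zero]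
        exact hε
      · exact hx.2 w h0 hw
    have hre : ∀ w : List (Fin (3 + n)), w.length ≤ m →
        |(ntr (matMonom A w)).re - (τ w).re| < ε := fun w hw =>
      lt_of_le_of_lt (by simpa [Complex.sub_re] using Complex.abs_re_le_norm (ntr (matMonom A w) - τ w))
        (hclose w hw)
    have hsq : ∀ u : Fin k × Fin k → ℝ, ∑ p, u p ^ 2 = k * (ntr (herm u * herm u)).re := by
      intro u
      simp only [ntr, Complex.mul_re, Complex.inv_re, Complex.inv_im, Complex.natCast_re,
        Complex.natCast_im, trace_herm_sq, neg_zero, zero_div, zero_mul, sub_zero,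
        Complex.normSq_natCast]
      field_simp
    refine ⟨fun c => ?_, fun i => ?_⟩
    · show ∑ p, x (Fin.castAdd n c) p ^ 2 ≤ k * V
      rw [hsq]
      refine mul_le_mul_of_nonneg_left ?_ hk'.le
      have h := abs_lt.1 (hre [Fin.castAdd n c, Fin.castAdd n c] (by simp [hm]))
      have h' := hεZ c
      simp only [hgZ] at h'
      simp only [matMonom, List.map_cons, List.map_nil, List.prod_cons, List.prod_nil, mul_one,
        A] at h
      linarith
    · show ∑ p, (x (Fin.natAdd 3 i) - φ _ i) p ^ 2 ≤ k * V'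
      rw [hsq]
      refine mul_le_mul_of_nonneg_left ?_ hk'.le
      have hM : matMonom (fun j => herm (Fin.append (fun c => x (Fin.castAdd n c))
          (fun _ => 0) j)) (W i) = matMonom A (W i) := by
        simp only [matMonom]
        congr 1
        refine List.map_congr_left fun z hz => ?_
        obtain ⟨c, rfl⟩ := hWz i z hz
        simp [A]
      have hherm : (matMonom A (W i)).IsHermitian := by
        rw [Matrix.IsHermitian, matMonom_conjTranspose A (fun j => isHermitian_herm _), hW]
      rw [herm_sub, hφ]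
      simp only [hM, herm_coordOf hherm]
      have e : ntr ((herm (x (Fin.natAdd 3 i)) - matMonom A (W i))
          * (herm (x (Fin.natAdd 3 i)) - matMonom A (W i)))
          = ntr (matMonom A [Fin.natAdd 3 i, Fin.natAdd 3 i])
            - ntr (matMonom A (Fin.natAdd 3 i :: W i))
            - ntr (matMonom A (W i ++ [Fin.natAdd 3 i])) + ntr (matMonom A (W i ++ W i)) := by
        simp only [matMonom, List.map_cons, List.map_nil, List.map_append, List.prod_cons,
          List.prod_nil, List.prod_append, mul_one, sub_mul, mul_sub, ntr, Matrix.trace_sub, A]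
        ring
      rw [e]
      have hl := hmW i
      have h1 := abs_lt.1 (hre [Fin.natAdd 3 i, Fin.natAdd 3 i] (by simp [hm]))
      have h2 := abs_lt.1 (hre (Fin.natAdd 3 i :: W i) (by simp [hm] at hl ⊢; omega))
      have h3 := abs_lt.1 (hre (W i ++ [Fin.natAdd 3 i]) (by simp [hm] at hl ⊢; omega))
      have h4 := abs_lt.1 (hre (W i ++ W i) (by simp at hl ⊢; omega))
      have h' := hεY i
      simp only [hgY] at h'
      simp only [Complex.sub_re, Complex.add_re] at h' ⊢
      linarith
  have hφc : Continuous φ := by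
    refine continuous_pi fun i => continuous_pi fun p => ?_
    have hcA : ∀ j : Fin (3 + n), Continuous fun z : Fin 3 → Fin k × Fin k → ℝ =>
        herm (Fin.append z (fun _ => 0) j) := by
      intro j
      refine continuous_matrix fun a b => ?_
      induction j using Fin.addCases with
      | left c => simp only [Fin.append_left, herm]; split_ifs <;> fun_prop
      | right i' => simp only [Fin.append_right]; exact continuous_const
    have hc : Continuous fun z : Fin 3 → Fin k × Fin k → ℝ =>
        matMonom (fun j => herm (Fin.append z (fun _ => 0) j)) (W i) :=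
      continuous_list_prod _ fun j _ => hcA j
    simp only [hφ, coordOf]
    split_ifs
    · exact Complex.continuous_re.comp (hc.matrix_elem _ _)
    · exact continuous_const.mul (Complex.continuous_re.comp (hc.matrix_elem _ _))
    · exact continuous_const.mul (Complex.continuous_im.comp (hc.matrix_elem _ _))
  have hballm : ∀ v, MeasurableSet (ball v) := fun v =>
    measurableSet_le (by fun_prop) measurable_const
  set rV : ℝ := 2 * Real.pi * Real.exp 1 * V / k
  set rV' : ℝ := 2 * Real.pi * Real.exp 1 * V' / k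
  have hrV : 0 < rV := by positivity
  have hrV' : 0 < rV' := by positivity
  set P : ℝ := (rV ^ ((k : ℝ) ^ 2 / 2)) ^ 3 * (rV' ^ ((k : ℝ) ^ 2 / 2)) ^ n with hP
  have hPpos : 0 < P := by positivity
  have hvol : volume (microstates Ω X R m k ε) ≤ ENNReal.ofReal P := by
    refine (measure_mono hsub).trans ((volume_shear_le φ hφc _ _ (hballm V) (hballm V')).trans ?_)
    rw [hP, ENNReal.ofReal_mul (by positivity), ENNReal.ofReal_pow (by positivity),
      ENNReal.ofReal_pow (by positivity)]
    exact mul_le_mul' (pow_le_pow_left' (volume_sq_le hk hV) 3)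
      (pow_le_pow_left' (volume_sq_le hk hV') n)
  refine (add_le_add (mul_le_mul_of_nonneg_left (ENNReal.log_monotone hvol) ?_) le_rfl).trans ?_
  · exact_mod_cast (by positivity : (0 : ℝ) ≤ ((k : ℝ) ^ 2)⁻¹)
  rw [ENNReal.log_ofReal_of_pos hPpos, ← EReal.coe_mul, ← EReal.coe_add, EReal.coe_le_coe_iff]
  rw [hP, Real.log_mul (by positivity) (by positivity), Real.log_pow, Real.log_pow,
    Real.log_rpow hrV, Real.log_rpow hrV']
  simp only [rV, rV', Real.log_div (ne_of_gt (show (0 : ℝ) < 2 * Real.pi * Real.exp 1 * V by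
    positivity)) hk'.ne', Real.log_div (ne_of_gt (show (0 : ℝ) < 2 * Real.pi * Real.exp 1 * V' by
    positivity)) hk'.ne']
  push_cast
  field_simp
  nlinarith

end Vale.Agent.P087
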