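import Vale.Agent.P087.Defs

/-! # P087 — the operator norm of the Gaussian Hermitian matrix is `O(√k)` with high probability

Route: `⟪v, H v⟫` is a centred Gaussian of variance one for a unit vector `v`; a `1/4`-net of the
unit sphere of `ℂ^k` has at most `9^(2k)` points. -/

noncomputable section

open MeasureTheory Filter ProbabilityTheory
open scoped Topology

namespace Vale.Agent.P087
open scoped InnerProductSpace ComplexConjugate

namespace GNorm

/-- A quarter-separated subset of the closed unit ball has at most `9 ^ dim` points. -/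
theorem card_le {E : Type*} [NormedAddCommGroup E] [NormedSpace ℝ E] [FiniteDimensional ℝ E]
    (s : Finset E) (hs : ∀ c ∈ s, ‖c‖ ≤ 1)
    (h : ∀ c ∈ s, ∀ d ∈ s, c ≠ d → 1 / 4 ≤ ‖c - d‖) :
    s.card ≤ 9 ^ Module.finrank ℝ E := by
  borelize E
  let μ : Measure E := Measure.addHaar
  have D : Set.Pairwise (s : Set E) (Function.onFun Disjoint fun c => Metric.ball c (1 / 8 : ℝ)) := by
    intro c hc d hd hcd
    refine Metric.ball_disjoint_ball ?_
    rw [dist_eq_norm]
    linarith [h c hc d hd hcd]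
  have hsub : (⋃ c ∈ s, Metric.ball c (1 / 8 : ℝ)) ⊆ Metric.ball (0 : E) (9 / 8) := by
    refine Set.iUnion₂_subset fun c hc => Metric.ball_subset_ball' ?_
    rw [dist_zero_right]
    linarith [hs c hc]
  have I : (s.card : ENNReal) * ENNReal.ofReal ((1 / 8 : ℝ) ^ Module.finrank ℝ E)
        * μ (Metric.ball 0 1)
      ≤ ENNReal.ofReal ((9 / 8 : ℝ) ^ Module.finrank ℝ E) * μ (Metric.ball 0 1) := by
    calc _ = μ (⋃ c ∈ s, Metric.ball c (1 / 8 : ℝ)) := by
          rw [measure_biUnion_finset D fun c _ => measurableSet_ball]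
          simp only [μ.addHaar_ball_of_pos _ (by norm_num : (0 : ℝ) < 1 / 8), Finset.sum_const,
            nsmul_eq_mul, mul_assoc]
      _ ≤ μ (Metric.ball (0 : E) (9 / 8)) := measure_mono hsub
      _ = _ := μ.addHaar_ball_of_pos _ (by norm_num)
  have J := (ENNReal.mul_le_mul_iff_left (Metric.measure_ball_pos _ _ zero_lt_one).ne'
    measure_ball_lt_top.ne).1 I
  have K := ENNReal.toReal_le_of_le_ofReal (by positivity) J
  rw [ENNReal.toReal_mul, ENNReal.toReal_natCast, ENNReal.toReal_ofReal (by positivity)] at K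
  have K' : (s.card : ℝ) * (1 / 8 : ℝ) ^ Module.finrank ℝ E
      ≤ (9 : ℝ) ^ Module.finrank ℝ E * (1 / 8 : ℝ) ^ Module.finrank ℝ E := by
    rw [← mul_pow (9 : ℝ)]
    norm_num at K ⊢
    exact K
  exact_mod_cast le_of_mul_le_mul_right K' (by positivity)

/-- A quarter-net of the unit sphere with at most `9 ^ dim` points. -/
theorem exists_small_net (E : Type*) [NormedAddCommGroup E] [NormedSpace ℝ E]
    [FiniteDimensional ℝ E] :
    ∃ T : Finset E, T.card ≤ 9 ^ Module.finrank ℝ E ∧ (∀ u ∈ T, ‖u‖ = 1) ∧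
      ∀ v : E, ‖v‖ = 1 → ∃ u ∈ T, ‖v - u‖ ≤ 1 / 4 := by
  classical
  let P : ℕ → Prop := fun n => ∃ T : Finset E, T.card = n ∧ (∀ u ∈ T, ‖u‖ = 1) ∧
    ∀ c ∈ T, ∀ d ∈ T, c ≠ d → 1 / 4 ≤ ‖c - d‖
  have hb : ∀ n, P n → n ≤ 9 ^ Module.finrank ℝ E := by
    rintro n ⟨T, rfl, h1, h2⟩
    exact card_le T (fun c hc => (h1 c hc).le) h2
  have h0 : P 0 := ⟨∅, rfl, by simp, by simp⟩
  obtain ⟨T, hcard, h1, h2⟩ :=
    Nat.findGreatest_spec (P := P) (Nat.zero_le (9 ^ Module.finrank ℝ E)) h0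
  refine ⟨T, hcard ▸ Nat.findGreatest_le _, h1, fun v hv => ?_⟩
  by_contra hne
  push Not at hne
  have hvT : v ∉ T := fun hvT => by
    have := hne v hvT
    simp at this
    linarith
  have hP : P (T.card + 1) := by
    refine ⟨insert v T, Finset.card_insert_of_notMem hvT, ?_, ?_⟩
    · intro u hu
      rcases Finset.mem_insert.1 hu with rfl | hu
      · exact hv
      · exact h1 u hu
    · intro c hc d hd hcd
      rcases Finset.mem_insert.1 hc with hc | hc <;> rcases Finset.mem_insert.1 hd with hd | hd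
      · exact absurd (hc.trans hd.symm) hcd
      · rw [hc]; exact (hne d hd).le
      · rw [hd, norm_sub_rev]; exact (hne c hc).le
      · exact h2 c hc d hd hcd
  have := Nat.le_findGreatest (hb _ hP) hP
  omega

/-- An operator whose quadratic form is small on a quarter-net has small norm. -/
theorem norm_le_of_net {E : Type*} [NormedAddCommGroup E] [InnerProductSpace ℂ E]
    (A : E →L[ℂ] E) (hA : (A : E →ₗ[ℂ] E).IsSymmetric) (T : Finset E)
    (h1 : ∀ u ∈ T, ‖u‖ = 1) (h2 : ∀ v : E, ‖v‖ = 1 → ∃ u ∈ T, ‖v - u‖ ≤ 1 / 4)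
    {L : ℝ} (hL0 : 0 ≤ L) (hL : ∀ u ∈ T, |(⟪u, A u⟫_ℂ).re| ≤ L) : ‖A‖ ≤ 2 * L := by
  set M := L + ‖A‖ / 2 with hM
  have hM0 : 0 ≤ M := by positivity
  have hq : ∀ w : E, |(⟪w, A w⟫_ℂ).re| ≤ M * ‖w‖ ^ 2 := by
    intro w
    rcases eq_or_ne w 0 with rfl | hw
    · simp
    have hn : 0 < ‖w‖ := norm_pos_iff.2 hw
    set v := ((‖w‖⁻¹ : ℝ) : ℂ) • w with hv
    have hv1 : ‖v‖ = 1 := by
      rw [hv, norm_smul, Complex.norm_real, Real.norm_eq_abs, abs_inv, abs_norm,
        inv_mul_cancel₀ hn.ne']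
    obtain ⟨u, hu, hd⟩ := h2 v hv1
    have e : ⟪v, A v⟫_ℂ - ⟪u, A u⟫_ℂ = ⟪v - u, A v⟫_ℂ + ⟪u, A (v - u)⟫_ℂ := by
      simp only [map_sub, inner_sub_left, inner_sub_right]
      ring
    have b1 : ‖⟪v - u, A v⟫_ℂ‖ ≤ ‖A‖ / 4 := by
      refine (norm_inner_le_norm _ _).trans ?_
      have := A.le_opNorm v
      rw [hv1, mul_one] at this
      calc ‖v - u‖ * ‖A v‖ ≤ 1 / 4 * ‖A‖ := mul_le_mul hd this (norm_nonneg _) (by norm_num)
        _ = ‖A‖ / 4 := by ring
    have b2 : ‖⟪u, A (v - u)⟫_ℂ‖ ≤ ‖A‖ / 4 := by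
      refine (norm_inner_le_norm _ _).trans ?_
      rw [h1 u hu, one_mul]
      refine (A.le_opNorm _).trans ?_
      calc ‖A‖ * ‖v - u‖ ≤ ‖A‖ * (1 / 4) := mul_le_mul_of_nonneg_left hd (norm_nonneg _)
        _ = ‖A‖ / 4 := by ring
    have b3 : |(⟪v, A v⟫_ℂ).re| ≤ M := by
      have h3 := congrArg Complex.re e
      simp only [Complex.sub_re, Complex.add_re] at h3
      have r1 := (Complex.abs_re_le_norm _).trans b1
      have r2 := (Complex.abs_re_le_norm _).trans b2
      rw [show (⟪v, A v⟫_ℂ).re = (⟪u, A u⟫_ℂ).re + (⟪v - u, A v⟫_ℂ).re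
        + (⟪u, A (v - u)⟫_ℂ).re by linarith, hM]
      refine (abs_add_three _ _ _).trans ?_
      linarith [hL u hu]
    have hw' : (⟪w, A w⟫_ℂ).re = ‖w‖ ^ 2 * (⟪v, A v⟫_ℂ).re := by
      rw [hv, map_smul, inner_smul_left, inner_smul_right, Complex.conj_ofReal,
        Complex.re_ofReal_mul, Complex.re_ofReal_mul]
      field_simp
    rw [hw', abs_mul, abs_of_nonneg (sq_nonneg ‖w‖), mul_comm]
    exact mul_le_mul_of_nonneg_right b3 (sq_nonneg _)
  have key : ‖A‖ ≤ M := by
    refine A.opNorm_le_bound' hM0 fun z hz => ?_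
    rcases eq_or_ne ‖A z‖ 0 with h0 | h0
    · rw [h0]; positivity
    set c : ℝ := ‖z‖ / ‖A z‖ with hc
    set u := (c : ℂ) • A z with hu
    have hun : ‖u‖ = ‖z‖ := by
      rw [hu, norm_smul, Complex.norm_real, Real.norm_eq_abs, hc, abs_div, abs_norm, abs_norm,
        div_mul_cancel₀ _ h0]
    have hcr : (⟪u, A z⟫_ℂ).re = ‖z‖ * ‖A z‖ := by
      rw [hu, inner_smul_left, Complex.conj_ofReal, Complex.re_ofReal_mul,
        show (⟪A z, A z⟫_ℂ).re = ‖A z‖ ^ 2 from inner_self_eq_norm_sq (𝕜 := ℂ) (A z), hc]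
      field_simp
    have hsym : (⟪z, A u⟫_ℂ).re = (⟪u, A z⟫_ℂ).re := by
      rw [← inner_conj_symm z (A u), Complex.conj_re]
      exact congrArg Complex.re (hA u z)
    have hp : (⟪z + u, A (z + u)⟫_ℂ).re - (⟪z - u, A (z - u)⟫_ℂ).re
        = 4 * (⟪u, A z⟫_ℂ).re := by
      simp only [map_add, map_sub, inner_add_left, inner_add_right, inner_sub_left, inner_sub_right,
        Complex.add_re, Complex.sub_re, hsym]
      ring
    have hpar := parallelogram_law_with_norm ℂ z u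
    have a1 := abs_le.1 (hq (z + u))
    have a2 := abs_le.1 (hq (z - u))
    have hz0 : 0 < ‖z‖ := lt_of_le_of_ne (norm_nonneg _) (Ne.symm hz)
    rw [hun] at hpar
    nlinarith [a1.2, a2.1]
  rw [hM] at key
  linarith

/-- The coefficient of `x p` in the quadratic form `v ↦ ⟪v, herm x v⟫`. -/
def qc {k : ℕ} (v : Fin k → ℂ) (p : Fin k × Fin k) : ℝ :=
  if p.1 = p.2 then Complex.normSq (v p.1)
  else if p.1 < p.2 then Real.sqrt 2 * (conj (v p.1) * v p.2).re
  else -(Real.sqrt 2 * (conj (v p.2) * v p.1).im)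

theorem qc_sq {k : ℕ} (v : Fin k → ℂ) (i j : Fin k) :
    qc v (i, j) ^ 2 + qc v (j, i) ^ 2 = 2 * (Complex.normSq (v i) * Complex.normSq (v j)) := by
  have h2 : Real.sqrt 2 ^ 2 = 2 := Real.sq_sqrt (by norm_num)
  rcases lt_trichotomy i j with h | rfl | h
  · simp only [qc, if_neg h.ne, if_neg h.ne', if_pos h, if_neg h.asymm, Complex.normSq_apply,
      Complex.mul_re, Complex.mul_im, Complex.conj_re, Complex.conj_im]
    ring_nf
    rw [h2]
    ring
  · simp only [qc, if_pos]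
    ring
  · simp only [qc, if_neg h.ne, if_neg h.ne', if_pos h, if_neg h.asymm, Complex.normSq_apply,
      Complex.mul_re, Complex.mul_im, Complex.conj_re, Complex.conj_im]
    ring_nf
    rw [h2]
    ring

theorem sum_qc_sq {k : ℕ} (v : Fin k → ℂ) :
    ∑ p, qc v p ^ 2 = (∑ i, Complex.normSq (v i)) ^ 2 := by
  have e1 : ∑ p, qc v p ^ 2 = ∑ i, ∑ j, qc v (i, j) ^ 2 := Fintype.sum_prod_type _
  have e2 : ∑ i, ∑ j, qc v (i, j) ^ 2 = ∑ i, ∑ j, qc v (j, i) ^ 2 := Finset.sum_comm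
  have e3 : ∑ i, ∑ j, (qc v (i, j) ^ 2 + qc v (j, i) ^ 2)
      = 2 * (∑ i, Complex.normSq (v i)) ^ 2 := by
    simp only [qc_sq, ← Finset.mul_sum]
    rw [sq, Finset.sum_mul]
  simp only [Finset.sum_add_distrib] at e3
  linarith

theorem herm_form {k : ℕ} (x : Fin k × Fin k → ℝ) (v : Fin k → ℂ) :
    (∑ i, conj (v i) * (herm x).mulVec v i).re = ∑ p, qc v p * x p := by
  set T : Fin k → Fin k → ℝ := fun i j => (conj (v i) * (herm x i j * v j)).re with hT
  have e0 : (∑ i, conj (v i) * (herm x).mulVec v i).re = ∑ i, ∑ j, T i j := by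
    simp only [hT, Matrix.mulVec, dotProduct, Finset.mul_sum, Complex.re_sum]
  have h2 : Real.sqrt 2 ^ 2 = 2 := Real.sq_sqrt (by norm_num)
  have h20 : Real.sqrt 2 ≠ 0 := by positivity
  have pair : ∀ i j, T i j + T j i = qc v (i, j) * x (i, j) + qc v (j, i) * x (j, i) := by
    intro i j
    rcases lt_trichotomy i j with h | rfl | h
    · simp only [hT, qc, herm, if_neg h.ne, if_neg h.ne', if_pos h, if_neg h.asymm,
        Complex.div_ofReal_re, Complex.div_ofReal_im, Complex.mul_re, Complex.mul_im,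
        Complex.conj_re, Complex.conj_im, Complex.add_re, Complex.add_im, Complex.sub_re,
        Complex.sub_im, Complex.ofReal_re, Complex.ofReal_im, Complex.I_re, Complex.I_im]
      field_simp
      rw [h2]
      ring
    · simp only [hT, qc, herm, if_pos, Complex.normSq_apply, Complex.mul_re, Complex.mul_im,
        Complex.conj_re, Complex.conj_im, Complex.ofReal_re, Complex.ofReal_im]
      ring
    · simp only [hT, qc, herm, if_neg h.ne, if_neg h.ne', if_pos h, if_neg h.asymm,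
        Complex.div_ofReal_re, Complex.div_ofReal_im, Complex.mul_re, Complex.mul_im,
        Complex.conj_re, Complex.conj_im, Complex.add_re, Complex.add_im, Complex.sub_re,
        Complex.sub_im, Complex.ofReal_re, Complex.ofReal_im, Complex.I_re, Complex.I_im]
      field_simp
      rw [h2]
      ring
  have e1 : ∑ i, ∑ j, T i j = ∑ i, ∑ j, T j i := Finset.sum_comm
  have e2 : ∑ p, qc v p * x p = ∑ i, ∑ j, qc v (i, j) * x (i, j) := Fintype.sum_prod_type _
  have e3 : ∑ i, ∑ j, qc v (i, j) * x (i, j) = ∑ i, ∑ j, qc v (j, i) * x (j, i) := Finset.sum_comm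
  have e4 : ∑ i, ∑ j, (T i j + T j i)
      = ∑ i, ∑ j, (qc v (i, j) * x (i, j) + qc v (j, i) * x (j, i)) := by simp only [pair]
  simp only [Finset.sum_add_distrib] at e4
  linarith

theorem herm_isHermitian {k : ℕ} (x : Fin k × Fin k → ℝ) : (herm x).IsHermitian := by
  refine Matrix.IsHermitian.ext fun i j => ?_
  rcases lt_trichotomy i j with h | rfl | h
  · simp only [herm, if_neg h.ne, if_neg h.ne', if_pos h, if_neg h.asymm]
    simp [sub_eq_add_neg]
  · simp [herm]
  · simp only [herm, if_neg h.ne, if_neg h.ne', if_pos h, if_neg h.asymm]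
    simp [sub_eq_add_neg]

theorem linear_tail {ι : Type*} [Fintype ι] (c : ι → ℝ) (hc : ∑ i, c i ^ 2 = 1) {L : ℝ}
    (hL : 0 ≤ L) :
    (Measure.pi fun _ : ι => gaussianReal 0 1) {x | L ≤ ∑ i, c i * x i}
      ≤ ENNReal.ofReal (Real.exp (-(L ^ 2 / 2))) := by
  set μ := Measure.pi fun _ : ι => gaussianReal 0 1 with hμ
  have hint : Integrable (fun x : ι → ℝ => Real.exp (L * ∑ i, c i * x i)) μ := by
    have := Integrable.fintype_prod (μ := fun _ : ι => gaussianReal 0 1)
      (f := fun i (z : ℝ) => Real.exp ((L * c i) * z))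
      fun i => integrable_exp_mul_gaussianReal _
    refine this.congr (Eventually.of_forall fun x => ?_)
    simp only [← Real.exp_sum, Finset.mul_sum, mul_assoc]
  have hmgf : mgf (fun x : ι → ℝ => ∑ i, c i * x i) μ L = Real.exp (L ^ 2 / 2) := by
    have e : (fun x : ι → ℝ => Real.exp (L * ∑ i, c i * x i))
        = fun x => ∏ i, Real.exp ((L * c i) * x i) := by
      funext x
      rw [← Real.exp_sum, Finset.mul_sum]
      simp only [mul_assoc]
    rw [mgf, e, hμ, integral_fintype_prod_eq_prod (fun i (z : ℝ) => Real.exp ((L * c i) * z))]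
    have hone : ∀ i, ∫ z, Real.exp ((L * c i) * z) ∂gaussianReal 0 1
        = Real.exp ((L * c i) ^ 2 / 2) := by
      intro i
      have := congrFun (mgf_id_gaussianReal (μ := 0) (v := 1)) (L * c i)
      simpa [mgf] using this
    rw [Finset.prod_congr rfl fun i _ => hone i, ← Real.exp_sum]
    congr 1
    simp only [mul_pow, ← Finset.sum_div, ← Finset.mul_sum, hc, mul_one]
  have h := measure_ge_le_exp_mul_mgf (μ := μ) (X := fun x : ι → ℝ => ∑ i, c i * x i) L hL hint
  rw [hmgf, ← Real.exp_add] at h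
  rw [← ENNReal.ofReal_toReal (measure_ne_top μ _)]
  refine ENNReal.ofReal_le_ofReal (h.trans (le_of_eq ?_))
  congr 1
  ring

theorem abs_linear_tail {ι : Type*} [Fintype ι] (c : ι → ℝ) (hc : ∑ i, c i ^ 2 = 1) {L : ℝ}
    (hL : 0 ≤ L) :
    (Measure.pi fun _ : ι => gaussianReal 0 1) {x | L < |∑ i, c i * x i|}
      ≤ 2 * ENNReal.ofReal (Real.exp (-(L ^ 2 / 2))) := by
  have hsub : {x : ι → ℝ | L < |∑ i, c i * x i|}
      ⊆ {x | L ≤ ∑ i, c i * x i} ∪ {x | L ≤ ∑ i, (-c i) * x i} := by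
    intro x hx
    rcases lt_abs.1 (show L < |∑ i, c i * x i| from hx) with h | h
    · exact Or.inl h.le
    · refine Or.inr ?_
      simp only [Set.mem_ofPred_eq, neg_mul, Finset.sum_neg_distrib]
      exact h.le
  refine (measure_mono hsub).trans ((measure_union_le _ _).trans ?_)
  rw [two_mul]
  exact add_le_add (linear_tail c hc hL) (linear_tail (fun i => -c i) (by simpa using hc) hL)

theorem herm_norm_prob (k : ℕ) :
    (Measure.pi fun _ : Fin k × Fin k => gaussianReal 0 1)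
      {x | ¬ NormLE (herm x) (8 * Real.sqrt k)}
      ≤ ENNReal.ofReal (2 * (81 / Real.exp 8) ^ k) := by
  obtain ⟨T, hcard, h1, h2⟩ := exists_small_net (EuclideanSpace ℂ (Fin k))
  rw [finrank_real_of_complex, finrank_euclideanSpace_fin, pow_mul] at hcard
  set L : ℝ := 4 * Real.sqrt k with hL
  have hsub : {x : Fin k × Fin k → ℝ | ¬ NormLE (herm x) (8 * Real.sqrt k)}
      ⊆ ⋃ u ∈ T, {x | L < |∑ p, qc (WithLp.ofLp u) p * x p|} := by
    intro x hx
    by_contra hne
    simp only [Set.mem_iUnion, Set.mem_ofPred_eq, not_exists, not_lt] at hne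
    apply hx
    set A := Matrix.toEuclideanCLM (𝕜 := ℂ) (herm x) with hA
    have hsym : (A : EuclideanSpace ℂ (Fin k) →ₗ[ℂ] EuclideanSpace ℂ (Fin k)).IsSymmetric := by
      rw [hA, Matrix.coe_toEuclideanCLM_eq_toEuclideanLin]
      exact Matrix.isSymmetric_toEuclideanLin_iff.2 (herm_isHermitian x)
    have hAn : ‖A‖ ≤ 2 * L := by
      refine norm_le_of_net A hsym T h1 h2 (by positivity) fun u hu => ?_
      have e : (⟪u, A u⟫_ℂ).re = ∑ p, qc (WithLp.ofLp u) p * x p := by
        rw [← herm_form, hA]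
        simp [PiLp.inner_apply, mul_comm]
      rw [e]
      exact hne u hu
    intro w
    have h := A.le_opNorm (WithLp.toLp 2 w)
    have h' : ‖A (WithLp.toLp 2 w)‖ ≤ 8 * Real.sqrt k * ‖WithLp.toLp 2 w‖ := by
      refine h.trans (mul_le_mul_of_nonneg_right (hAn.trans (le_of_eq ?_)) (norm_nonneg _))
      rw [hL]; ring
    have h3 := pow_le_pow_left₀ (norm_nonneg _) h' 2
    rw [mul_pow, EuclideanSpace.norm_sq_eq, EuclideanSpace.norm_sq_eq, hA,
      Matrix.toEuclideanCLM_toLp] at h3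
    exact h3
  refine (measure_mono hsub).trans ((measure_biUnion_finset_le _ _).trans ?_)
  refine (Finset.sum_le_card_nsmul _ _ (2 * ENNReal.ofReal (Real.exp (-(L ^ 2 / 2))))
    fun u hu => abs_linear_tail _ ?_ (by positivity)).trans ?_
  · rw [sum_qc_sq]
    have : ∑ i, Complex.normSq (WithLp.ofLp u i) = ‖u‖ ^ 2 := by
      rw [EuclideanSpace.norm_sq_eq]
      simp [Complex.normSq_eq_norm_sq]
    rw [this, h1 u hu]
    norm_num
  have hL2 : L ^ 2 / 2 = (k : ℝ) * 8 := by
    rw [hL, mul_pow, Real.sq_sqrt (Nat.cast_nonneg k)]; ring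
  rw [hL2, Real.exp_neg, Real.exp_nat_mul, nsmul_eq_mul]
  calc (T.card : ENNReal) * (2 * ENNReal.ofReal ((Real.exp 8 ^ k)⁻¹))
      = ENNReal.ofReal ((T.card : ℝ) * (2 * (Real.exp 8 ^ k)⁻¹)) := by
        rw [ENNReal.ofReal_mul (Nat.cast_nonneg _), ENNReal.ofReal_natCast,
          ENNReal.ofReal_mul (by norm_num : (0 : ℝ) ≤ 2), ENNReal.ofReal_ofNat]
    _ ≤ ENNReal.ofReal (2 * (81 / Real.exp 8) ^ k) := by
        refine ENNReal.ofReal_le_ofReal ?_
        have h9 : (T.card : ℝ) ≤ 81 ^ k := by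
          have : T.card ≤ (9 ^ 2) ^ k := hcard
          norm_num at this
          exact_mod_cast this
        rw [div_pow, div_eq_mul_inv]
        nlinarith [mul_le_mul_of_nonneg_right h9 (by positivity : (0 : ℝ) ≤ (Real.exp 8 ^ k)⁻¹)]

end GNorm

theorem herm_norm_tendsto :
    Tendsto (fun k : ℕ => (Measure.pi fun _ : Fin k × Fin k => gaussianReal 0 1)
      {x | ¬ NormLE (herm x) (8 * Real.sqrt k)}) atTop (𝓝 0) := by
  have h8 : (81 : ℝ) < Real.exp 8 := by
    have h1 : (2 : ℝ) ≤ Real.exp 1 := by linarith [Real.add_one_le_exp (1 : ℝ)]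
    have h2 := pow_le_pow_left₀ (by norm_num) h1 8
    rw [← Real.exp_nat_mul] at h2
    norm_num at h2
    linarith
  have h := tendsto_pow_atTop_nhds_zero_of_lt_one (by positivity : (0 : ℝ) ≤ 81 / Real.exp 8)
    ((div_lt_one (Real.exp_pos 8)).2 h8)
  have h' := ENNReal.tendsto_ofReal (h.const_mul 2)
  rw [mul_zero, ENNReal.ofReal_zero] at h'
  exact tendsto_of_tendsto_of_tendsto_of_le_of_le tendsto_const_nhds h'
    (fun k => zero_le) GNorm.herm_norm_prob

end Vale.Agent.P087
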