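import Mathlib

/-! # P087 — counting trivial words by ping-pong -/

noncomputable section

open scoped Classical

namespace Vale.Agent.P087

variable {G : Type*} [Group G]

/-- The number of words of length `a` in the letters `y` with product `x`. -/
def walk {N : ℕ} (y : Fin N → G) : ℕ → G → ℝ
  | 0, x => if x = 1 then 1 else 0
  | a + 1, x => ∑ j, walk y a ((y j)⁻¹ * x)

theorem walk_eq_card {N : ℕ} (y : Fin N → G) (a : ℕ) (x : G) :
    walk y a x = ((Finset.univ.filter fun v : Fin a → Fin N =>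
      ((List.ofFn v).map y).prod = x).card : ℝ) := by
  induction a generalizing x with
  | zero => by_cases hx : x = 1 <;> simp [walk, hx, eq_comm]
  | succ a ih =>
    simp only [walk, ih, Finset.natCast_card_filter]
    rw [← (Fin.consEquiv (fun _ : Fin (a + 1) => Fin N)).sum_comp, Fintype.sum_prod_type]
    refine Finset.sum_congr rfl fun j _ => Finset.sum_congr rfl fun v _ => ?_
    simp [List.ofFn_succ, eq_inv_mul_iff_mul_eq]

/-- The finite set carrying `walk y a`. -/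
def walkSupp {N : ℕ} (y : Fin N → G) : ℕ → Finset G
  | 0 => {1}
  | a + 1 => Finset.univ.biUnion fun j => (walkSupp y a).image fun x => y j * x

theorem walk_eq_zero {N : ℕ} (y : Fin N → G) (a : ℕ) (x : G) (hx : x ∉ walkSupp y a) :
    walk y a x = 0 := by
  induction a generalizing x with
  | zero => simp_all [walk, walkSupp]
  | succ a ih =>
    refine Finset.sum_eq_zero fun j _ => ih _ fun h => hx ?_
    exact Finset.mem_biUnion.2 ⟨j, Finset.mem_univ _,
      Finset.mem_image.2 ⟨(y j)⁻¹ * x, h, mul_inv_cancel_left _ _⟩⟩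

theorem sum_translate_le (g : G) (F : G → ℝ) (hF : ∀ x, 0 ≤ F x) (T U : Finset G)
    (h0 : ∀ x, x ∉ U → F x = 0) : ∑ x ∈ T, F (g⁻¹ * x) ≤ ∑ x ∈ U, F x := by
  rw [← Finset.sum_image (f := F) (fun a _ b _ h => mul_left_cancel h)]
  refine (Finset.sum_le_sum_of_subset_of_nonneg (Finset.subset_union_right (s₁ := U))
    (fun x _ _ => hF x)).trans_eq ?_
  exact (Finset.sum_subset Finset.subset_union_left (fun x _ hx => h0 x hx)).symm

/-- The norm bound for `λ(h₀) + λ(h₁) + λ(h₂) + ∑ λ(g_i)` under the ping-pong hypotheses. -/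
theorem step_le {n : ℕ} (y : Fin (3 + n) → G) (E : Fin n → Set G)
    (hdis : ∀ i i' x, x ∈ E i → x ∈ E i' → i = i')
    (hmap : ∀ i x, x ∉ E i → (y (Fin.natAdd 3 i))⁻¹ * x ∈ E i)
    (f : G → ℝ) (T U : Finset G) (h0 : ∀ x, x ∉ U → f x = 0) :
    ∑ x ∈ T, (∑ j, f ((y j)⁻¹ * x)) ^ 2 ≤
      (2 * Real.sqrt n + 3) ^ 2 * ∑ x ∈ U, f x ^ 2 := by
  set s : ℝ := Real.sqrt n with hs
  have hs0 : 0 ≤ s := Real.sqrt_nonneg _
  have hs2 : s ^ 2 = n := Real.sq_sqrt (Nat.cast_nonneg n)
  set M : ℝ := ∑ x ∈ U, f x ^ 2 with hM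
  have hF : ∀ g : G, ∑ x ∈ T, f (g⁻¹ * x) ^ 2 ≤ M := fun g =>
    sum_translate_le g (fun z => f z ^ 2) (fun z => sq_nonneg _) T U
      (fun z hz => by simp [h0 z hz])
  let g : Fin n → G := fun i => y (Fin.natAdd 3 i)
  let h : Fin 3 → G := fun c => y (Fin.castAdd n c)
  let A : G → ℝ := fun x => ∑ i, if x ∈ E i then f ((g i)⁻¹ * x) else 0
  let C : G → ℝ := fun x => ∑ i, if x ∈ E i then 0 else f ((g i)⁻¹ * x)
  let P : G → ℝ := fun x => ∑ c, f ((h c)⁻¹ * x)
  have hsplit : ∀ x, ∑ j, f ((y j)⁻¹ * x) = P x + A x + C x := by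
    intro x
    have hAC : A x + C x = ∑ i, f ((g i)⁻¹ * x) := by
      simp only [A, C, ← Finset.sum_add_distrib]
      exact Finset.sum_congr rfl fun i _ => by by_cases hx : x ∈ E i <;> simp [hx]
    rw [Fin.sum_univ_add, add_assoc, hAC]
  have hP : ∑ x ∈ T, P x ^ 2 ≤ 9 * M := by
    calc ∑ x ∈ T, P x ^ 2 ≤ ∑ x ∈ T, 3 * ∑ c, f ((h c)⁻¹ * x) ^ 2 := by
          refine Finset.sum_le_sum fun x _ => ?_
          simpa [P] using sq_sum_le_card_mul_sum_sq
            (s := (Finset.univ : Finset (Fin 3))) (f := fun c => f ((h c)⁻¹ * x))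
      _ = 3 * ∑ c, ∑ x ∈ T, f ((h c)⁻¹ * x) ^ 2 := by
          rw [← Finset.mul_sum, Finset.sum_comm]
      _ ≤ 3 * ∑ _c : Fin 3, M := by gcongr with c; exact hF (h c)
      _ = 9 * M := by simp; ring
  have hA : ∑ x ∈ T, A x ^ 2 ≤ n * M := by
    calc ∑ x ∈ T, A x ^ 2 ≤ ∑ x ∈ T, ∑ i, f ((g i)⁻¹ * x) ^ 2 := by
          refine Finset.sum_le_sum fun x _ => ?_
          by_cases hx : ∃ i, x ∈ E i
          · obtain ⟨i, hi⟩ := hx
            have : A x = f ((g i)⁻¹ * x) := by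
              rw [show A x = ∑ k, if x ∈ E k then f ((g k)⁻¹ * x) else 0 from rfl,
                Finset.sum_eq_single i (fun k _ hk => if_neg fun hk' => hk (hdis k i x hk' hi))
                  (by simp), if_pos hi]
            rw [this]
            exact Finset.single_le_sum (f := fun k => f ((g k)⁻¹ * x) ^ 2)
              (fun k _ => sq_nonneg _) (Finset.mem_univ i)
          · have : A x = 0 := Finset.sum_eq_zero fun k _ => if_neg fun hk => hx ⟨k, hk⟩
            rw [this]; simpa using Finset.sum_nonneg fun k _ => sq_nonneg (f ((g k)⁻¹ * x))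
      _ = ∑ i, ∑ x ∈ T, f ((g i)⁻¹ * x) ^ 2 := Finset.sum_comm
      _ ≤ ∑ _i : Fin n, M := Finset.sum_le_sum fun i _ => hF (g i)
      _ = n * M := by simp
  have hE : ∀ z : G, ∑ i, (if z ∈ E i then f z ^ 2 else 0) ≤ f z ^ 2 := by
    intro z
    by_cases hx : ∃ i, z ∈ E i
    · obtain ⟨i, hi⟩ := hx
      rw [Finset.sum_eq_single i (fun k _ hk => if_neg fun hk' => hk (hdis k i z hk' hi))
        (by simp), if_pos hi]
    · rw [Finset.sum_eq_zero fun k _ => if_neg fun hk => hx ⟨k, hk⟩]; exact sq_nonneg _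
  have hC : ∑ x ∈ T, C x ^ 2 ≤ n * M := by
    let F : Fin n → G → ℝ := fun i z => if z ∈ E i then f z ^ 2 else 0
    have hF0 : ∀ i z, 0 ≤ F i z := fun i z => by simp only [F]; split_ifs <;> positivity
    calc ∑ x ∈ T, C x ^ 2 ≤ ∑ x ∈ T, (n : ℝ) * ∑ i, F i ((g i)⁻¹ * x) := by
          refine Finset.sum_le_sum fun x _ => ?_
          have := sq_sum_le_card_mul_sum_sq (s := (Finset.univ : Finset (Fin n)))
            (f := fun i => if x ∈ E i then (0 : ℝ) else f ((g i)⁻¹ * x))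
          simp only [Finset.card_univ, Fintype.card_fin] at this
          refine this.trans (mul_le_mul_of_nonneg_left
            (Finset.sum_le_sum fun i _ => ?_) (Nat.cast_nonneg n))
          by_cases hx : x ∈ E i
          · simpa [hx] using hF0 i _
          · simp [F, hx, hmap i x hx, g]
      _ = (n : ℝ) * ∑ i, ∑ x ∈ T, F i ((g i)⁻¹ * x) := by
          rw [← Finset.mul_sum, Finset.sum_comm]
      _ ≤ (n : ℝ) * ∑ i, ∑ z ∈ U, F i z := by
          gcongr with i
          exact sum_translate_le (g i) (F i) (hF0 i) T U fun z hz => by simp [F, h0 z hz]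
      _ ≤ (n : ℝ) * M := by
          rw [Finset.sum_comm]
          exact mul_le_mul_of_nonneg_left (Finset.sum_le_sum fun z _ => hE z) (Nat.cast_nonneg n)
  simp only [hsplit]
  rcases Nat.eq_zero_or_pos n with hn | hn
  · subst hn
    have : ∀ x, A x = 0 ∧ C x = 0 := fun x => ⟨Finset.sum_empty, Finset.sum_empty⟩
    simp only [this, add_zero]
    simpa [hs] using hP.trans_eq (by norm_num : (9 : ℝ) * M = 3 ^ 2 * M)
  · have hspos : 0 < s := Real.sqrt_pos.2 (by exact_mod_cast hn)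
    have key : ∀ p a c : ℝ, s * (p + a + c) ^ 2 ≤
        (2 * s + 3) * (s * p ^ 2 / 3 + a ^ 2 + c ^ 2) := by
      intro p a c
      nlinarith [sq_nonneg (s * p - 3 * a), sq_nonneg (s * p - 3 * c),
        mul_nonneg hs0 (sq_nonneg (a - c))]
    have h1 : s * ∑ x ∈ T, (P x + A x + C x) ^ 2 ≤
        (2 * s + 3) * (s / 3 * ∑ x ∈ T, P x ^ 2 + ∑ x ∈ T, A x ^ 2 + ∑ x ∈ T, C x ^ 2) := by
      simp only [Finset.mul_sum, ← Finset.sum_add_distrib]
      refine Finset.sum_le_sum fun x _ => (key _ _ _).trans_eq ?_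
      ring
    have h2 : s / 3 * ∑ x ∈ T, P x ^ 2 + ∑ x ∈ T, A x ^ 2 + ∑ x ∈ T, C x ^ 2 ≤
        s * ((2 * s + 3) * M) := by
      rw [← hs2] at hA hC
      nlinarith [mul_le_mul_of_nonneg_left hP (by positivity : (0 : ℝ) ≤ s / 3)]
    refine le_of_mul_le_mul_left ?_ hspos
    calc s * ∑ x ∈ T, (P x + A x + C x) ^ 2 ≤ (2 * s + 3) * (s * ((2 * s + 3) * M)) :=
          h1.trans (mul_le_mul_of_nonneg_left h2 (by positivity))
      _ = s * ((2 * s + 3) ^ 2 * M) := by ring

/-- Ping-pong bound on the number of trivial words. -/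
theorem count_trivial_of_pingPong {n : ℕ} (y : Fin (3 + n) → G) (E : Fin n → Set G)
    (hdis : ∀ i i' x, x ∈ E i → x ∈ E i' → i = i')
    (hmap : ∀ i x, x ∉ E i → (y (Fin.natAdd 3 i))⁻¹ * x ∈ E i) (a : ℕ) :
    ((Finset.univ.filter fun v : Fin a → Fin (3 + n) =>
        ((List.ofFn v).map y).prod = 1).card : ℝ) ≤ (2 * Real.sqrt n + 3) ^ a := by
  rw [← walk_eq_card]
  set B : ℝ := 2 * Real.sqrt n + 3 with hB
  have hnorm : ∀ a, ∑ x ∈ walkSupp y a, walk y a x ^ 2 ≤ (B ^ a) ^ 2 := by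
    intro a
    induction a with
    | zero => simp [walk, walkSupp]
    | succ a ih =>
      calc ∑ x ∈ walkSupp y (a + 1), walk y (a + 1) x ^ 2
          ≤ B ^ 2 * ∑ x ∈ walkSupp y a, walk y a x ^ 2 :=
            step_le y E hdis hmap (walk y a) _ _ fun x hx => walk_eq_zero y a x hx
        _ ≤ B ^ 2 * (B ^ a) ^ 2 := mul_le_mul_of_nonneg_left ih (sq_nonneg _)
        _ = (B ^ (a + 1)) ^ 2 := by ring
  have hB0 : 0 ≤ B := by positivity
  by_cases h1 : (1 : G) ∈ walkSupp y a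
  · have := (Finset.single_le_sum (f := fun x => walk y a x ^ 2)
      (fun x _ => sq_nonneg _) h1).trans (hnorm a)
    exact le_of_pow_le_pow_left₀ two_ne_zero (pow_nonneg hB0 a) this
  · rw [walk_eq_zero y a 1 h1]; exact pow_nonneg hB0 a

end Vale.Agent.P087
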