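import Mathlib
import Vale.Agent.P087.PingPong

/-! # P087 — three free involutions, the letters, trivial-word count, finite models -/

noncomputable section

open scoped Classical

namespace Vale.Agent.P087

/-- Reduced words in three involutions. -/
abbrev RW := {l : List (Fin 3) // l.IsChain (· ≠ ·)}

/-- Left multiplication of a reduced word by a letter. -/
def act (c : Fin 3) : RW → RW
  | ⟨[], _⟩ => ⟨[c], List.isChain_singleton _⟩
  | ⟨d :: l, h⟩ => if hcd : c = d then ⟨l, h.tail⟩ else ⟨c :: d :: l, List.isChain_cons_cons.2 ⟨hcd, h⟩⟩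

theorem act_eq_cons (c : Fin 3) (w : RW) (h : (c :: w.1).IsChain (· ≠ ·)) :
    act c w = ⟨c :: w.1, h⟩ := by
  obtain ⟨_ | ⟨d, l⟩, hw⟩ := w
  · rfl
  · simp [act, (List.isChain_cons_cons.1 h).1]

theorem act_act (c : Fin 3) (w : RW) : act c (act c w) = w := by
  obtain ⟨_ | ⟨d, l⟩, hw⟩ := w
  · simp [act]
  · by_cases hcd : c = d
    · subst hcd
      simp only [act, dif_pos]
      exact act_eq_cons c ⟨l, hw.tail⟩ hw
    · simp [act, hcd]

/-- The three involutive permutations of reduced words. -/
def genPerm (c : Fin 3) : Equiv.Perm RW := ⟨act c, act c, act_act c, act_act c⟩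

/-- The group they generate: the free product of three groups of order two. -/
abbrev G3 := ↥(Subgroup.closure (Set.range genPerm))

/-- A generator as a group element. -/
def gg (c : Fin 3) : G3 := ⟨genPerm c, Subgroup.subset_closure (Set.mem_range_self c)⟩

/-- The product of a word of generators. -/
def gprod (v : List (Fin 3)) : G3 := (v.map gg).prod

/-- `(pq)^(i+1) r (qp)^(i+1)`. -/
def midWord (i : ℕ) : List (Fin 3) :=
  (List.replicate (i + 1) [(0 : Fin 3), 1]).flatten ++ [2] ++
    (List.replicate (i + 1) [(1 : Fin 3), 0]).flatten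

/-- The spelling of a letter. -/
def spell (n : ℕ) (j : Fin (3 + n)) : List (Fin 3) :=
  Fin.addCases (motive := fun _ => List (Fin 3)) (fun c => [c]) (fun i => midWord i) j

/-- The letters: `p, q, r` and `g_i = (pq)^(i+1) r (qp)^(i+1)`. -/
def yv (n : ℕ) (j : Fin (3 + n)) : G3 := gprod (spell n j)

/-- The word in the first three letters spelling `g_i`. -/
def decodeWord (n : ℕ) (i : Fin n) : List (Fin (3 + n)) := (midWord i).map (Fin.castAdd n)

theorem midWord_reverse (i : ℕ) : (midWord i).reverse = midWord i := by
  simp [midWord, List.reverse_flatten, List.map_replicate, List.reverse_replicate]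

theorem length_midWord (i : ℕ) : (midWord i).length = 4 * i + 5 := by
  simp [midWord, List.length_flatten, List.map_replicate]
  omega

/-- The empty reduced word. -/
def rwNil : RW := ⟨[], List.isChain_nil⟩

/-- The reduced word of a group element. -/
def redWord (x : G3) : List (Fin 3) := ((x : Equiv.Perm RW) rwNil).1

theorem gprod_apply (v : List (Fin 3)) (w : RW) :
    (gprod v : Equiv.Perm RW) w = v.foldr act w := by
  induction v with
  | nil => rfl
  | cons c v ih =>
    show ((gg c * gprod v : G3) : Equiv.Perm RW) w = act c (v.foldr act w)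
    rw [Subgroup.coe_mul, Equiv.Perm.mul_apply, ih]; rfl

theorem redWord_gprod_mul (v : List (Fin 3)) (x : G3) :
    redWord (gprod v * x) = (v.foldr act ((x : Equiv.Perm RW) rwNil)).1 := by
  simp [redWord, gprod_apply]

theorem foldr_act_of_chain (v : List (Fin 3)) (w : RW) (h : (v ++ w.1).IsChain (· ≠ ·)) :
    (v.foldr act w).1 = v ++ w.1 := by
  induction v with
  | nil => rfl
  | cons c v ih =>
    have ih' := ih (List.IsChain.tail h)
    rw [List.foldr_cons, act_eq_cons c _ (by rw [ih']; exact h)]
    simp [ih']

theorem foldr_act_reverse (v : List (Fin 3)) (w : RW) :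
    v.reverse.foldr act (v.foldr act w) = w := by
  induction v with
  | nil => rfl
  | cons c v ih => simp [List.foldr_append, act_act, ih]

theorem gprod_reverse (v : List (Fin 3)) : (gprod v)⁻¹ = gprod v.reverse := by
  refine inv_eq_of_mul_eq_one_right (Subtype.ext (Equiv.ext fun w => ?_))
  rw [Subgroup.coe_mul, Equiv.Perm.mul_apply, gprod_apply, gprod_apply]
  simpa using foldr_act_reverse v.reverse w

/-- `(pq)^i r`, the ping-pong prefix of `g_(i-1)`. -/
def pre (i : ℕ) : List (Fin 3) := (List.replicate i [(0 : Fin 3), 1]).flatten ++ [2]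

theorem isChain_pre (i : ℕ) : (pre i).IsChain (· ≠ ·) := by
  induction i with
  | zero => simp [pre]
  | succ i ih =>
    cases i with
    | zero => simp [pre]
    | succ j =>
      simp only [pre, List.replicate_succ, List.flatten_cons, List.cons_append, List.nil_append]
        at ih ⊢
      exact List.isChain_cons_cons.2 ⟨by decide, List.isChain_cons_cons.2 ⟨by decide, ih⟩⟩

theorem pre_unique {a b : ℕ} {l : List (Fin 3)} (ha : pre a <+: l) (hb : pre b <+: l) :
    a = b := by
  induction a generalizing b l with
  | zero =>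
    cases b with
    | zero => rfl
    | succ b =>
      obtain ⟨s, rfl⟩ := ha
      simp [pre, List.replicate_succ] at hb
  | succ a ih =>
    cases b with
    | zero =>
      obtain ⟨s, rfl⟩ := hb
      simp [pre, List.replicate_succ] at ha
    | succ b =>
      obtain ⟨s, rfl⟩ := ha
      simp only [pre, List.replicate_succ, List.flatten_cons, List.cons_append, List.nil_append,
        List.cons_prefix_cons, true_and] at hb
      exact congrArg (· + 1) (ih (l := pre a ++ s) (List.prefix_append _ _)
        (by simpa [pre] using hb))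

/-- Ping-pong: `g_i` sends the complement of the cone over `pre (i+1)` into that cone. -/
theorem pingPong (i : ℕ) (x : G3) (hx : ¬ pre (i + 1) <+: redWord x) :
    pre (i + 1) <+: redWord (gprod (midWord i) * x) := by
  set u := (List.replicate (i + 1) [(0 : Fin 3), 1]).flatten with hu
  set τ := (List.replicate (i + 1) [(1 : Fin 3), 0]).flatten with hτ
  have hrev : τ.reverse = u := by
    simp [hu, hτ, List.reverse_flatten, List.map_replicate, List.reverse_replicate]
  set w : RW := (x : Equiv.Perm RW) rwNil with hw
  set y : RW := τ.foldr act w with hy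
  have hhead : ∀ r, y.1 ≠ 2 :: r := by
    intro r hr
    have hc : (u ++ y.1).IsChain (· ≠ ·) := by
      rw [hr]
      exact List.isChain_split.2 ⟨isChain_pre (i + 1), hr ▸ y.2⟩
    have hback : (u.foldr act y).1 = w.1 := by rw [← hrev, hy, foldr_act_reverse]
    rw [foldr_act_of_chain u y hc, hr] at hback
    exact hx ⟨r, by rw [redWord, ← hw, ← hback]; simp [pre, hu]⟩
  have hchain : (u ++ [2] ++ y.1).IsChain (· ≠ ·) := by
    refine (isChain_pre (i + 1)).append y.2 ?_
    intro a ha b hb hab
    simp [pre] at ha
    subst ha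
    rcases hyl : y.1 with _ | ⟨d, r⟩
    · simp [hyl] at hb
    · simp [hyl] at hb; exact hhead r (by rw [hyl, hab, hb])
  refine ⟨y.1, ?_⟩
  rw [redWord_gprod_mul, ← hw, show midWord i = (u ++ [2]) ++ τ from rfl, List.foldr_append, ← hy,
    foldr_act_of_chain _ _ hchain]
  rfl

theorem spell_reverse (n : ℕ) (j : Fin (3 + n)) : (spell n j).reverse = spell n j := by
  refine Fin.addCases (fun c => ?_) (fun i => ?_) j
  · simp [spell]
  · simp [spell, midWord_reverse]

theorem yv_sq (n : ℕ) (j : Fin (3 + n)) : yv n j * yv n j = 1 := by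
  have h : (yv n j)⁻¹ = yv n j := by rw [yv, gprod_reverse, spell_reverse]
  exact mul_eq_one_iff_inv_eq.2 h

theorem redWord_one : redWord 1 = [] := rfl

theorem yv_ne_one (n : ℕ) (j : Fin (3 + n)) : yv n j ≠ 1 := by
  refine Fin.addCases (fun c => ?_) (fun i => ?_) j
  · intro h
    have h1 : redWord (yv n (Fin.castAdd n c)) = [c] := by
      simp [yv, spell, redWord, gprod_apply, rwNil, act]
    rw [h, redWord_one] at h1
    simp at h1
  · intro h
    have h1 := pingPong (i : ℕ) 1 (by simp [redWord_one, pre])
    have hy : yv n (Fin.natAdd 3 i) = gprod (midWord i) := by simp [yv, spell]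
    rw [mul_one, ← hy, h, redWord_one] at h1
    simp [pre] at h1

theorem closure_yv (n : ℕ) : Subgroup.closure (Set.range (yv n)) = ⊤ := by
  refine top_le_iff.1 ((Subgroup.closure_closure_coe_preimage
    (k := Set.range genPerm)).ge.trans (Subgroup.closure_mono ?_))
  rintro x ⟨c, hc⟩
  refine ⟨Fin.castAdd n c, ?_⟩
  refine Subtype.ext ?_
  simp [yv, spell, gprod, gg, ← hc]

/-- In every group, three involutions evaluate a word through its reduced form. -/
theorem prod_map_foldr {P : Type*} [Group P] (s : Fin 3 → P) (hs : ∀ c, s c * s c = 1)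
    (v : List (Fin 3)) :
    ((v.foldr act rwNil).1.map s).prod = (v.map s).prod := by
  have key : ∀ (c : Fin 3) (w : RW), ((act c w).1.map s).prod = s c * (w.1.map s).prod := by
    intro c w
    obtain ⟨_ | ⟨d, l⟩, hw⟩ := w
    · simp [act]
    · by_cases hcd : c = d
      · subst hcd
        simp [act, ← mul_assoc, hs]
      · simp [act, hcd]
  induction v with
  | nil => simp [rwNil]
  | cons c v ih => simp [key, ih]

theorem length_act (c : Fin 3) (w : RW) : (act c w).1.length ≤ w.1.length + 1 := by
  obtain ⟨_ | ⟨d, l⟩, hw⟩ := w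
  · simp [act]
  · by_cases hcd : c = d
    · simp [act, hcd]; omega
    · simp [act, hcd]

theorem length_foldr_act (v : List (Fin 3)) : (v.foldr act rwNil).1.length ≤ v.length := by
  induction v with
  | nil => simp [rwNil]
  | cons c v ih =>
    have := length_act c (v.foldr act rwNil)
    simp only [List.foldr_cons, List.length_cons]
    omega

theorem gg_sq (c : Fin 3) : gg c * gg c = 1 :=
  Subtype.ext (Equiv.ext fun w => act_act c w)

theorem gprod_eq_one_iff (v : List (Fin 3)) : gprod v = 1 ↔ v.foldr act rwNil = rwNil := by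
  constructor
  · intro h
    rw [← gprod_apply, h]
    rfl
  · intro h
    have := prod_map_foldr gg gg_sq v
    rw [h] at this
    exact this.symm.trans (by simp [rwNil])

/-- Reduced words of length at most `L`. -/
abbrev RWle (L : ℕ) := {w : RW // w.1.length ≤ L}

instance finite_RWle (L : ℕ) : Finite (RWle L) := by
  have : Finite {l : List (Fin 3) | l.length ≤ L} := (List.finite_length_le (Fin 3) L).to_subtype
  exact Finite.of_injective (fun w => (⟨w.1.1, w.2⟩ : {l : List (Fin 3) | l.length ≤ L}))
    fun x y h => Subtype.ext (Subtype.ext (by simpa using h))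

/-- The action cut off at length `L`. -/
def actLe (L : ℕ) (c : Fin 3) (w : RWle L) : RWle L :=
  if h : (act c w.1).1.length ≤ L then ⟨act c w.1, h⟩ else w

theorem actLe_actLe (L : ℕ) (c : Fin 3) (w : RWle L) : actLe L c (actLe L c w) = w := by
  by_cases h : (act c w.1).1.length ≤ L
  · simp [actLe, h, act_act, w.2]
  · simp [actLe, h]

/-- The cut-off permutations. -/
def permLe (L : ℕ) (c : Fin 3) : Equiv.Perm (RWle L) :=
  ⟨actLe L c, actLe L c, actLe_actLe L c, actLe_actLe L c⟩

theorem permLe_prod_apply (L : ℕ) (v : List (Fin 3)) (hv : v.length ≤ L) :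
    ((v.map (permLe L)).prod ⟨rwNil, Nat.zero_le _⟩).1 = v.foldr act rwNil := by
  induction v with
  | nil => rfl
  | cons c v ih =>
    have hv' : v.length + 1 ≤ L := hv
    rw [List.map_cons, List.prod_cons, Equiv.Perm.mul_apply, List.foldr_cons]
    set z := (v.map (permLe L)).prod ⟨rwNil, Nat.zero_le _⟩ with hz
    have hz' : z.1 = v.foldr act rwNil := ih (by omega)
    have hlen : (act c z.1).1.length ≤ L := by
      have := length_act c z.1
      have := length_foldr_act v
      rw [hz'] at *
      omega
    show (actLe L c z).1 = _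
    rw [actLe, dif_pos hlen, ← hz']

/-- At most `(2√n + 3)^a` words of length `a` in the letters are trivial (ping-pong and the
norm bound `2√n` for the sum of the `λ(g_i)`). -/
theorem count_trivial (n a : ℕ) :
    ((Finset.univ.filter fun v : Fin a → Fin (3 + n) =>
        ((List.ofFn v).map (yv n)).prod = 1).card : ℝ) ≤ (2 * Real.sqrt n + 3) ^ a := by
  convert count_trivial_of_pingPong (yv n) (fun i => {x | pre ((i : ℕ) + 1) <+: redWord x})
    (fun i i' x h h' => Fin.ext (Nat.succ_injective (pre_unique h h'))) (fun i x hx => ?_) a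
  have hy : yv n (Fin.natAdd 3 i) = gprod (midWord i) := by simp [yv, spell]
  rw [hy, gprod_reverse, midWord_reverse]
  exact pingPong i x hx

/-- Residual finiteness in the form used: a finite permutation model in which words of length at
most `L` act trivially if trivial, and without fixed points otherwise. -/
theorem exists_finite_model (L : ℕ) :
    ∃ (m : ℕ) (π : Fin 3 → Equiv.Perm (Fin m)), 0 < m ∧ (∀ c, π c * π c = 1) ∧
      ∀ v : List (Fin 3), v.length ≤ L →
        (gprod v = 1 → (v.map π).prod = 1) ∧ (gprod v ≠ 1 → ∀ x, (v.map π).prod x ≠ x) := by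
  set P := Equiv.Perm (RWle L)
  let e : P ≃ Fin (Nat.card P) := Finite.equivFin P
  let Φ : P →* Equiv.Perm (Fin (Nat.card P)) :=
    (Equiv.permCongrHom e).toMonoidHom.comp (MulAction.toPermHom P P)
  have hs : ∀ c, permLe L c * permLe L c = 1 := fun c => Equiv.ext fun w => actLe_actLe L c w
  refine ⟨Nat.card P, fun c => Φ (permLe L c), Nat.card_pos, fun c => by rw [← map_mul, hs, map_one],
    fun v hv => ?_⟩
  have hmap : (v.map fun c => Φ (permLe L c)).prod = Φ (v.map (permLe L)).prod := by
    rw [map_list_prod, List.map_map]; rfl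
  constructor
  · intro h
    rw [hmap, ← prod_map_foldr _ hs v, (gprod_eq_one_iff v).1 h]
    simp [rwNil]
  · intro h x hx
    rw [hmap] at hx
    have h1 : (v.map (permLe L)).prod * e.symm x = e.symm x := e.injective (by simpa [Φ] using hx)
    have h2 : (v.map (permLe L)).prod = 1 := mul_eq_right.1 h1
    refine h ((gprod_eq_one_iff v).2 ?_)
    rw [← permLe_prod_apply L v hv, h2]
    rfl

end Vale.Agent.P087
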