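import Vale.Agent.P087.GaussMoments
import Vale.Agent.P087.GaussNorm
import Vale.Agent.P087.GroupModel
import Vale.Agent.P087.ChiUpper

/-! # P087 — `χ(X) > -∞`: finite permutation models plus Gaussian noise -/

noncomputable section

open MeasureTheory Filter ProbabilityTheory
open scoped InnerProductSpace ENNReal NNReal Topology Classical

namespace Vale.Agent.P087

namespace CL

/-- Measures bounded coordinatewise give a bound on the product measures. -/
theorem pi_le_smul_pi {ι : Type*} [Fintype ι] {α : ι → Type*} [∀ i, MeasurableSpace (α i)]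
    (μ ν : ∀ i, Measure (α i)) (c : ι → ℝ≥0∞) (hc : ∀ i, c i ≠ ∞)
    (h : ∀ i, μ i ≤ c i • ν i) : Measure.pi μ ≤ (∏ i, c i) • Measure.pi ν := by
  have hC : (∏ i, c i) ≠ ∞ := ENNReal.prod_ne_top fun i _ => hc i
  refine Measure.le_iff.2 fun s hs => ?_
  simp only [Measure.smul_apply, Measure.pi, toMeasure_apply _ _ hs]
  rw [← _root_.smul_apply, OuterMeasure.pi, OuterMeasure.pi,
    OuterMeasure.smul_boundedBy hC]
  refine OuterMeasure.le_boundedBy.2 (fun t => (OuterMeasure.boundedBy_le t).trans ?_) s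
  simp only [piPremeasure, Pi.smul_apply, smul_eq_mul, ← Finset.prod_mul_distrib,
    Measure.coe_toOuterMeasure]
  exact Finset.prod_le_prod' fun i _ => by
    simpa using Measure.le_iff'.1 (h i) (Function.eval i '' t)

theorem gaussianReal_le (z : ℝ) {s : ℝ} (hs : s ≠ 0) :
    (gaussianReal 0 1).map (fun u => z + s * u)
      ≤ ENNReal.ofReal (Real.sqrt (2 * Real.pi) * |s|)⁻¹ • volume := by
  have h1 : (gaussianReal 0 1).map (fun u => z + s * u)
      = gaussianReal z (.mk (s ^ 2) (sq_nonneg _)) := by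
    have : (fun u => z + s * u) = (z + ·) ∘ (s * ·) := rfl
    rw [this, ← Measure.map_map (by fun_prop) (by fun_prop), gaussianReal_map_const_mul,
      gaussianReal_map_const_add]
    simp
  have hv : NNReal.mk (s ^ 2) (sq_nonneg s) ≠ 0 := by
    intro h
    exact hs (sq_eq_zero_iff.1 (congrArg NNReal.toReal h))
  rw [h1, gaussianReal_of_var_ne_zero _ hv, ← withDensity_const]
  refine withDensity_mono (Eventually.of_forall fun u => ?_)
  refine ENNReal.ofReal_le_ofReal ?_
  rw [gaussianPDFReal, NNReal.coe_mk, Real.sqrt_mul (by positivity), Real.sqrt_sq_eq_abs]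
  refine mul_le_of_le_one_right (by positivity) (Real.exp_le_one_iff.2 ?_)
  exact div_nonpos_of_nonpos_of_nonneg (neg_nonpos.2 (sq_nonneg _)) (by positivity)

/-- The affine image of the standard Gaussian ensemble is dominated by a multiple of volume. -/
theorem stdGauss_preimage_le {N k : ℕ} (z : Fin N → Fin k × Fin k → ℝ) (s : Fin N → ℝ)
    (hs : ∀ j, 0 < s j) (M : Set (Fin N → Fin k × Fin k → ℝ)) :
    stdGauss N k ((fun x => fun j p => z j p + s j * x j p) ⁻¹' M)
      ≤ ENNReal.ofReal ((∏ j, Real.sqrt (2 * Real.pi) * s j) ^ (k ^ 2))⁻¹ * volume M := by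
  let c : Fin N → ℝ≥0∞ := fun j => ENNReal.ofReal (Real.sqrt (2 * Real.pi) * |s j|)⁻¹
  let g : Fin N → (Fin k × Fin k → ℝ) → (Fin k × Fin k → ℝ) :=
    fun j u p => z j p + s j * u p
  have hg : ∀ j, Measurable (g j) := fun j => by fun_prop
  have : ∀ j, IsProbabilityMeasure
      ((Measure.pi fun _ : Fin k × Fin k => gaussianReal 0 1).map (g j)) :=
    fun j => Measure.isProbabilityMeasure_map (hg j).aemeasurable
  have hT : Measurable (fun x : Fin N → Fin k × Fin k → ℝ => fun j p => z j p + s j * x j p) := by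
    fun_prop
  have hmap : (stdGauss N k).map (fun x => fun j p => z j p + s j * x j p)
      = Measure.pi fun j => (Measure.pi fun _ : Fin k × Fin k => gaussianReal 0 1).map (g j) :=
    Measure.pi_map_pi (f := g) fun j => (hg j).aemeasurable
  have hin : ∀ j, (Measure.pi fun _ : Fin k × Fin k => gaussianReal 0 1).map (g j)
      ≤ c j ^ (k ^ 2) • volume := fun j => by
    have : ∀ p : Fin k × Fin k, IsProbabilityMeasure
        ((gaussianReal 0 1).map fun u => z j p + s j * u) :=
      fun p => Measure.isProbabilityMeasure_map (by fun_prop)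
    have e : (Measure.pi fun _ : Fin k × Fin k => gaussianReal 0 1).map (g j)
        = Measure.pi fun p => (gaussianReal 0 1).map fun u => z j p + s j * u :=
      Measure.pi_map_pi (f := fun p u => z j p + s j * u) fun p => by fun_prop
    rw [e]
    refine (pi_le_smul_pi _ (fun _ => volume) (fun _ => c j) (fun _ => ENNReal.ofReal_ne_top)
      fun p => gaussianReal_le _ (hs j).ne').trans_eq ?_
    simp [volume_pi, sq]
  refine (Measure.le_map_apply hT.aemeasurable M).trans ?_
  rw [hmap]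
  refine (Measure.le_iff'.1 (pi_le_smul_pi _ (fun _ => volume) (fun j => c j ^ (k ^ 2))
    (fun j => ENNReal.pow_ne_top ENNReal.ofReal_ne_top) hin) M).trans_eq ?_
  rw [Measure.smul_apply, smul_eq_mul, ← volume_pi, Finset.prod_pow, ← inv_pow,
    ENNReal.ofReal_pow (inv_nonneg.2 (Finset.prod_nonneg fun j _ => by
      have := hs j; positivity)), ← Finset.prod_inv_distrib,
    ENNReal.ofReal_prod_of_nonneg fun j _ => by have := hs j; positivity]
  congr 2
  exact Finset.prod_congr rfl fun j _ => by simp only [c, abs_of_pos (hs j)]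

/-- The matrix of a permutation. -/
def pmat {k : ℕ} (σ : Equiv.Perm (Fin k)) : Matrix (Fin k) (Fin k) ℂ :=
  Matrix.of fun a b => if σ b = a then 1 else 0

theorem pmat_mul {k : ℕ} (σ τ : Equiv.Perm (Fin k)) : pmat (σ * τ) = pmat σ * pmat τ := by
  ext a b
  simp [pmat, Matrix.mul_apply, Equiv.Perm.mul_apply]
  congr

theorem pmat_one {k : ℕ} : pmat (1 : Equiv.Perm (Fin k)) = 1 := by
  ext a b
  simp [pmat, Matrix.one_apply, eq_comm]

theorem pmat_list_prod {k N : ℕ} (σ : Fin N → Equiv.Perm (Fin k)) :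
    ∀ v : List (Fin N), matMonom (fun j => pmat (σ j)) v = pmat (v.map σ).prod
  | [] => by simp [matMonom, pmat_one]
  | j :: v => by
    have ih := pmat_list_prod σ v
    simp only [matMonom] at ih ⊢
    simp [ih, pmat_mul]

theorem isHermitian_pmat {k : ℕ} (σ : Equiv.Perm (Fin k)) (h : σ * σ = 1) :
    (pmat σ).IsHermitian := by
  have hh : ∀ a, σ (σ a) = a := fun a => by
    simpa [Equiv.Perm.mul_apply] using Equiv.Perm.ext_iff.1 h a
  ext a b
  by_cases hab : σ b = a
  · have : σ a = b := by rw [← hab, hh]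
    simp [pmat, hab, this]
  · have : ¬ σ a = b := fun e => hab (by rw [← e, hh])
    simp [pmat, hab, this]

theorem normLE_pmat {k : ℕ} (σ : Equiv.Perm (Fin k)) : NormLE (pmat σ) 1 := by
  intro v
  have e : ∀ a, (pmat σ).mulVec v a = v (σ.symm a) := fun a => by
    simp only [pmat, Matrix.mulVec, dotProduct, Matrix.of_apply, ite_mul, one_mul, zero_mul]
    rw [Finset.sum_eq_single (σ.symm a)]
    · simp
    · intro b _ hb
      rw [if_neg]
      exact fun h => hb (by rw [← h, Equiv.symm_apply_apply])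
    · simp
  simp only [e, one_pow, one_mul]
  exact (Equiv.sum_comp σ.symm fun a => ‖v a‖ ^ 2).le

theorem normLE_add_smul {k : ℕ} {A B : Matrix (Fin k) (Fin k) ℂ} {R r : ℝ} {c : ℝ}
    (hA : NormLE A 1) (hB : NormLE B R) (hr : 0 < r) (hcR : |c| * R ≤ r) (hR : 0 ≤ R) :
    NormLE (A + (c : ℂ) • B) (1 + r) := by
  intro v
  set u := A.mulVec v
  set w := B.mulVec v
  have hsum : (A + (c : ℂ) • B).mulVec v = u + (c : ℂ) • w := by
    simp [u, w, Matrix.add_mulVec, Matrix.smul_mulVec]
  have hterm : ∀ a, ‖u a + (c : ℂ) * w a‖ ^ 2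
      ≤ (1 + r) * ‖u a‖ ^ 2 + (1 + 1 / r) * (c ^ 2 * ‖w a‖ ^ 2) := fun a => by
    have h1 : ‖u a + (c : ℂ) * w a‖ ≤ ‖u a‖ + |c| * ‖w a‖ := by
      refine (norm_add_le _ _).trans ?_
      rw [norm_mul, Complex.norm_real, Real.norm_eq_abs]
    refine (pow_le_pow_left₀ (norm_nonneg _) h1 2).trans ?_
    rw [← sq_abs c]
    have := sq_nonneg (r * ‖u a‖ - |c| * ‖w a‖)
    field_simp
    nlinarith
  have hc2 : c ^ 2 * ∑ a, ‖w a‖ ^ 2 ≤ r ^ 2 * ∑ a, ‖v a‖ ^ 2 := by
    calc c ^ 2 * ∑ a, ‖w a‖ ^ 2 ≤ c ^ 2 * (R ^ 2 * ∑ a, ‖v a‖ ^ 2) :=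
          mul_le_mul_of_nonneg_left (hB v) (sq_nonneg c)
      _ = (|c| * R) ^ 2 * ∑ a, ‖v a‖ ^ 2 := by rw [mul_pow, sq_abs]; ring
      _ ≤ r ^ 2 * ∑ a, ‖v a‖ ^ 2 := by gcongr
  have hu : ∑ a, ‖u a‖ ^ 2 ≤ ∑ a, ‖v a‖ ^ 2 := by simpa using hA v
  rw [hsum]
  simp only [Pi.add_apply, Pi.smul_apply, smul_eq_mul]
  refine (Finset.sum_le_sum fun a _ => hterm a).trans ?_
  rw [Finset.sum_add_distrib, ← Finset.mul_sum, ← Finset.mul_sum, ← Finset.mul_sum]
  refine (add_le_add (mul_le_mul_of_nonneg_left hu (by positivity))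
    (mul_le_mul_of_nonneg_left hc2 (by positivity))).trans_eq ?_
  field_simp
  ring

/-- `σ ⊗ id` on `Fin (m * l)`. -/
def amplify (m l : ℕ) : Equiv.Perm (Fin m) →* Equiv.Perm (Fin (m * l)) where
  toFun σ := finProdFinEquiv.permCongr (σ.prodCongr (Equiv.refl (Fin l)))
  map_one' := by ext x; simp [Nat.mod_add_div]
  map_mul' σ τ := by ext x; simp

theorem amplify_fix {m l : ℕ} (σ : Equiv.Perm (Fin m)) (hσ : ∀ x, σ x ≠ x) (x : Fin (m * l)) :
    amplify m l σ x ≠ x := by
  intro h
  apply hσ (finProdFinEquiv.symm x).1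
  have := congrArg finProdFinEquiv.symm h
  simpa [amplify] using congrArg Prod.fst this

theorem prod_map_flatMap {P : Type*} [Monoid P] {α β : Type*} (f : β → P) (e : α → List β) :
    ∀ v : List α, ((v.flatMap e).map f).prod = (v.map fun j => ((e j).map f).prod).prod
  | [] => rfl
  | j :: v => by simp [prod_map_flatMap f e v]

theorem length_spell_le (n : ℕ) (j : Fin (3 + n)) : (spell n j).length ≤ 4 * n + 5 := by
  refine Fin.addCases (fun c => ?_) (fun i => ?_) j
  · simp [spell]
  · have := i.2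
    simp [spell, length_midWord]

/-- For every length a sequence of permutation matrices of growing size which has the moments of
the letters `yv` up to that length. -/
theorem exists_models (n L : ℕ) :
    ∃ (k : ℕ → ℕ) (B : ∀ i, Fin (3 + n) → Matrix (Fin (k i)) (Fin (k i)) ℂ),
      Tendsto k atTop atTop ∧ (∀ i j, (B i j).IsHermitian) ∧ (∀ i j, NormLE (B i j) 1) ∧
        ∀ i, ∀ v : List (Fin (3 + n)), v.length ≤ L →
          ntr (matMonom (B i) v) = if (v.map (yv n)).prod = 1 then 1 else 0 := by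
  obtain ⟨M, π, hM, hπ, hfix⟩ := exists_finite_model (L * (4 * n + 5))
  let ρ : Fin (3 + n) → Equiv.Perm (Fin M) := fun j => ((spell n j).map π).prod
  have hρ : ∀ j, ρ j * ρ j = 1 := fun j => by
    have h1 : ∀ v : List (Fin 3), (v.map π).prod * (v.reverse.map π).prod = 1 := by
      intro v
      induction v with
      | nil => simp
      | cons c v ih =>
        simp only [List.map_cons, List.prod_cons, List.reverse_cons, List.map_append,
          List.prod_append, List.map_nil, List.prod_nil, mul_one]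
        rw [mul_assoc, ← mul_assoc (v.map π).prod, ih, one_mul, hπ]
    simpa [ρ, spell_reverse] using h1 (spell n j)
  refine ⟨fun i => M * (i + 1), fun i j => pmat (amplify M (i + 1) (ρ j)), ?_,
    fun i j => isHermitian_pmat _ (by rw [← map_mul, hρ, map_one]),
    fun i j => normLE_pmat _, fun i v hv => ?_⟩
  · exact tendsto_atTop_mono
      (fun i => (Nat.le_succ i).trans (Nat.le_mul_of_pos_left _ hM)) tendsto_id
  set u := v.flatMap (spell n) with hu
  have hlen : u.length ≤ L * (4 * n + 5) := by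
    refine le_trans ?_ (Nat.mul_le_mul_right _ hv)
    rw [hu]
    clear hu hv
    induction v with
    | nil => simp
    | cons j v ih =>
      have := length_spell_le n j
      simp only [List.flatMap_cons, List.length_append, List.length_cons] at ih ⊢
      rw [Nat.succ_mul]
      omega
  have hy : (v.map (yv n)).prod = gprod u := by
    rw [hu, gprod, prod_map_flatMap]
    rfl
  have hσ : (v.map fun j => amplify M (i + 1) (ρ j)).prod
      = amplify M (i + 1) (u.map π).prod := by
    rw [hu, prod_map_flatMap, map_list_prod, List.map_map]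
    rfl
  rw [pmat_list_prod, hσ]
  have hk0 : ((M * (i + 1) : ℕ) : ℂ) ≠ 0 := Nat.cast_ne_zero.2 (by positivity)
  obtain ⟨h1, h2⟩ := hfix u hlen
  by_cases hg : gprod u = 1
  · rw [if_pos (hy ▸ hg), h1 hg, map_one, pmat_one, ntr, Matrix.trace_one, Fintype.card_fin]
    exact inv_mul_cancel₀ hk0
  · rw [if_neg (hy ▸ hg), ntr]
    simp [Matrix.trace, pmat, amplify_fix _ (h2 hg)]

theorem herm_affine {k : ℕ} (z u : Fin k × Fin k → ℝ) (s : ℝ) :
    herm (fun p => z p + s * u p) = herm z + (s : ℂ) • herm u := by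
  ext a b
  simp only [herm, Matrix.add_apply, Matrix.smul_apply, smul_eq_mul]
  split_ifs <;> push_cast <;> ring

/-- For large models at least half of the Gaussian mass lands in the microstates. -/
theorem eventually_half_le {n : ℕ} {H : Type*} [NormedAddCommGroup H] [InnerProductSpace ℂ H]
    [CompleteSpace H] (Ω : H) (X : Fin (3 + n) → H →L[ℂ] H) (a : Fin (3 + n) → ℝ)
    (ha : ∀ j, 0 < a j)
    (hmom : ∀ w, vstate Ω (monom X w) = (amp (yv n) (fun j => a j ^ 2) 1 w : ℂ))
    (k : ℕ → ℕ) (hk : Tendsto k atTop atTop)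
    (B : ∀ i, Fin (3 + n) → Matrix (Fin (k i)) (Fin (k i)) ℂ)
    (hBh : ∀ i j, (B i j).IsHermitian) (hBn : ∀ i j, NormLE (B i j) 1) (m : ℕ)
    (hB : ∀ i, ∀ v : List (Fin (3 + n)), v.length ≤ 2 * m →
      ntr (matMonom (B i) v) = if (v.map (yv n)).prod = 1 then 1 else 0)
    (R : ℝ) (hR : ∀ j, 1 + 8 * a j ≤ R) {ε : ℝ} (hε : 0 < ε) :
    ∀ᶠ i in atTop, (2 : ℝ≥0∞)⁻¹ ≤ stdGauss (3 + n) (k i)
      ((fun x => fun j p => coordOf (B i j) p + a j / Real.sqrt (k i) * x j p) ⁻¹'
        microstates Ω X R m (k i) ε) := by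
  set W : Finset (List (Fin (3 + n))) := (List.finite_length_le (Fin (3 + n)) m).toFinset with hW
  let bN : ∀ i, Fin (3 + n) → ℝ≥0∞ := fun i j => stdGauss (3 + n) (k i)
    {x | ¬ NormLE (herm (x j)) (8 * Real.sqrt (k i))}
  let bM : ∀ i, List (Fin (3 + n)) → ℝ≥0∞ := fun i w => stdGauss (3 + n) (k i)
    {x | ε ≤ ‖ntr (matMonom (noisy (B i) a x) w)
      - (amp (yv n) (fun j => a j ^ 2) 1 w : ℂ)‖}
  have hnorm : ∀ j, Tendsto (fun i => bN i j) atTop (𝓝 0) := fun j => by
    refine tendsto_of_tendsto_of_tendsto_of_le_of_le tendsto_const_nhds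
      (herm_norm_tendsto.comp hk) (fun i => zero_le) fun i => ?_
    have := Measure.le_map_apply (μ := stdGauss (3 + n) (k i))
      (measurable_pi_apply j).aemeasurable
      {u : Fin (k i) × Fin (k i) → ℝ | ¬ NormLE (herm u) (8 * Real.sqrt (k i))}
    rw [stdGauss, Measure.pi_map_eval] at this
    simpa [bN, stdGauss] using this
  have hmo : ∀ w ∈ W, Tendsto (fun i => bM i w) atTop (𝓝 0) := fun w hw =>
    tendsto_moment (yv n) (yv_sq n) a k hk B hBh m (fun i v hv => by convert hB i v hv) w (by simpa [hW] using hw) hε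
  have hbad : Tendsto (fun i => ∑ j, bN i j + ∑ w ∈ W, bM i w) atTop (𝓝 0) := by
    simpa using (tendsto_finsetSum _ fun j _ => hnorm j).add (tendsto_finsetSum _ hmo)
  filter_upwards [hbad.eventually (Iic_mem_nhds (by simp : (0 : ℝ≥0∞) < (2 : ℝ≥0∞)⁻¹))] with i hi
  set S : Set (Fin (3 + n) → Fin (k i) × Fin (k i) → ℝ) :=
    (fun x => fun j p => coordOf (B i j) p + a j / Real.sqrt (k i) * x j p) ⁻¹'
      microstates Ω X R m (k i) ε
  have hsub : Sᶜ ⊆ (⋃ j, {x | ¬ NormLE (herm (x j)) (8 * Real.sqrt (k i))}) ∪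
      ⋃ w ∈ W, {x | ε ≤ ‖ntr (matMonom (noisy (B i) a x) w)
        - (amp (yv n) (fun j => a j ^ 2) 1 w : ℂ)‖} := by
    intro x hx
    by_contra hcon
    simp only [Set.mem_union, Set.mem_iUnion, Set.mem_ofPred_eq, exists_prop, not_or, not_exists,
      not_and, not_not, not_le] at hcon
    apply hx
    have he : ∀ j, herm (fun p => coordOf (B i j) p + a j / Real.sqrt (k i) * x j p)
        = noisy (B i) a x j := fun j => by
      rw [herm_affine, herm_coordOf (hBh i j), noisy]
    refine ⟨fun j => ?_, fun w _ hw => ?_⟩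
    · rw [he]
      intro v
      refine (normLE_add_smul (r := 8 * a j) (c := a j / Real.sqrt (k i)) (hBn i j) (hcon.1 j)
        (by linarith [ha j]) ?_ (by positivity) v).trans ?_
      · rcases Nat.eq_zero_or_pos (k i) with h0 | h0
        · simp [h0]; linarith [ha j]
        · have : 0 < Real.sqrt (k i) := Real.sqrt_pos.2 (by exact_mod_cast h0)
          rw [abs_of_pos (div_pos (ha j) this)]
          field_simp
          exact le_rfl
      · gcongr
        · linarith [ha j]
        · exact hR j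
    · rw [funext he, hmom]
      exact hcon.2 w (by simpa [hW] using hw)
  have hc : stdGauss (3 + n) (k i) Sᶜ ≤ (2 : ℝ≥0∞)⁻¹ := by
    refine ((measure_mono hsub).trans ((measure_union_le _ _).trans (add_le_add ?_ ?_))).trans hi
    · exact measure_iUnion_fintype_le _ _
    · exact measure_biUnion_finset_le _ _
  have h1 : (1 : ℝ≥0∞) ≤ stdGauss (3 + n) (k i) S + stdGauss (3 + n) (k i) Sᶜ := by
    have := measure_union_le (μ := stdGauss (3 + n) (k i)) S Sᶜ
    rwa [Set.union_compl_self, measure_univ] at this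
  by_contra hlt
  push Not at hlt
  have h2 := ENNReal.add_lt_add_of_lt_of_le (by simp : stdGauss (3 + n) (k i) Sᶜ ≠ ∞) hlt hc
  rw [ENNReal.inv_two_add_inv_two] at h2
  exact absurd (h1.trans_lt h2) (lt_irrefl _)

end CL

open CL in
theorem bot_lt_chi {n : ℕ} {H : Type*} [NormedAddCommGroup H] [InnerProductSpace ℂ H]
    [CompleteSpace H] (Ω : H) (X : Fin (3 + n) → H →L[ℂ] H) (a : Fin (3 + n) → ℝ)
    (ha : ∀ j, 0 < a j)
    (hmom : ∀ w, vstate Ω (monom X w) = (amp (yv n) (fun j => a j ^ 2) 1 w : ℂ)) :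
    ⊥ < chi Ω X := by
  set R : ℝ := 1 + ∑ j, 8 * a j with hR
  have hRj : ∀ j, 1 + 8 * a j ≤ R := fun j => by
    have := Finset.single_le_sum (f := fun j => 8 * a j) (fun j _ => by linarith [ha j])
      (Finset.mem_univ j)
    linarith
  have hR0 : 0 < R := by
    have : 0 ≤ ∑ j, 8 * a j := Finset.sum_nonneg fun j _ => by linarith [ha j]
    linarith
  set c0 : ℝ := (∑ j, Real.log (Real.sqrt (2 * Real.pi) * a j)) - 1 with hc0
  refine (EReal.bot_lt_coe c0).trans_le (le_trans ?_ (le_iSup₂ (f := fun R _ => chiR Ω X R) R hR0))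
  refine le_iInf fun m => le_iInf fun ε => le_iInf fun hε => ?_
  obtain ⟨k, B, hk, hBh, hBn, hB⟩ := exists_models n (2 * m)
  refine le_limsup_of_frequently_le ?_
  refine hk.frequently (Eventually.frequently ?_)
  filter_upwards [eventually_half_le Ω X a ha hmom k hk B hBh hBn m hB R hRj hε,
    hk.eventually (eventually_ge_atTop 1)] with i hi hki
  have hkr : (1 : ℝ) ≤ k i := by exact_mod_cast hki
  have hsq : 0 < Real.sqrt (k i) := Real.sqrt_pos.2 (by linarith)
  set s : Fin (3 + n) → ℝ := fun j => a j / Real.sqrt (k i)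
  have hs : ∀ j, 0 < s j := fun j => div_pos (ha j) hsq
  set Q : ℝ := (∏ j, Real.sqrt (2 * Real.pi) * s j) ^ (k i ^ 2)
  have hQ : 0 < Q := pow_pos (Finset.prod_pos fun j _ => mul_pos
    (by positivity) (hs j)) _
  have hle := hi.trans (stdGauss_preimage_le (fun j => coordOf (B i j)) s hs _)
  have hvol : ENNReal.ofReal (Q / 2) ≤ volume (microstates Ω X R m (k i) ε) := by
    have h3 := mul_le_mul_right hle (ENNReal.ofReal Q)
    rw [← mul_assoc, ← ENNReal.ofReal_mul hQ.le, mul_inv_cancel₀ hQ.ne', ENNReal.ofReal_one,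
      one_mul] at h3
    refine le_trans (le_of_eq ?_) h3
    rw [div_eq_mul_inv, ENNReal.ofReal_mul hQ.le, ENNReal.ofReal_inv_of_pos two_pos]
    simp
  refine le_trans ?_ (add_le_add (mul_le_mul_of_nonneg_left (ENNReal.log_monotone hvol) ?_) le_rfl)
  swap
  · exact_mod_cast (by positivity : (0 : ℝ) ≤ ((k i : ℝ) ^ 2)⁻¹)
  rw [ENNReal.log_ofReal_of_pos (by positivity), ← EReal.coe_mul, ← EReal.coe_add,
    EReal.coe_le_coe_iff]
  have hlog : Real.log (Q / 2) = (k i : ℝ) ^ 2 * ((∑ j, Real.log (Real.sqrt (2 * Real.pi) * a j))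
      - ((3 + n : ℕ) : ℝ) / 2 * Real.log (k i)) - Real.log 2 := by
    rw [Real.log_div hQ.ne' two_ne_zero, Real.log_pow,
      Real.log_prod fun j _ => (mul_pos (by positivity) (hs j)).ne']
    have : ∀ j, Real.log (Real.sqrt (2 * Real.pi) * s j)
        = Real.log (Real.sqrt (2 * Real.pi) * a j) - Real.log (k i) / 2 := fun j => by
      have := ha j
      rw [← mul_div_assoc, Real.log_div (by positivity) hsq.ne', Real.log_sqrt (by linarith)]
    simp only [this, Finset.sum_sub_distrib, Finset.sum_const, Finset.card_univ, Fintype.card_fin,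
      nsmul_eq_mul]
    push_cast
    ring
  rw [hlog]
  have hk2 : (1 : ℝ) ≤ (k i : ℝ) ^ 2 := one_le_pow₀ hkr
  have hl2 : ((k i : ℝ) ^ 2)⁻¹ * Real.log 2 ≤ 1 := by
    have h : Real.log 2 ≤ 1 := by linarith [Real.log_le_sub_one_of_pos (two_pos (α := ℝ))]
    calc ((k i : ℝ) ^ 2)⁻¹ * Real.log 2 ≤ 1 * 1 :=
          mul_le_mul (inv_le_one_of_one_le₀ hk2) h (Real.log_nonneg one_le_two) zero_le_one
      _ = 1 := one_mul 1
  rw [mul_sub, inv_mul_cancel_left₀ (by positivity), hc0]
  linarith

end Vale.Agent.P087
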