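import Vale.Agent.P087.Rec

/-! # P087 — free cumulant identity and its `ℓ²` bound

`amp_eq_sum` is the moment-cumulant formula for `X_k = y_k + √(t_k) s_k`; `sum_K_sq_le` bounds the
weighted `ℓ²` norm of the cumulants by the generating function of the norms
`N(a, d) = ‖(v, q) ↦ K_{y_v}(q)‖₂`, `|v| = a`, `|q| = d`, at `z = (128 B)^(-1/2)`. -/

noncomputable section

open scoped Classical

namespace Vale.Agent.P087

section Cut

variable {ι : Type*}

theorem cum_cut_add (i : ι) : ∀ (w : List ι) (F F' : List ι → List ι → ℝ),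
    cut i w (fun a b => F a b + F' a b) = cut i w F + cut i w F'
  | [], _, _ => by simp [cut]
  | k :: w, F, F' => by
      simp only [cut]
      rw [cum_cut_add i w (fun a b => F (k :: a) b) (fun a b => F' (k :: a) b)]
      split <;> ring

theorem cum_cut_mul_left (i : ι) (c : ℝ) : ∀ (w : List ι) (F : List ι → List ι → ℝ),
    cut i w (fun a b => c * F a b) = c * cut i w F
  | [], _ => by simp [cut]
  | k :: w, F => by
      simp only [cut]
      rw [cum_cut_mul_left i c w (fun a b => F (k :: a) b)]
      split <;> ring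

theorem cum_cut_mul_right (i : ι) (c : ℝ) (w : List ι) (F : List ι → List ι → ℝ) :
    cut i w (fun a b => F a b * c) = cut i w F * c := by
  rw [mul_comm (cut i w F) c, ← cum_cut_mul_left]
  simp only [mul_comm]

theorem cum_cut_zero (i : ι) (w : List ι) : cut i w (fun _ _ => (0 : ℝ)) = 0 := by
  simpa using cum_cut_mul_left i 0 w (fun _ _ => 0)

theorem cum_cut_sum {κ : Type*} (i : ι) (w : List ι) (s : Finset κ)
    (F : κ → List ι → List ι → ℝ) :
    cut i w (fun a b => ∑ x ∈ s, F x a b) = ∑ x ∈ s, cut i w (F x) := by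
  induction s using Finset.induction with
  | empty => simpa using cum_cut_zero i w
  | insert x s hx ih => simp only [Finset.sum_insert hx, cum_cut_add, ih]

/-- Two cuts commute. -/
theorem cum_cut_cut (i k : ι) : ∀ (w : List ι) (Φ : List ι → List ι → List ι → ℝ),
    cut i w (fun a b => cut k a (fun a₁ a₂ => Φ a₁ a₂ b))
      = cut k w (fun a₁ c => cut i c (fun a₂ b => Φ a₁ a₂ b))
  | [], _ => rfl
  | x :: w, Φ => by
      simp only [cut]
      rw [cum_cut_add, cum_cut_cut i k w (fun a₁ a₂ b => Φ (x :: a₁) a₂ b)]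
      by_cases h : x = k
      · simp [h]
      · simp [h, cum_cut_zero]

theorem splitSum_eq_sum : ∀ (w : List ι) (F : List ι → List ι → ℝ),
    splitSum w F = ∑ p ∈ Finset.range (w.length + 1), F (w.take p) (w.drop p)
  | [], F => by simp [splitSum]
  | k :: w, F => by
      rw [splitSum, splitSum_eq_sum w, List.length_cons,
        Finset.sum_range_succ' _ (w.length + 1)]
      simp [add_comm]

theorem splitSum_mul_right (c : ℝ) (w : List ι) (F : List ι → List ι → ℝ) :
    splitSum w F * c = splitSum w (fun p u => F p u * c) := by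
  rw [splitSum_eq_sum, splitSum_eq_sum, Finset.sum_mul]

end Cut

section Words

variable {ι : Type*} [Fintype ι]

/-- Sum over the words of length `d`. -/
def wsum (d : ℕ) (F : List ι → ℝ) : ℝ := ∑ v : Fin d → ι, F (List.ofFn v)

/-- Sum over the words of length at most `D`. -/
def wsumLe (D : ℕ) (F : List ι → ℝ) : ℝ := ∑ d ∈ Finset.range (D + 1), wsum d F

theorem wsum_zero (F : List ι → ℝ) : wsum 0 F = F [] := by
  simp [wsum]

theorem wsum_succ (d : ℕ) (F : List ι → ℝ) :
    wsum (d + 1) F = ∑ i, wsum d (fun u => F (i :: u)) := by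
  rw [wsum, ← (Fin.consEquiv fun _ : Fin (d + 1) => ι).sum_comp, Fintype.sum_prod_type]
  refine Finset.sum_congr rfl fun i _ => Finset.sum_congr rfl fun v _ => ?_
  simp [List.ofFn_succ, Fin.consEquiv]

theorem wsum_congr {d : ℕ} {F F' : List ι → ℝ} (h : ∀ u, u.length = d → F u = F' u) :
    wsum d F = wsum d F' :=
  Finset.sum_congr rfl fun _ _ => h _ (List.length_ofFn)

theorem wsum_split : ∀ (p u : ℕ) (F F' : List ι → ℝ),
    wsum (p + u) (fun q => F (q.take p) * F' (q.drop p)) = wsum p F * wsum u F'
  | 0, u, F, F' => by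
      rw [wsum_zero, Nat.zero_add, wsum, wsum, Finset.mul_sum]
      simp
  | p + 1, u, F, F' => by
      rw [Nat.succ_add, wsum_succ, wsum_succ, Finset.sum_mul]
      refine Finset.sum_congr rfl fun i _ => ?_
      simp only [List.take_succ_cons, List.drop_succ_cons]
      exact wsum_split p u (fun q => F (i :: q)) F'

theorem wsumLe_zero (F : List ι → ℝ) : wsumLe 0 F = F [] := by
  simp [wsumLe, wsum_zero]

theorem wsumLe_succ (D : ℕ) (F : List ι → ℝ) :
    wsumLe (D + 1) F = F [] + ∑ i, wsumLe D (fun u => F (i :: u)) := by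
  simp only [wsumLe]
  rw [Finset.sum_range_succ' _ (D + 1), wsum_zero, add_comm]
  congr 1
  rw [Finset.sum_comm]
  exact Finset.sum_congr rfl fun d _ => wsum_succ d F

theorem wsumLe_congr {D : ℕ} {F F' : List ι → ℝ} (h : ∀ u, u.length ≤ D → F u = F' u) :
    wsumLe D F = wsumLe D F' :=
  Finset.sum_congr rfl fun d hd => wsum_congr fun u hu => h u (by
    have := Finset.mem_range.1 hd
    omega)

theorem wsumLe_add (D : ℕ) (F F' : List ι → ℝ) :
    wsumLe D (fun u => F u + F' u) = wsumLe D F + wsumLe D F' := by
  simp only [wsumLe, wsum, Finset.sum_add_distrib]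

theorem wsumLe_mul_left (D : ℕ) (c : ℝ) (F : List ι → ℝ) :
    wsumLe D (fun u => c * F u) = c * wsumLe D F := by
  simp only [wsumLe, wsum, Finset.mul_sum]

theorem wsumLe_eq_zero {D : ℕ} {F : List ι → ℝ} (h : ∀ u, F u = 0) : wsumLe D F = 0 := by
  simp [wsumLe, wsum, h]

theorem wsumLe_succ_of_zero {D : ℕ} {F : List ι → ℝ} (h : ∀ u, D < u.length → F u = 0) :
    wsumLe (D + 1) F = wsumLe D F := by
  rw [wsumLe, Finset.sum_range_succ, wsum_congr (F' := fun _ => 0) fun u hu => h u (by omega)]
  simp [wsum, wsumLe]

theorem wsumLe_cut (D : ℕ) (i : ι) (w : List ι) (F : List ι → List ι → List ι → ℝ) :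
    cut i w (fun a b => wsumLe D (fun v => F v a b)) = wsumLe D (fun v => cut i w (F v)) := by
  simp only [wsumLe, wsum, cum_cut_sum]

theorem wsumLe_comm (D : ℕ) (F : List ι → List ι → ℝ) :
    wsumLe D (fun u => wsumLe D (F u)) = wsumLe D (fun v => wsumLe D (fun u => F u v)) := by
  simp only [wsumLe, wsum]
  rw [Finset.sum_congr rfl fun d _ => Finset.sum_comm (s := (Finset.univ : Finset (Fin d → ι)))]
  rw [Finset.sum_comm]
  refine Finset.sum_congr rfl fun e _ => ?_
  rw [Finset.sum_congr rfl fun d _ => Finset.sum_comm, Finset.sum_comm]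

theorem wsumLe_splitSum : ∀ (D : ℕ) (F : List ι → List ι → ℝ),
    (∀ p u, D < p.length + u.length → F p u = 0) →
    wsumLe D (fun q => splitSum q F) = wsumLe D (fun p => wsumLe D (F p))
  | 0, F, _ => by simp [wsumLe_zero, splitSum]
  | D + 1, F, h => by
      rw [wsumLe_succ, wsumLe_succ (F := fun p => wsumLe (D + 1) (F p)), wsumLe_succ (F := F [])]
      simp only [splitSum, wsumLe_add, Finset.sum_add_distrib]
      rw [← add_assoc]
      congr 1
      refine Finset.sum_congr rfl fun i _ => ?_
      rw [wsumLe_splitSum D (fun p u => F (i :: p) u)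
        (fun p u hpu => h _ u (by simp only [List.length_cons]; omega))]
      refine wsumLe_congr fun p _ => (wsumLe_succ_of_zero fun u hu => h _ u ?_).symm
      simp only [List.length_cons]
      omega

end Words

variable {ι G : Type*} [Group G] [Fintype ι]

theorem cu_eq_zero (y : ι → G) (t : ι → ℝ) {u w : List ι} (h : w.length < u.length) :
    cu y t u w = 0 := by
  induction u generalizing w with
  | nil => simp at h
  | cons i u ih =>
    rw [cu, cut_congr i w (F' := fun _ _ => (0 : ℝ)), cum_cut_zero]
    intro a b hab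
    rw [ih, mul_zero]
    simp only [hab, List.length_append, List.length_cons] at h
    omega

/-- The coordinate with the group element `g` in front of the first leg. -/
def cuFrom (y : ι → G) (t : ι → ℝ) (g : G) : List ι → List ι → ℝ
  | [], w => amp y t g w
  | i :: u, w => cut i w (fun a b => amp y t g a * cu y t u b)

theorem cuFrom_eq_zero (y : ι → G) (t : ι → ℝ) (g : G) {u w : List ι}
    (h : w.length < u.length) : cuFrom y t g u w = 0 := by
  cases u with
  | nil => simp at h
  | cons i u =>
    rw [cuFrom, cut_congr i w (F' := fun _ _ => (0 : ℝ)), cum_cut_zero]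
    intro a b hab
    rw [cu_eq_zero, mul_zero]
    simp only [hab, List.length_append, List.length_cons] at h
    omega

theorem cu_append (y : ι → G) (t : ι → ℝ) (i : ι) (u : List ι) : ∀ (p w : List ι),
    cu y t (p ++ i :: u) w = cut i w (fun a b => cu y t p a * cu y t u b)
  | [], w => by simp [cu]
  | j :: p, w => by
      rw [List.cons_append, cu, cut_congr j w (fun a c _ => by rw [cu_append y t i u p c])]
      simp only [cu, ← cum_cut_mul_right, ← cum_cut_mul_left]
      rw [cum_cut_cut i j w (fun a₁ a₂ b => amp y t 1 a₁ * cu y t p a₂ * cu y t u b)]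
      simp only [mul_assoc]

theorem cu_cons_word (y : ι → G) (t : ι → ℝ) (v : List ι) (k : ι) (w : List ι) :
    cu y t v (k :: w) = (if v.head? = some k then cu y t v.tail w else 0)
      + cuFrom y t (y k) v w + t k * cu y t (k :: v) w := by
  cases v with
  | nil => simp [cu, cuFrom, amp_cons]
  | cons i u =>
    simp only [cu, cuFrom, cut, amp_nil, amp_cons, mul_one, if_true, one_mul, add_mul,
      cum_cut_add, mul_assoc, cum_cut_mul_left]
    simp only [← cum_cut_mul_right, ← cum_cut_mul_left]
    rw [cum_cut_cut i k w (fun a₁ a₂ b => t k * (amp y t 1 a₁ * amp y t 1 a₂ * cu y t u b))]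
    simp only [cum_cut_mul_left, ← add_assoc, mul_assoc]
    by_cases h : k = i
    · subst h
      simp
    · simp [h, Ne.symm h]

/-- `amp g w = Σ_u K_g(u) cu(u, w)`: the moment-cumulant formula. -/
theorem amp_eq_wsumLe (y : ι → G) (t : ι → ℝ) : ∀ (n : ℕ) (w : List ι), w.length = n →
    ∀ (g : G) (D : ℕ), w.length ≤ D →
      amp y t g w = wsumLe D (fun v => K y g v * cu y t v w) := by
  intro n
  induction n using Nat.strong_induction_on with
  | _ n ih =>
    intro w hn g D hD
    by_cases hg : g = 1
    · subst hg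
      cases D with
      | zero => simp [wsumLe_zero, K_nil, cu]
      | succ D =>
        rw [wsumLe_succ, Finset.sum_eq_zero fun i _ => wsumLe_eq_zero fun u => by
          rw [K_one_cons, zero_mul]]
        simp [K_nil, cu]
    cases w with
    | nil =>
      cases D with
      | zero => simp [wsumLe_zero, K_nil, cu, amp_nil, hg]
      | succ D =>
        rw [wsumLe_succ, Finset.sum_eq_zero fun i _ => wsumLe_eq_zero fun u => by
          rw [cu_eq_zero y t (u := i :: u) (w := []) (by simp), mul_zero]]
        simp [K_nil, amp_nil, hg]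
    | cons k w =>
      obtain _ | D := D
      · simp at hD
      simp only [List.length_cons] at hn hD
      have hlt : ∀ a : List ι, a.length ≤ w.length → ∀ g' : G,
          amp y t g' a = wsumLe D (fun v => K y g' v * cu y t v a) :=
        fun a ha g' => ih a.length (by omega) a rfl g' D (by omega)
      -- the head term
      have hH : wsumLe (D + 1) (fun v => K y g v * if v.head? = some k then cu y t v.tail w else 0)
          = wsumLe D (fun u => K y g (k :: u) * cu y t u w) := by
        rw [wsumLe_succ, Finset.sum_eq_single k (fun i _ hi => wsumLe_eq_zero fun u => by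
          simp [hi]) (by simp)]
        simp
      -- the leg of `y k`
      have hP : ∀ v : List ι, cuFrom y t (y k) v w
          = wsumLe D (fun p => K y (y k) p * cu y t (p ++ v) w) := by
        intro v
        cases v with
        | nil => simpa [cuFrom] using hlt w le_rfl (y k)
        | cons i u =>
          rw [cuFrom, cut_congr i w (F' := fun a b =>
            wsumLe D (fun p => K y (y k) p * (cu y t p a * cu y t u b))), wsumLe_cut]
          · exact wsumLe_congr fun p _ => by rw [cum_cut_mul_left, cu_append]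
          · intro a b hab
            have ha : a.length ≤ w.length := by simp [hab]
            rw [hlt a ha (y k), mul_comm, ← wsumLe_mul_left]
            exact wsumLe_congr fun p _ => by ring
      -- the new leg
      have hC : wsumLe (D + 1) (fun v => K y g v * cu y t (k :: v) w)
          = cut k w (fun a b => amp y t 1 a * amp y t g b) := by
        rw [cut_congr k w (F' := fun a b =>
          wsumLe (D + 1) (fun v => K y g v * (amp y t 1 a * cu y t v b))), wsumLe_cut]
        · exact wsumLe_congr fun p _ => by rw [cum_cut_mul_left, cu]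
        · intro a b hab
          have hb : b.length < n := by
            rw [hab] at hn
            simp only [List.length_append, List.length_cons] at hn
            omega
          rw [ih b.length hb b rfl g (D + 1) (by omega), ← wsumLe_mul_left]
          exact wsumLe_congr fun p _ => by ring
      have hPsum : wsumLe (D + 1) (fun v => K y g v * cuFrom y t (y k) v w)
          = wsumLe D (fun q => splitSum q (fun p u => K y (y k) p * K y g u) * cu y t q w) := by
        rw [wsumLe_succ_of_zero fun u hu => by
          rw [cuFrom_eq_zero y t (y k) (by omega), mul_zero]]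
        have e : ∀ q : List ι, splitSum q (fun p u => K y (y k) p * K y g u) * cu y t q w
            = splitSum q (fun p u => K y (y k) p * K y g u * cu y t (p ++ u) w) := by
          intro q
          rw [splitSum_mul_right]
          exact splitSum_congr q fun p u h => by rw [h]
        simp only [e]
        rw [wsumLe_splitSum D _ fun p u h => by
          rw [cu_eq_zero y t (u := p ++ u) (w := w) (by simp; omega), mul_zero]]
        simp only [hP, ← wsumLe_mul_left]
        rw [wsumLe_comm]
        exact wsumLe_congr fun p _ => wsumLe_congr fun u _ => by ring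
      have e1 : ∀ v : List ι, K y g v * cu y t v (k :: w)
          = K y g v * (if v.head? = some k then cu y t v.tail w else 0)
            + K y g v * cuFrom y t (y k) v w + t k * (K y g v * cu y t (k :: v) w) := by
        intro v
        rw [cu_cons_word]
        ring
      simp only [e1, wsumLe_add, wsumLe_mul_left, hH, hPsum, hC]
      rw [amp_cons, hlt w le_rfl (y k * g), ← wsumLe_add]
      congr 1
      exact wsumLe_congr fun u _ => by rw [K_cons y hg k u]; ring

theorem amp_eq_sum (y : ι → G) (t : ι → ℝ) (g : G) (w : List ι) {D : ℕ} (hD : w.length ≤ D) :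
    amp y t g w = ∑ d ∈ Finset.range (D + 1), ∑ v : Fin d → ι,
      K y g (List.ofFn v) * cu y t (List.ofFn v) w :=
  amp_eq_wsumLe y t _ w rfl g D hD

/-- `Σ_{|v| = a, |q| = d} K_{y_v}(q)²`. -/
def kSq (y : ι → G) (a d : ℕ) : ℝ :=
  ∑ v : Fin a → ι, ∑ q : Fin d → ι, K y ((List.ofFn v).map y).prod (List.ofFn q) ^ 2

/-- The square root of `kSq`. -/
def kNorm (y : ι → G) (a d : ℕ) : ℝ := Real.sqrt (kSq y a d)

theorem cum_sqrt_sum_add_sq_le {κ : Type*} (s : Finset κ) (f g : κ → ℝ) :
    Real.sqrt (∑ x ∈ s, (f x + g x) ^ 2)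
      ≤ Real.sqrt (∑ x ∈ s, f x ^ 2) + Real.sqrt (∑ x ∈ s, g x ^ 2) := by
  have hf : 0 ≤ ∑ x ∈ s, f x ^ 2 := Finset.sum_nonneg fun x _ => sq_nonneg _
  have hg : 0 ≤ ∑ x ∈ s, g x ^ 2 := Finset.sum_nonneg fun x _ => sq_nonneg _
  rw [Real.sqrt_le_left (by positivity), add_sq, Real.sq_sqrt hf, Real.sq_sqrt hg]
  have h := Real.sum_mul_le_sqrt_mul_sqrt s f g
  have e : ∑ x ∈ s, (f x + g x) ^ 2
      = ∑ x ∈ s, f x ^ 2 + 2 * ∑ x ∈ s, f x * g x + ∑ x ∈ s, g x ^ 2 := by
    rw [Finset.mul_sum, ← Finset.sum_add_distrib, ← Finset.sum_add_distrib]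
    exact Finset.sum_congr rfl fun x _ => by ring
  rw [e]
  linarith

theorem cum_sqrt_sum_add_sum_sq_le {κ μ : Type*} (s : Finset κ) (f : κ → ℝ) (T : Finset μ)
    (g : μ → κ → ℝ) :
    Real.sqrt (∑ x ∈ s, (f x + ∑ p ∈ T, g p x) ^ 2)
      ≤ Real.sqrt (∑ x ∈ s, f x ^ 2) + ∑ p ∈ T, Real.sqrt (∑ x ∈ s, g p x ^ 2) := by
  induction T using Finset.induction with
  | empty => simp
  | insert p T hp ih =>
    simp only [Finset.sum_insert hp]
    have h := cum_sqrt_sum_add_sq_le s (fun x => f x + ∑ q ∈ T, g q x) (g p)
    have e : ∀ x, f x + (g p x + ∑ q ∈ T, g q x) = f x + ∑ q ∈ T, g q x + g p x := fun x => by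
      ring
    simp only [e]
    linarith

theorem kNorm_succ_le (y : ι → G) (a d : ℕ) :
    kNorm y a (d + 1) ≤ kNorm y (a + 1) d
      + ∑ p ∈ Finset.range (d + 1), kNorm y 1 p * kNorm y a (d - p) := by
  set F : (Fin a → ι) × ι × (Fin d → ι) → ℝ := fun x =>
    |K y (y x.2.1 * ((List.ofFn x.1).map y).prod) (List.ofFn x.2.2)| with hF
  set F' : ℕ → (Fin a → ι) × ι × (Fin d → ι) → ℝ := fun p x =>
    |K y (y x.2.1) ((List.ofFn x.2.2).take p) *
      K y ((List.ofFn x.1).map y).prod ((List.ofFn x.2.2).drop p)| with hF'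
  have h1 : kSq y a (d + 1)
      ≤ ∑ x : (Fin a → ι) × ι × (Fin d → ι),
        (F x + ∑ p ∈ Finset.range (d + 1), F' p x) ^ 2 := by
    rw [kSq, Fintype.sum_prod_type]
    refine Finset.sum_le_sum fun v _ => ?_
    rw [Fintype.sum_prod_type]
    have := wsum_succ d (fun q => K y ((List.ofFn v).map y).prod q ^ 2)
    simp only [wsum] at this
    rw [this]
    refine Finset.sum_le_sum fun k _ => Finset.sum_le_sum fun q _ => ?_
    rw [sq_le_sq]
    refine le_trans ?_ (le_abs_self _)
    by_cases hg : ((List.ofFn v).map y).prod = 1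
    · rw [hg, K_one_cons, abs_zero]
      positivity
    rw [K_cons y hg, splitSum_eq_sum, List.length_ofFn]
    refine (abs_sub _ _).trans (add_le_add le_rfl ?_)
    exact Finset.abs_sum_le_sum_abs _ _
  refine (Real.sqrt_le_sqrt h1).trans ((cum_sqrt_sum_add_sum_sq_le _ _ _ _).trans (le_of_eq ?_))
  congr 1
  · rw [kNorm, kSq]
    congr 1
    have := wsum_succ a (fun v => ∑ q : Fin d → ι, K y (v.map y).prod (List.ofFn q) ^ 2)
    simp only [wsum] at this
    rw [this, Finset.sum_comm, Fintype.sum_prod_type]
    simp only [Fintype.sum_prod_type, hF, sq_abs, List.map_cons, List.prod_cons]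
  · refine Finset.sum_congr rfl fun p hp => ?_
    obtain ⟨u, rfl⟩ : ∃ u, d = p + u := ⟨d - p, by have := Finset.mem_range.1 hp; omega⟩
    have hnn : 0 ≤ kSq y 1 p := Finset.sum_nonneg fun _ _ => Finset.sum_nonneg fun _ _ => sq_nonneg _
    rw [kNorm, kNorm, ← Real.sqrt_mul hnn, Nat.add_sub_cancel_left]
    congr 1
    rw [kSq, kSq, Finset.mul_sum, Fintype.sum_prod_type]
    refine Finset.sum_congr rfl fun v _ => ?_
    have := wsum_succ 0 (fun v => ∑ q : Fin p → ι, K y (v.map y).prod (List.ofFn q) ^ 2)
    simp only [wsum_zero, List.map_cons, List.map_nil, List.prod_cons, List.prod_nil,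
      mul_one] at this
    simp only [wsum] at this
    rw [this, Fintype.sum_prod_type, Finset.sum_mul]
    refine Finset.sum_congr rfl fun k _ => ?_
    have h2 := wsum_split p u (fun q => K y (y k) q ^ 2)
      (fun q => K y ((List.ofFn v).map y).prod q ^ 2)
    simp only [wsum] at h2
    rw [← h2]
    simp only [hF', sq_abs, mul_pow]

/-- The `ℓ²` bound: if at most `B ^ a` words of length `a` are trivial, the weighted square sum of
the cumulants is at most `B` as soon as all variances are at least `128 B`. -/
theorem sum_K_sq_le (y : ι → G) (hy : ∀ k, y k ≠ 1) {B : ℝ} (hB : 1 ≤ B)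
    (hcount : ∀ a : ℕ,
      ((Finset.univ.filter fun v : Fin a → ι => ((List.ofFn v).map y).prod = 1).card : ℝ) ≤ B ^ a)
    (t : ι → ℝ) (ht : ∀ k, 128 * B ≤ t k) (D : ℕ) :
    ∑ j : ι, ∑ d ∈ Finset.range (D + 1), ∑ v : Fin d → ι,
      K y (y j) (List.ofFn v) ^ 2 / ∏ i, t (v i) ≤ B := by
  set b : ℝ := Real.sqrt B with hb
  set z : ℝ := (Real.sqrt (128 * B))⁻¹ with hz
  have hb1 : 1 ≤ b := Real.one_le_sqrt.2 hB
  have hz0 : 0 ≤ z := by positivity
  have hzb : z * b ≤ 1 / 11 := by
    rw [hz, Real.sqrt_mul (by norm_num : (0 : ℝ) ≤ 128), mul_inv, mul_assoc,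
      inv_mul_cancel₀ (by positivity), mul_one, one_div]
    exact inv_anti₀ (by norm_num) ((Real.le_sqrt (by norm_num) (by norm_num)).2 (by norm_num))
  have hbb : b * b = B := Real.mul_self_sqrt (by linarith)
  have hzero : ∀ a, kNorm y a 0 ≤ b ^ a := by
    intro a
    rw [kNorm, kSq, Real.sqrt_le_left (by positivity), ← pow_mul, mul_comm, pow_mul, sq, hbb]
    refine le_trans (le_of_eq ?_) (hcount a)
    rw [← Finset.sum_boole]
    simp [K_nil]
  have h10 : kNorm y 1 0 = 0 := by
    simp [kNorm, kSq, K_nil, hy]
  have hnn : ∀ a d, 0 ≤ kNorm y a d := fun a d => Real.sqrt_nonneg _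
  -- the generating function
  have key : ∀ D : ℕ, (∀ a, 1 ≤ a →
      ∑ d ∈ Finset.range (D + 1), kNorm y a d * z ^ d ≤ (2 * b) ^ a) ∧
      ∑ d ∈ Finset.range (D + 1), kNorm y 1 d * z ^ d ≤ b := by
    intro D
    induction D with
    | zero =>
      refine ⟨fun a _ => ?_, by simp [h10]; linarith⟩
      simp only [Finset.range_one, Finset.sum_singleton, pow_zero, mul_one, Nat.zero_add]
      exact (hzero a).trans (pow_le_pow_left₀ (by linarith) (by linarith) a)
    | succ D ihD =>
      obtain ⟨ihA, ih1⟩ := ihD
      have hrec : ∀ a, 1 ≤ a → ∑ d ∈ Finset.range (D + 1 + 1), kNorm y a d * z ^ d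
          ≤ kNorm y a 0 + z * ((2 * b) ^ (a + 1) + b * (2 * b) ^ a) := by
        intro a ha
        rw [Finset.sum_range_succ', pow_zero, mul_one, add_comm]
        refine add_le_add le_rfl ?_
        calc ∑ d ∈ Finset.range (D + 1), kNorm y a (d + 1) * z ^ (d + 1)
            ≤ ∑ d ∈ Finset.range (D + 1), z * (kNorm y (a + 1) d * z ^ d
                + ∑ p ∈ Finset.range (d + 1),
                  (kNorm y 1 p * z ^ p) * (kNorm y a (d - p) * z ^ (d - p))) := by
              refine Finset.sum_le_sum fun d _ => ?_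
              refine (mul_le_mul_of_nonneg_right (kNorm_succ_le y a d)
                (by positivity)).trans (le_of_eq ?_)
              rw [pow_succ', add_mul, Finset.sum_mul, mul_add, Finset.mul_sum]
              congr 1
              · ring
              · refine Finset.sum_congr rfl fun p hp => ?_
                have hp' : p ≤ d := Nat.lt_succ_iff.1 (Finset.mem_range.1 hp)
                have e : z ^ d = z ^ p * z ^ (d - p) := by
                  rw [← pow_add, Nat.add_sub_cancel' hp']
                rw [e]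
                ring
          _ ≤ z * ((2 * b) ^ (a + 1) + b * (2 * b) ^ a) := by
              rw [← Finset.mul_sum, Finset.sum_add_distrib]
              refine mul_le_mul_of_nonneg_left (add_le_add (ihA (a + 1) (by omega)) ?_) hz0
              rw [Finset.sum_range_diag_flip (D + 1)
                (fun p u => (kNorm y 1 p * z ^ p) * (kNorm y a u * z ^ u))]
              refine le_trans (Finset.sum_le_sum fun p _ =>
                Finset.sum_le_sum_of_subset_of_nonneg (t := Finset.range (D + 1))
                  (Finset.range_subset_range.2 (by omega)) fun u _ _ => ?_) ?_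
              · have := hnn 1 p; have := hnn a u; positivity
              · rw [← Finset.sum_mul_sum]
                exact mul_le_mul ih1 (ihA a ha)
                  (Finset.sum_nonneg fun u _ => by have := hnn a u; positivity) (by linarith)
      refine ⟨fun a ha => (hrec a ha).trans ?_, (hrec 1 le_rfl).trans ?_⟩
      · have hp2 : (2 : ℝ) ≤ 2 ^ a := le_self_pow₀ (by norm_num) (by omega)
        have hba : 0 ≤ b ^ a := by positivity
        have := hzero a
        have e : z * ((2 * b) ^ (a + 1) + b * (2 * b) ^ a) = 3 * (z * b) * (2 ^ a * b ^ a) := by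
          rw [pow_succ, mul_pow]; ring
        rw [e, mul_pow]
        nlinarith [mul_le_mul_of_nonneg_right hzb (by positivity : (0 : ℝ) ≤ 2 ^ a * b ^ a),
          mul_le_mul_of_nonneg_right hp2 hba]
      · have e : z * ((2 * b) ^ (1 + 1) + b * (2 * b) ^ 1) = 6 * ((z * b) * b) := by ring
        rw [h10, e]
        linarith [mul_le_mul_of_nonneg_right hzb (by linarith : (0 : ℝ) ≤ b)]
  rw [Finset.sum_comm]
  have hpos : (0 : ℝ) < 128 * B := by linarith
  have hS : ∀ d, ∑ j : ι, ∑ v : Fin d → ι, K y (y j) (List.ofFn v) ^ 2 / ∏ i, t (v i)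
      ≤ (kNorm y 1 d * z ^ d) ^ 2 := by
    intro d
    have hsq : kSq y 1 d = ∑ j : ι, ∑ v : Fin d → ι, K y (y j) (List.ofFn v) ^ 2 := by
      have := wsum_succ 0 (fun v => ∑ q : Fin d → ι, K y (v.map y).prod (List.ofFn q) ^ 2)
      simp only [wsum_zero, List.map_cons, List.map_nil, List.prod_cons, List.prod_nil,
        mul_one] at this
      simp only [wsum] at this
      exact this
    have hk0 : 0 ≤ kSq y 1 d :=
      Finset.sum_nonneg fun _ _ => Finset.sum_nonneg fun _ _ => sq_nonneg _
    rw [mul_pow, kNorm, Real.sq_sqrt hk0, hsq, Finset.sum_mul]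
    refine Finset.sum_le_sum fun j _ => ?_
    rw [Finset.sum_mul]
    refine Finset.sum_le_sum fun v _ => ?_
    have hzd : (z ^ d) ^ 2 = ((128 * B) ^ d)⁻¹ := by
      rw [← pow_mul, mul_comm d 2, pow_mul, hz, inv_pow, Real.sq_sqrt hpos.le, inv_pow]
    rw [hzd, ← div_eq_mul_inv]
    refine div_le_div_of_nonneg_left (sq_nonneg _) (by positivity) ?_
    simpa using Finset.prod_le_prod (s := Finset.univ) (f := fun _ : Fin d => 128 * B)
      (fun i _ => hpos.le) (fun i _ => ht (v i))
  refine (Finset.sum_le_sum fun d _ => hS d).trans ?_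
  refine (Finset.sum_sq_le_sq_sum_of_nonneg fun d _ => by have := hnn 1 d; positivity).trans ?_
  rw [sq, ← hbb]
  exact mul_self_le_mul_self (Finset.sum_nonneg fun d _ => by have := hnn 1 d; positivity)
    (key D).2

end Vale.Agent.P087
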