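import Mathlib

/-! # P087 — definitions used in the statement

Tracial von Neumann algebra data: a complex Hilbert space `H`, a unit vector `Ω`, self-adjoint
operators `X`, `S`; the algebra is the double commutant of their ranges, the trace is the vector
state of `Ω`. -/

noncomputable section

open MeasureTheory Filter
open scoped InnerProductSpace ENNReal

namespace Vale.Agent.P087

variable {N : ℕ} {H : Type*} [NormedAddCommGroup H] [InnerProductSpace ℂ H] [CompleteSpace H]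

/-- The vector state `a ↦ ⟪Ω, a Ω⟫`. -/
def vstate (Ω : H) (a : H →L[ℂ] H) : ℂ := ⟪Ω, a Ω⟫_ℂ

/-- The monomial `X_{i_1} ⋯ X_{i_p}` of a word. -/
def monom (X : Fin N → H →L[ℂ] H) (w : List (Fin N)) : H →L[ℂ] H := (w.map X).prod

/-- The von Neumann algebra generated by a set of self-adjoint operators: its double commutant. -/
def vnGen (A : Set (H →L[ℂ] H)) : Set (H →L[ℂ] H) := Set.centralizer (Set.centralizer A)

/-- `vstate Ω` is a faithful tracial state on the set `M`. -/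
def IsFaithfulTrace (Ω : H) (M : Set (H →L[ℂ] H)) : Prop :=
  ‖Ω‖ = 1 ∧ (∀ a ∈ M, ∀ b ∈ M, vstate Ω (a * b) = vstate Ω (b * a)) ∧
    ∀ a ∈ M, a Ω = 0 → a = 0

/-- The unital algebra of the `i`-th member: `alg(X)` for `none`, `alg(S j)` for `some j`. -/
def memberAlg (X S : Fin N → H →L[ℂ] H) : Option (Fin N) → Subalgebra ℂ (H →L[ℂ] H)
  | none => Algebra.adjoin ℂ (Set.range X)
  | some j => Algebra.adjoin ℂ {S j}

/-- `S` is a family of free standard (variance one) semicircular elements which is free from `X`: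
each `S j` has the semicircle moments, and the algebras `alg(X), alg(S_1), …, alg(S_N)` are free
(alternating products of centred elements are centred). -/
def IsFreeSemicircularFrom (Ω : H) (X S : Fin N → H →L[ℂ] H) : Prop :=
  (∀ j, ∀ m : ℕ, vstate Ω (S j ^ m) = if Even m then ((catalan (m / 2) : ℕ) : ℂ) else 0) ∧
    ∀ l : List (Option (Fin N) × (H →L[ℂ] H)), l ≠ [] →
      (∀ p ∈ l, p.2 ∈ memberAlg X S p.1 ∧ vstate Ω p.2 = 0) →
      l.IsChain (fun p q => p.1 ≠ q.1) →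
      vstate Ω (l.map Prod.snd).prod = 0

/-- Orthonormal coordinates for `k × k` self-adjoint matrices with `⟪A, B⟫ = Tr (A B)`. -/
def herm {k : ℕ} (x : Fin k × Fin k → ℝ) : Matrix (Fin k) (Fin k) ℂ := fun a b =>
  if a = b then (x (a, a) : ℂ)
  else if a < b then ((x (a, b) : ℂ) + Complex.I * (x (b, a) : ℂ)) / (Real.sqrt 2 : ℂ)
  else ((x (b, a) : ℂ) - Complex.I * (x (a, b) : ℂ)) / (Real.sqrt 2 : ℂ)

/-- Operator norm at most `R`. -/
def NormLE {k : ℕ} (A : Matrix (Fin k) (Fin k) ℂ) (R : ℝ) : Prop :=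
  ∀ v : Fin k → ℂ, ∑ a, ‖A.mulVec v a‖ ^ 2 ≤ R ^ 2 * ∑ a, ‖v a‖ ^ 2

/-- The normalised trace. -/
def ntr {k : ℕ} (A : Matrix (Fin k) (Fin k) ℂ) : ℂ := (k : ℂ)⁻¹ * A.trace

/-- The product of the matrices along a word. -/
def matMonom {k : ℕ} (A : Fin N → Matrix (Fin k) (Fin k) ℂ) (w : List (Fin N)) :
    Matrix (Fin k) (Fin k) ℂ := (w.map A).prod

/-- The microstate set `Γ_R(X; m, k, ε)`, in orthonormal coordinates. -/
def microstates (Ω : H) (X : Fin N → H →L[ℂ] H) (R : ℝ) (m k : ℕ) (ε : ℝ) :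
    Set (Fin N → Fin k × Fin k → ℝ) :=
  {x | (∀ j, NormLE (herm (x j)) R) ∧
    ∀ w : List (Fin N), 1 ≤ w.length → w.length ≤ m →
      ‖ntr (matMonom (fun j => herm (x j)) w) - vstate Ω (monom X w)‖ < ε}

/-- `χ_R(X)`: the infimum over `m` and `ε > 0` of
`limsup_k (k⁻² log vol Γ_R(X; m, k, ε) + N/2 log k)`. -/
def chiR (Ω : H) (X : Fin N → H →L[ℂ] H) (R : ℝ) : EReal :=
  ⨅ (m : ℕ), ⨅ (ε : ℝ), ⨅ (_ : 0 < ε),
    Filter.limsup (fun k : ℕ =>
      ((((k : ℝ) ^ 2)⁻¹ : ℝ) : EReal) * ENNReal.log (volume (microstates Ω X R m k ε))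
        + (((N : ℝ) / 2 * Real.log k : ℝ) : EReal)) atTop

/-- Microstates free entropy `χ(X) = sup_{R > 0} χ_R(X)`. -/
def chi (Ω : H) (X : Fin N → H →L[ℂ] H) : EReal :=
  ⨆ (R : ℝ), ⨆ (_ : 0 < R), chiR Ω X R

/-- `τ ⊗ τ` of the free difference quotient `∂_j` of the monomial `w`. -/
def freeDiff (Ω : H) (X : Fin N → H →L[ℂ] H) (j : Fin N) (w : List (Fin N)) : ℂ :=
  ∑ l : Fin w.length,
    if w.get l = j then
      vstate Ω (monom X (w.take l)) * vstate Ω (monom X (w.drop (l + 1)))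
    else 0

/-- `ξ` is the `j`-th conjugate variable of `X`: it lies in `L²(W*(X), τ)`, the closure of the
polynomials in `X` applied to `Ω`, and pairs with every monomial as `τ ⊗ τ ∘ ∂_j`. -/
def IsConjugateVar (Ω : H) (X : Fin N → H →L[ℂ] H) (j : Fin N) (ξ : H) : Prop :=
  ξ ∈ (Submodule.span ℂ (Set.range fun w : List (Fin N) => monom X w Ω)).topologicalClosure ∧
    ∀ w : List (Fin N), ⟪ξ, monom X w Ω⟫_ℂ = freeDiff Ω X j w

/-- `X + √t S`. -/
def addSemicircular (X S : Fin N → H →L[ℂ] H) (t : ℝ) : Fin N → H →L[ℂ] H :=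
  fun j => X j + (Real.sqrt t : ℂ) • S j

end Vale.Agent.P087
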