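import Vale.Agent.P087.Moments
import Vale.Agent.P087.Cumulant

/-! # P087 — conjugate variables of `X + √t S` and the lower bound on `χ*`

With `T = X + √t S`, `t_j = a_j² + t` and `P` the projection on the closure of the polynomials in
`T` applied to `Ω`, the vector `u_j = a_j e(j, false) + √t e(j, true)` satisfies
`⟪u_j, T_w Ω⟫ = t_j ∂_j(w)`, so `ξ_j = P u_j / t_j`.  As `T_j Ω = δ_{y_j} + u_j` this gives
`‖ξ_j‖² = 1/t_j - (1 - ‖P δ_{y_j}‖²)/t_j²`; the cumulant identity bounds `∑ ‖P δ_{y_j}‖²` by `B`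
for `t ≥ 128 B`. -/

noncomputable section

open MeasureTheory Filter
open scoped InnerProductSpace lp ENNReal Classical Topology

namespace Vale.Agent.P087

namespace Fisher

variable {G : Type} [Group G] {N : ℕ} {y : Fin N → G} {a : Fin N → ℝ}

/-- The variances. -/
def var' (a : Fin N → ℝ) (t : ℝ) (j : Fin N) : ℝ := a j ^ 2 + t

/-- `T_w Ω`. -/
def polyVec (y : Fin N → G) (a : Fin N → ℝ) (t : ℝ) (w : List (Fin N)) : L2 (Bas G N) :=
  monom (addSemicircular (Xop y a) Sop t) w omega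

/-- A general element of the span of the `T_w Ω`. -/
def combo (y : Fin N → G) (a : Fin N → ℝ) (t : ℝ) (c : List (Fin N) →₀ ℂ) : L2 (Bas G N) :=
  c.sum fun w z => z • polyVec y a t w

/-- `L²(W*(T))`. -/
def polySpace (y : Fin N → G) (a : Fin N → ℝ) (t : ℝ) : Submodule ℂ (L2 (Bas G N)) :=
  (Submodule.span ℂ (Set.range fun w : List (Fin N) => polyVec y a t w)).topologicalClosure

instance (y : Fin N → G) (a : Fin N → ℝ) (t : ℝ) : CompleteSpace (polySpace y a t) :=
  (Submodule.isClosed_topologicalClosure _).completeSpace_coe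

/-- The projection on `L²(W*(T))`. -/
def proj (y : Fin N → G) (a : Fin N → ℝ) (t : ℝ) : L2 (Bas G N) →L[ℂ] L2 (Bas G N) :=
  (polySpace y a t).starProjection

/-- `δ_{y_j}`. -/
def dVec (y : Fin N → G) (j : Fin N) : L2 (Bas G N) := dl (y j, [])

/-- The leg `e(j, side)`. -/
def leg (j : Fin N) (b : Bool) : Bas G N := (1, [((j, b), 1)])

/-- `u_j`. -/
def uVec (a : Fin N → ℝ) (t : ℝ) (j : Fin N) : L2 (Bas G N) :=
  (a j : ℂ) • dl (leg j false) + (Real.sqrt t : ℂ) • dl (leg j true)

/-- `‖P δ_{y_j}‖²`. -/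
def pdSq (y : Fin N → G) (a : Fin N → ℝ) (j : Fin N) (t : ℝ) : ℝ :=
  ‖proj y a t (dVec y j)‖ ^ 2

/-- `ξ_j`. -/
def xiVec (y : Fin N → G) (a : Fin N → ℝ) (t : ℝ) (j : Fin N) : L2 (Bas G N) :=
  ((var' a t j)⁻¹ : ℂ) • proj y a t (uVec a t j)

theorem combo_mem (t : ℝ) (c : List (Fin N) →₀ ℂ) : combo y a t c ∈ polySpace y a t :=
  Submodule.le_topologicalClosure _
    (Finsupp.mem_span_range_iff_exists_finsupp.2 ⟨c, rfl⟩)

theorem polyVec_mem (t : ℝ) (w : List (Fin N)) : polyVec y a t w ∈ polySpace y a t :=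
  Submodule.le_topologicalClosure _ (Submodule.subset_span ⟨w, rfl⟩)

theorem inner_proj {t : ℝ} (x : L2 (Bas G N)) {z : L2 (Bas G N)} (hz : z ∈ polySpace y a t) :
    ⟪proj y a t x, z⟫_ℂ = ⟪x, z⟫_ℂ := by
  rw [proj, Submodule.inner_starProjection_left_eq_right, Submodule.starProjection_eq_self_iff.2 hz]

/-- Every element of `L²(W*(T))` is a limit of combinations. -/
theorem exists_combo_seq {t : ℝ} {x : L2 (Bas G N)} (hx : x ∈ polySpace y a t) :
    ∃ c : ℕ → (List (Fin N) →₀ ℂ), Tendsto (fun n => combo y a t (c n)) atTop (𝓝 x) := by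
  have hx' : x ∈ closure (Submodule.span ℂ
      (Set.range fun w : List (Fin N) => polyVec y a t w) : Set (L2 (Bas G N))) := by
    rw [← Submodule.topologicalClosure_coe]
    exact hx
  obtain ⟨z, hz, hlim⟩ := mem_closure_iff_seq_limit.1 hx'
  choose c hc using fun n => Finsupp.mem_span_range_iff_exists_finsupp.1 (hz n)
  refine ⟨c, ?_⟩
  have : (fun n => combo y a t (c n)) = z := funext hc
  rwa [this]

theorem continuous_combo (c : List (Fin N) →₀ ℂ) :
    Continuous fun t : ℝ => combo y a t c := by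
  have hw : ∀ w, Continuous fun t : ℝ => polyVec y a t w := by
    intro w
    induction w with
    | nil => simpa [polyVec, monom] using continuous_const
    | cons k w ih =>
      simp only [polyVec, monom_cons, addSemicircular]
      simp only [polyVec] at ih
      fun_prop
  unfold combo Finsupp.sum
  exact continuous_finsetSum _ fun w _ => (hw w).const_smul (c w)

theorem quad_le_pdSq (j : Fin N) (t : ℝ) {z : L2 (Bas G N)} (hz : z ∈ polySpace y a t) :
    2 * RCLike.re ⟪dVec y j, z⟫_ℂ - ‖z‖ ^ 2 ≤ pdSq y a j t := by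
  rw [← inner_proj (dVec y j) hz, pdSq]
  have h := re_inner_le_norm (𝕜 := ℂ) (proj y a t (dVec y j)) z
  nlinarith [sq_nonneg (‖proj y a t (dVec y j)‖ - ‖z‖)]

theorem tendsto_quad (j : Fin N) (t : ℝ) {c : ℕ → (List (Fin N) →₀ ℂ)}
    (hc : Tendsto (fun n => combo y a t (c n)) atTop (𝓝 (proj y a t (dVec y j)))) :
    Tendsto (fun n => 2 * RCLike.re ⟪dVec y j, combo y a t (c n)⟫_ℂ - ‖combo y a t (c n)‖ ^ 2)
      atTop (𝓝 (pdSq y a j t)) := by
  have e : pdSq y a j t = 2 * RCLike.re ⟪dVec y j, proj y a t (dVec y j)⟫_ℂ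
      - ‖proj y a t (dVec y j)‖ ^ 2 := by
    have hm : proj y a t (dVec y j) ∈ polySpace y a t :=
      Submodule.starProjection_apply_mem _ _
    rw [← inner_proj (dVec y j) hm, inner_self_eq_norm_sq, pdSq]
    ring
  rw [e]
  exact ((by fun_prop : Continuous fun z : L2 (Bas G N) =>
    2 * RCLike.re ⟪dVec y j, z⟫_ℂ - ‖z‖ ^ 2).tendsto _).comp hc

theorem pdSq_nonneg (j : Fin N) (t : ℝ) : 0 ≤ pdSq y a j t := sq_nonneg _

theorem pdSq_le_one (j : Fin N) (t : ℝ) : pdSq y a j t ≤ 1 := by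
  refine pow_le_one₀ (norm_nonneg _) ?_
  refine le_trans ((polySpace y a t).norm_starProjection_apply_le _) (le_of_eq ?_)
  exact norm_dl _

/-- `t ↦ ‖P_t δ_{y_j}‖²` is a supremum of continuous functions. -/
theorem measurable_pdSq (j : Fin N) : Measurable (pdSq y a j) := by
  refine LowerSemicontinuous.measurable fun t₀ r hr => ?_
  obtain ⟨c, hc⟩ := exists_combo_seq (y := y) (a := a) (t := t₀)
    (Submodule.starProjection_apply_mem _ (dVec y j))
  obtain ⟨n, hn⟩ := ((tendsto_quad j t₀ hc).eventually (eventually_gt_nhds hr)).exists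
  have hcont : Continuous fun t : ℝ =>
      2 * RCLike.re ⟪dVec y j, combo y a t (c n)⟫_ℂ - ‖combo y a t (c n)‖ ^ 2 := by
    have := continuous_combo (y := y) (a := a) (c n)
    fun_prop
  filter_upwards [hcont.continuousAt.eventually (eventually_gt_nhds hn)] with t ht
  exact lt_of_lt_of_le ht (quad_le_pdSq j t (combo_mem t (c n)))

theorem polyVec_apply (hy : ∀ k, y k * y k = 1) {t : ℝ} (ht : 0 ≤ t) (w : List (Fin N))
    (g : G) (l : List ((Fin N × Bool) × G)) :
    polyVec y a t w (g, l) = (((l.map fun p => wgt a t p.1).prod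
      * coefG y (var' a t) g (l.map fun p => (p.1.1, p.2)) w : ℝ) : ℂ) :=
  monom_omega_apply hy ht w g l

theorem cut_congr_singleton (t : ℝ) (j : Fin N) (w : List (Fin N)) :
    coefG y (var' a t) 1 [(j, (1 : G))] w = cu y (var' a t) [j] w :=
  coefG_pure y _ [j] w

theorem inner_uVec (hy : ∀ k, y k * y k = 1) {t : ℝ} (ht : 0 ≤ t) (j : Fin N)
    (w : List (Fin N)) :
    ⟪uVec a t j, polyVec y a t w⟫_ℂ = (var' a t j : ℂ) * (cu y (var' a t) [j] w : ℂ) := by
  have hs : ((Real.sqrt t : ℝ) : ℂ) * (Real.sqrt t : ℝ) = (t : ℂ) := by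
    rw [← Complex.ofReal_mul, Real.mul_self_sqrt ht]
  simp only [uVec, inner_add_left, inner_smul_left, inner_dl_left, Complex.conj_ofReal, leg,
    polyVec_apply hy ht, List.map_cons, List.map_nil, List.prod_cons, List.prod_nil, mul_one,
    wgt, cut_congr_singleton, Bool.false_eq_true, if_false, if_true]
  rw [show var' a t j = a j ^ 2 + t from rfl]
  push_cast
  linear_combination (cu y (var' a t) [j] w : ℂ) * hs

theorem freeDiff_eq (hy : ∀ k, y k * y k = 1) {t : ℝ} (ht : 0 ≤ t) (j : Fin N)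
    (w : List (Fin N)) :
    freeDiff omega (addSemicircular (Xop y a) Sop t) j w = (cu y (var' a t) [j] w : ℂ) := by
  set f : List (Fin N) → ℝ := amp y (var' a t) 1 with hf
  have hcut : ∀ (w : List (Fin N)) (F : List (Fin N) → List (Fin N) → ℝ),
      cut j w F = ∑ l : Fin w.length, if w.get l = j then F (w.take l) (w.drop (l + 1)) else 0 := by
    intro w
    induction w with
    | nil => intro F; simp [cut]
    | cons k w ih =>
      intro F
      rw [cut, ih]
      show _ = ∑ l : Fin (w.length + 1), _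
      simp [Fin.sum_univ_succ]
  rw [show cu y (var' a t) [j] w = cut j w (fun u v => f u * f v) from rfl, hcut, freeDiff]
  push_cast
  refine Finset.sum_congr rfl fun l _ => ?_
  rw [vstate_monom_XS hy ht, vstate_monom_XS hy ht, apply_ite (fun x : ℝ => (x : ℂ))]
  push_cast
  rfl

theorem pull_dl {β : Type} {h : β → Option β} (hh : PInj h) {a b : β} (hab : h a = some b) :
    pull h hh (dl b) = dl a := by
  refine lp.ext (funext fun a' => ?_)
  rw [pull_apply, dl_apply]
  cases hc : h a' with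
  | none =>
    rw [Option.elim_none, if_neg]
    rintro rfl
    simp [hab] at hc
  | some c =>
    rw [Option.elim_some, dl_apply]
    by_cases ha : a = a'
    · subst ha
      rw [hab, Option.some.injEq] at hc
      rw [if_pos hc.symm, if_pos rfl]
    · rw [if_neg (Ne.symm ha), if_neg]
      rintro rfl
      exact ha (hh hab hc)

theorem pull_dl_eq_zero {β : Type} {h : β → Option β} (hh : PInj h) {b : β}
    (hb : ∀ a, h a ≠ some b) : pull h hh (dl b) = 0 := by
  refine lp.ext (funext fun a => ?_)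
  rw [pull_apply, lp.coeFn_zero, Pi.zero_apply]
  cases hc : h a with
  | none => rfl
  | some c =>
    rw [Option.elim_some, dl_apply, if_neg]
    rintro rfl
    exact hb a hc

theorem sOp_omega (c : Fin N × Bool) :
    sOp c (omega : L2 (Bas G N)) = dl (1, [(c, 1)]) := by
  rw [sOp, omega, add_apply, pull_dl _ (a := ((1 : G), [(c, (1 : G))])) (by simp [crMap]),
    pull_dl_eq_zero _ (fun a h => by simp [anMap] at h), add_zero]

theorem gOp_omega (g : G) : gOp g (omega : L2 (Bas G N)) = dl (g, []) := by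
  rw [gOp, omega, pull_dl _ (a := (g, ([] : List ((Fin N × Bool) × G))))]
  simp [leftMap]

/-- `T_j Ω = δ_{y_j} + u_j`. -/
theorem polyVec_singleton (t : ℝ) (j : Fin N) :
    polyVec y a t [j] = dVec y j + uVec a t j := by
  simp only [polyVec, monom, List.map_cons, List.map_nil, List.prod_cons, List.prod_nil, mul_one,
    addSemicircular, Xop, Sop, add_apply, smul_apply, sOp_omega, gOp_omega, dVec, uVec, leg,
    add_assoc]

omit [Group G] in
theorem inner_dVec_self (j : Fin N) : ⟪dVec y j, dVec y j⟫_ℂ = 1 := by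
  rw [dVec, inner_dl_left, dl_apply, if_pos rfl]

theorem norm_uVec_sq {t : ℝ} (ht : 0 ≤ t) (j : Fin N) :
    ‖(uVec a t j : L2 (Bas G N))‖ ^ 2 = var' a t j := by
  have h1 : ((leg j false : Bas G N) = leg j true) = False := by simp [leg]
  have h : ⟪(uVec a t j : L2 (Bas G N)), uVec a t j⟫_ℂ = (var' a t j : ℂ) := by
    have hs : ((Real.sqrt t : ℝ) : ℂ) * (Real.sqrt t : ℝ) = (t : ℂ) := by
      rw [← Complex.ofReal_mul, Real.mul_self_sqrt ht]
    simp only [uVec, inner_add_left, inner_smul_left, inner_dl_left, Complex.conj_ofReal,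
      lp.coeFn_add, lp.coeFn_smul, Pi.add_apply, Pi.smul_apply, smul_eq_mul, dl_apply]
    simp [leg, var']
    linear_combination hs
  rw [← inner_self_eq_norm_sq (𝕜 := ℂ), h]
  simp

theorem inner_dVec_uVec (t : ℝ) (j : Fin N) : ⟪dVec y j, uVec a t j⟫_ℂ = 0 := by
  simp [dVec, uVec, inner_dl_left, dl_apply, leg]

/-- The norm of the conjugate variable. -/
theorem norm_xiVec_sq {t : ℝ} (ht : 0 < t) (j : Fin N) :
    ‖xiVec y a t j‖ ^ 2 = 1 / var' a t j - (1 - pdSq y a j t) / var' a t j ^ 2 := by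
  have hv : 0 < var' a t j := add_pos_of_nonneg_of_pos (sq_nonneg _) ht
  set T := polyVec y a t [j] with hT
  have hTmem : T ∈ polySpace y a t := polyVec_mem t [j]
  have hu : uVec a t j = T - dVec y j := by rw [hT, polyVec_singleton, add_sub_cancel_left]
  have hPu : proj y a t (uVec a t j) = T - proj y a t (dVec y j) := by
    rw [hu, map_sub, proj, Submodule.starProjection_eq_self_iff.2 hTmem]
  have h1 : RCLike.re ⟪T, proj y a t (dVec y j)⟫_ℂ = 1 := by
    rw [inner_re_symm, inner_proj (dVec y j) hTmem, hT, polyVec_singleton, inner_add_right,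
      inner_dVec_self, inner_dVec_uVec]
    simp
  have h2 : ‖T‖ ^ 2 = var' a t j + 1 := by
    rw [hT, polyVec_singleton, @norm_add_sq ℂ, norm_uVec_sq ht.le, inner_dVec_uVec, dVec, norm_dl]
    simp
    ring
  have h3 : ‖proj y a t (uVec a t j)‖ ^ 2 = var' a t j - (1 - pdSq y a j t) := by
    rw [hPu, @norm_sub_sq ℂ, h1, h2, pdSq]
    ring
  rw [xiVec, norm_smul, mul_pow, h3, norm_inv, Complex.norm_real, Real.norm_of_nonneg hv.le]
  field_simp

theorem isConjugateVar_xiVec (hy : ∀ k, y k * y k = 1) {t : ℝ} (ht : 0 < t) (j : Fin N) :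
    IsConjugateVar omega (addSemicircular (Xop y a) Sop t) j (xiVec y a t j) := by
  refine ⟨Submodule.smul_mem _ _ (Submodule.starProjection_apply_mem (polySpace y a t) _),
    fun w => ?_⟩
  have hv : (var' a t j : ℂ) ≠ 0 := by
    exact_mod_cast (add_pos_of_nonneg_of_pos (sq_nonneg (a j)) ht).ne'
  show ⟪xiVec y a t j, polyVec y a t w⟫_ℂ = _
  rw [xiVec, inner_smul_left, inner_proj _ (polyVec_mem t w), inner_uVec hy ht.le,
    freeDiff_eq hy ht.le, map_inv₀, Complex.conj_ofReal, ← mul_assoc, inv_mul_cancel₀ hv, one_mul]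

/-- A pure basis vector. -/
def pureBas {d : ℕ} (v : Fin d → Fin N) (σ : Fin d → Bool) : Bas G N :=
  (1, List.ofFn fun i => ((v i, σ i), (1 : G)))

/-- The index set of the pure vectors of degree at most `D`. -/
def pureIdx (N D : ℕ) : Finset (Σ d : ℕ, (Fin d → Fin N) × (Fin d → Bool)) :=
  (Finset.range (D + 1)).sigma fun _ => Finset.univ

/-- The coefficient of a pure vector. -/
def pureCoef (y : Fin N → G) (a : Fin N → ℝ) (t : ℝ) (j : Fin N)
    (x : Σ d : ℕ, (Fin d → Fin N) × (Fin d → Bool)) : ℝ :=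
  K y (y j) (List.ofFn x.2.1) * ∏ i, (wgt a t (x.2.1 i, x.2.2 i) / var' a t (x.2.1 i))

theorem sum_bool_prod {d : ℕ} (F : Fin d → Bool → ℝ) :
    ∑ σ : Fin d → Bool, ∏ i, F i (σ i) = ∏ i, (F i false + F i true) := by
  rw [← Fintype.prod_sum]
  refine Finset.prod_congr rfl fun i _ => ?_
  rw [Fintype.sum_bool]
  ring

theorem wgt_sq_add {t : ℝ} (ht : 0 ≤ t) (k : Fin N) :
    wgt a t (k, false) ^ 2 + wgt a t (k, true) ^ 2 = var' a t k := by
  simp [wgt, var', Real.sq_sqrt ht]

theorem pureBas_injective :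
    Function.Injective fun x : (Σ d : ℕ, (Fin d → Fin N) × (Fin d → Bool)) =>
      (pureBas x.2.1 x.2.2 : Bas G N) := by
  rintro ⟨d, v, σ⟩ ⟨d', v', σ'⟩ h
  have h' : (List.ofFn fun i => ((v i, σ i), (1 : G))) = List.ofFn fun i => ((v' i, σ' i), (1 : G)) :=
    (Prod.ext_iff.1 h).2
  obtain rfl : d = d' := by simpa using congrArg List.length h'
  have h2 := List.ofFn_injective h'
  refine Sigma.ext rfl (heq_of_eq (Prod.ext (funext fun i => ?_) (funext fun i => ?_)))
  · exact congrArg (fun p : (Fin N × Bool) × G => p.1.1) (congrFun h2 i)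
  · exact congrArg (fun p : (Fin N × Bool) × G => p.1.2) (congrFun h2 i)

/-- The cumulant identity as a statement on coordinates. -/
theorem polyVec_dVec (hy : ∀ k, y k * y k = 1) {t : ℝ} (ht : 0 < t) (j : Fin N)
    {w : List (Fin N)} {D : ℕ} (hD : w.length ≤ D) :
    polyVec y a t w (y j, [])
      = ∑ x ∈ pureIdx N D, (pureCoef y a t j x : ℂ) * polyVec y a t w (pureBas x.2.1 x.2.2) := by
  rw [polyVec_apply hy ht.le]
  simp only [List.map_nil, List.prod_nil, one_mul, coefG, pureBas, polyVec_apply hy ht.le,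
    List.map_ofFn, Function.comp_def]
  rw [amp_eq_sum y _ _ _ hD, pureIdx, Finset.sum_sigma]
  push_cast
  refine Finset.sum_congr rfl fun d _ => ?_
  rw [Fintype.sum_prod_type]
  refine Finset.sum_congr rfl fun v _ => ?_
  simp only [pureCoef, List.prod_ofFn]
  have hpure : coefG y (var' a t) 1 (List.ofFn fun i => (v i, (1 : G))) w
      = cu y (var' a t) (List.ofFn v) w := by
    rw [← coefG_pure, List.map_ofFn, Function.comp_def]
  simp only [hpure]
  norm_cast
  have e : ∀ σ : Fin d → Bool,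
      (K y (y j) (List.ofFn v) * ∏ i, (wgt a t (v i, σ i) / var' a t (v i)))
        * ((∏ i, wgt a t (v i, σ i)) * cu y (var' a t) (List.ofFn v) w)
      = (K y (y j) (List.ofFn v) * cu y (var' a t) (List.ofFn v) w)
        * ∏ i, (wgt a t (v i, σ i) ^ 2 / var' a t (v i)) := by
    intro σ
    have e1 : ∏ i, (wgt a t (v i, σ i) ^ 2 / var' a t (v i))
        = (∏ i, (wgt a t (v i, σ i) / var' a t (v i))) * ∏ i, wgt a t (v i, σ i) := by
      rw [← Finset.prod_mul_distrib]
      exact Finset.prod_congr rfl fun i _ => by ring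
    rw [e1]
    ring
  rw [Finset.sum_congr rfl fun σ _ => e σ, ← Finset.mul_sum,
    sum_bool_prod (fun i b => wgt a t (v i, b) ^ 2 / var' a t (v i))]
  rw [Finset.prod_eq_one fun i _ => ?_, mul_one]
  rw [← add_div, wgt_sq_add ht.le, div_self]
  exact (add_pos_of_nonneg_of_pos (sq_nonneg _) ht).ne'

theorem sum_pureCoef_sq {t : ℝ} (ht : 0 < t) (j : Fin N) (D : ℕ) :
    ∑ x ∈ pureIdx N D, pureCoef y a t j x ^ 2 = ∑ d ∈ Finset.range (D + 1), ∑ v : Fin d → Fin N,
      K y (y j) (List.ofFn v) ^ 2 / ∏ i, var' a t (v i) := by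
  rw [pureIdx, Finset.sum_sigma]
  refine Finset.sum_congr rfl fun d _ => ?_
  rw [Fintype.sum_prod_type]
  refine Finset.sum_congr rfl fun v _ => ?_
  simp only [pureCoef, mul_pow, ← Finset.prod_pow, div_pow]
  rw [← Finset.mul_sum, sum_bool_prod (fun i b => wgt a t (v i, b) ^ 2 / var' a t (v i) ^ 2),
    div_eq_mul_inv, ← Finset.prod_inv_distrib]
  refine congrArg _ (Finset.prod_congr rfl fun i _ => ?_)
  have hv : 0 < var' a t (v i) := add_pos_of_nonneg_of_pos (sq_nonneg _) ht
  rw [← add_div, wgt_sq_add ht.le]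
  field_simp

theorem quad_le_coef (hy : ∀ k, y k * y k = 1) {t : ℝ} (ht : 0 < t) (j : Fin N)
    (c : List (Fin N) →₀ ℂ) {D : ℕ} (hD : ∀ w ∈ c.support, w.length ≤ D) :
    2 * RCLike.re ⟪dVec y j, combo y a t c⟫_ℂ - ‖combo y a t c‖ ^ 2
      ≤ ∑ x ∈ pureIdx N D, pureCoef y a t j x ^ 2 := by
  set z := combo y a t c with hz
  have hzap : ∀ b : Bas G N, z b = ∑ w ∈ c.support, c w * polyVec y a t w b := by
    intro b
    rw [hz, combo, Finsupp.sum, lp.coeFn_sum, Finset.sum_apply]
    simp [lp.coeFn_smul]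
  have hid : z (y j, []) = ∑ x ∈ pureIdx N D, (pureCoef y a t j x : ℂ) * z (pureBas x.2.1 x.2.2) := by
    rw [hzap, Finset.sum_congr rfl fun w hw => by rw [polyVec_dVec hy ht j (hD w hw), Finset.mul_sum],
      Finset.sum_comm]
    refine Finset.sum_congr rfl fun x _ => ?_
    rw [hzap, Finset.mul_sum]
    exact Finset.sum_congr rfl fun w _ => by ring
  rw [dVec, inner_dl_left, hid, map_sum, Finset.mul_sum]
  have hnorm : ∑ x ∈ pureIdx N D, ‖z (pureBas x.2.1 x.2.2)‖ ^ 2 ≤ ‖z‖ ^ 2 := by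
    rw [← Finset.sum_image (f := fun b => ‖z b‖ ^ 2) (fun x _ x' _ h => pureBas_injective h)]
    have := lp.sum_rpow_le_norm_rpow (p := 2) (by norm_num) z
      ((pureIdx N D).image fun x => (pureBas x.2.1 x.2.2 : Bas G N))
    simpa using this
  have hterm : ∀ x ∈ pureIdx N D,
      2 * RCLike.re ((pureCoef y a t j x : ℂ) * z (pureBas x.2.1 x.2.2))
        ≤ pureCoef y a t j x ^ 2 + ‖z (pureBas x.2.1 x.2.2)‖ ^ 2 := by
    intro x _
    rw [RCLike.re_to_complex, Complex.re_ofReal_mul]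
    have h1 := Complex.abs_re_le_norm (z (pureBas x.2.1 x.2.2))
    nlinarith [sq_nonneg (pureCoef y a t j x - (z (pureBas x.2.1 x.2.2)).re),
      sq_abs (z (pureBas x.2.1 x.2.2)).re, abs_nonneg (z (pureBas x.2.1 x.2.2)).re]
  have := Finset.sum_le_sum hterm
  rw [Finset.sum_add_distrib] at this
  linarith

theorem sum_pdSq_le (hy : ∀ k, y k * y k = 1) (hne : ∀ k, y k ≠ 1) {B : ℝ} (hB : 1 ≤ B)
    (hcount : ∀ m : ℕ,
      ((Finset.univ.filter fun v : Fin m → Fin N => ((List.ofFn v).map y).prod = 1).card : ℝ)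
        ≤ B ^ m)
    {t : ℝ} (ht : 128 * B ≤ t) : ∑ j, pdSq y a j t ≤ B := by
  have ht0 : 0 < t := by linarith
  choose c hc using fun j => exists_combo_seq (y := y) (a := a) (t := t)
    (Submodule.starProjection_apply_mem _ (dVec y j))
  refine le_of_tendsto (tendsto_finsetSum Finset.univ fun j _ => tendsto_quad j t (hc j))
    (Eventually.of_forall fun n => ?_)
  set D := Finset.univ.sup fun j => (c j n).support.sup List.length with hD
  have hDle : ∀ j, ∀ w ∈ (c j n).support, w.length ≤ D := fun j w hw =>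
    le_trans (Finset.le_sup (f := List.length) hw)
      (Finset.le_sup (f := fun j => (c j n).support.sup List.length) (Finset.mem_univ j))
  refine (Finset.sum_le_sum fun j _ => quad_le_coef hy ht0 j (c j n) (hDle j)).trans ?_
  rw [Finset.sum_congr rfl fun j _ => sum_pureCoef_sq ht0 j D]
  exact sum_K_sq_le y hne hB hcount _
    (fun k => le_add_of_nonneg_of_le (sq_nonneg _) ht) D

/-- `∫_b^∞ (c + t)^-2 = 1/(c + b)`. -/
theorem integral_inv_sq {c b : ℝ} (hcb : 0 < c + b) :
    IntegrableOn (fun t : ℝ => 1 / (c + t) ^ 2) (Set.Ioi b) ∧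
      ∫ t in Set.Ioi b, 1 / (c + t) ^ 2 = 1 / (c + b) := by
  have hd : ∀ x ∈ Set.Ici b, HasDerivAt (fun t : ℝ => -(c + t)⁻¹) (1 / (c + x) ^ 2) x := by
    intro x hx
    have hx' : c + x ≠ 0 := by
      have : b ≤ x := hx
      linarith
    exact (((hasDerivAt_id x).const_add c).inv hx').neg.congr_deriv (by simp [div_eq_mul_inv])
  have hlim : Tendsto (fun t : ℝ => -(c + t)⁻¹) atTop (𝓝 0) := by
    simpa using (tendsto_inv_atTop_zero.comp (tendsto_atTop_add_const_left atTop c tendsto_id)).neg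
  have hnn : ∀ x ∈ Set.Ioi b, 0 ≤ 1 / (c + x) ^ 2 := fun x _ => by positivity
  refine ⟨integrableOn_Ioi_deriv_of_nonneg' hd hnn hlim, ?_⟩
  rw [integral_Ioi_of_hasDerivAt_of_nonneg' hd hnn hlim]
  simp

/-- `∫_0^∞ (1/(1+t) - 1/(α+t)) = log α`. -/
theorem integral_baseline {α : ℝ} (hα : 0 < α) :
    IntegrableOn (fun t : ℝ => 1 / (1 + t) - 1 / (α + t)) (Set.Ioi 0) ∧
      ∫ t in Set.Ioi (0 : ℝ), (1 / (1 + t) - 1 / (α + t)) = Real.log α := by
  set m := min 1 α
  have hm : 0 < m := lt_min one_pos hα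
  have hint : IntegrableOn (fun t : ℝ => 1 / (1 + t) - 1 / (α + t)) (Set.Ioi 0) := by
    have hg : IntegrableOn (fun t : ℝ => |α - 1| * (1 / (m + t) ^ 2)) (Set.Ioi 0) :=
      (integral_inv_sq (c := m) (b := 0) (by linarith)).1.const_mul _
    refine Integrable.mono' hg (by fun_prop) ?_
    filter_upwards [ae_restrict_mem measurableSet_Ioi] with t (ht : 0 < t)
    have h1 : m + t ≤ 1 + t := by linarith [min_le_left 1 α]
    have h2 : m + t ≤ α + t := by linarith [min_le_right 1 α]
    have e : 1 / (1 + t) - 1 / (α + t) = (α - 1) * (1 / ((1 + t) * (α + t))) := by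
      field_simp
      ring
    rw [Real.norm_eq_abs, e, abs_mul, abs_of_nonneg (show 0 ≤ 1 / ((1 + t) * (α + t)) by positivity)]
    refine mul_le_mul_of_nonneg_left (one_div_le_one_div_of_le (by positivity) ?_) (abs_nonneg _)
    rw [sq]
    exact mul_le_mul h1 h2 (by linarith) (by linarith)
  refine ⟨hint, ?_⟩
  have hd : ∀ x ∈ Set.Ici (0 : ℝ), HasDerivAt (fun t : ℝ => Real.log ((1 + t) / (α + t)))
      (1 / (1 + x) - 1 / (α + x)) x := by
    intro x (hx : 0 ≤ x)
    have h1 : (1 : ℝ) + x ≠ 0 := by linarith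
    have h2 : α + x ≠ 0 := by linarith
    refine ((((hasDerivAt_id x).const_add 1).div ((hasDerivAt_id x).const_add α) h2).log
      (div_ne_zero h1 h2)).congr_deriv ?_
    simp only [id_eq, Pi.div_apply]
    field_simp
  have hlim : Tendsto (fun t : ℝ => Real.log ((1 + t) / (α + t))) atTop (𝓝 0) := by
    rw [← Real.log_one]
    refine (Real.continuousAt_log one_ne_zero).tendsto.comp ?_
    have h : Tendsto (fun t : ℝ => 1 + (1 - α) * (α + t)⁻¹) atTop (𝓝 1) := by
      simpa using ((tendsto_inv_atTop_zero.comp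
        (tendsto_atTop_add_const_left atTop α tendsto_id)).const_mul (1 - α)).const_add 1
    refine h.congr' ?_
    filter_upwards [eventually_gt_atTop (0 : ℝ)] with t ht
    field_simp
    ring
  rw [integral_Ioi_of_hasDerivAt_of_tendsto' hd hint hlim]
  simp

end Fisher

open Fisher

variable {G : Type} [Group G] {N : ℕ} {y : Fin N → G} {a : Fin N → ℝ}

theorem exists_conjugate (hy : ∀ k, y k * y k = 1) (hne : ∀ k, y k ≠ 1) (ha : ∀ k, 0 < a k)
    {B : ℝ} (hB : 1 ≤ B)
    (hcount : ∀ m : ℕ,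
      ((Finset.univ.filter fun v : Fin m → Fin N => ((List.ofFn v).map y).prod = 1).card : ℝ)
        ≤ B ^ m)
    (s : Finset (Fin N)) (hs : ∀ j ∈ s, a j = 1) (_hcard : B ≤ s.card) :
    ∃ ξ : ℝ → Fin N → L2 (Bas G N),
      (∀ t : ℝ, 0 < t → ∀ j, IsConjugateVar omega (addSemicircular (Xop y a) Sop t) j (ξ t j)) ∧
      IntegrableOn (fun t : ℝ => (N : ℝ) / (1 + t) - ∑ j, ‖ξ t j‖ ^ 2) (Set.Ioi 0) ∧
      ∑ j, Real.log (a j) + ((s.card : ℝ) - B) / (2 * (1 + 128 * B))
        ≤ 1 / 2 * ∫ t in Set.Ioi (0 : ℝ), ((N : ℝ) / (1 + t) - ∑ j, ‖ξ t j‖ ^ 2) := by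
  refine ⟨xiVec y a, fun t ht j => isConjugateVar_xiVec hy ht j, ?_⟩
  set base : Fin N → ℝ → ℝ := fun j t => 1 / (1 + t) - 1 / var' a t j with hbase
  set gain : Fin N → ℝ → ℝ := fun j t => (1 - pdSq y a j t) / var' a t j ^ 2 with hgain
  have hα : ∀ j, 0 < a j ^ 2 := fun j => pow_pos (ha j) 2
  have hbi : ∀ j, IntegrableOn (base j) (Set.Ioi 0) ∧
      ∫ t in Set.Ioi (0 : ℝ), base j t = 2 * Real.log (a j) := by
    intro j
    obtain ⟨h1, h2⟩ := integral_baseline (hα j)
    rw [Real.log_pow] at h2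
    exact ⟨h1, by simpa [hbase, var'] using h2⟩
  have hgi : ∀ j, IntegrableOn (gain j) (Set.Ioi 0) := by
    intro j
    refine Integrable.mono' (integral_inv_sq (c := a j ^ 2) (b := 0) (by linarith [hα j])).1 ?_ ?_
    · exact (((measurable_const.sub (measurable_pdSq j)).div
        ((measurable_id.const_add (a j ^ 2)).pow_const 2))).aestronglyMeasurable
    · filter_upwards with t
      rw [Real.norm_of_nonneg (div_nonneg (sub_nonneg.2 (pdSq_le_one j t)) (sq_nonneg _))]
      exact div_le_div_of_nonneg_right (by linarith [pdSq_nonneg (y := y) (a := a) j t]) (sq_nonneg _)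
  have hf : ∀ t ∈ Set.Ioi (0 : ℝ),
      (N : ℝ) / (1 + t) - ∑ j, ‖xiVec y a t j‖ ^ 2 = ∑ j, (base j t + gain j t) := by
    intro t ht
    have h1 : (N : ℝ) / (1 + t) = ∑ _j : Fin N, 1 / (1 + t) := by
      rw [Finset.sum_const, Finset.card_univ, Fintype.card_fin, nsmul_eq_mul]
      ring
    rw [h1, ← Finset.sum_sub_distrib]
    exact Finset.sum_congr rfl fun j _ => by rw [norm_xiVec_sq ht]; ring
  have hsum : IntegrableOn (fun t => ∑ j, (base j t + gain j t)) (Set.Ioi 0) :=
    integrable_finsetSum _ fun j _ => (hbi j).1.add (hgi j)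
  refine ⟨hsum.congr_fun (fun t ht => (hf t ht).symm) measurableSet_Ioi, ?_⟩
  rw [setIntegral_congr_fun measurableSet_Ioi hf]
  set low : ℝ → ℝ := fun t =>
    (Set.Ioi (128 * B)).indicator (fun t => ((s.card : ℝ) - B) * (1 / (1 + t) ^ 2)) t with hlow
  have hli : IntegrableOn low (Set.Ioi 0) := by
    refine IntegrableOn.indicator ?_ measurableSet_Ioi
    exact (integral_inv_sq (c := 1) (b := 0) (by norm_num)).1.const_mul _
  have hlv : ∫ t in Set.Ioi (0 : ℝ), low t = ((s.card : ℝ) - B) / (1 + 128 * B) := by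
    rw [hlow, setIntegral_indicator measurableSet_Ioi, Set.Ioi_inter_Ioi,
      max_eq_right (by linarith), integral_const_mul,
      (integral_inv_sq (c := 1) (b := 128 * B) (by linarith)).2]
    ring
  have hmono : ∫ t in Set.Ioi (0 : ℝ), ((∑ j, base j t) + low t)
      ≤ ∫ t in Set.Ioi (0 : ℝ), ∑ j, (base j t + gain j t) := by
    refine setIntegral_mono_on ((integrable_finsetSum _ fun j _ => (hbi j).1).add hli) hsum
      measurableSet_Ioi fun t (ht : 0 < t) => ?_
    rw [Finset.sum_add_distrib]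
    refine add_le_add le_rfl ?_
    have hg0 : ∀ j, 0 ≤ gain j t := fun j =>
      div_nonneg (sub_nonneg.2 (pdSq_le_one j t)) (sq_nonneg _)
    by_cases h : t ∈ Set.Ioi (128 * B)
    · rw [hlow]
      simp only [Set.indicator_of_mem h]
      have hp := sum_pdSq_le (a := a) hy hne hB hcount (le_of_lt h)
      have h1 : ∑ j ∈ s, pdSq y a j t ≤ ∑ j, pdSq y a j t :=
        Finset.sum_le_sum_of_subset_of_nonneg (Finset.subset_univ s) fun j _ _ => pdSq_nonneg j t
      calc ((s.card : ℝ) - B) * (1 / (1 + t) ^ 2)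
          ≤ (∑ j ∈ s, (1 - pdSq y a j t)) * (1 / (1 + t) ^ 2) := by
            refine mul_le_mul_of_nonneg_right ?_ (by positivity)
            rw [Finset.sum_sub_distrib, Finset.sum_const, nsmul_eq_mul, mul_one]
            linarith
        _ = ∑ j ∈ s, gain j t := by
            rw [Finset.sum_mul]
            refine Finset.sum_congr rfl fun j hj => ?_
            simp only [hgain, var', hs j hj, one_pow, mul_one_div]
        _ ≤ ∑ j, gain j t :=
            Finset.sum_le_sum_of_subset_of_nonneg (Finset.subset_univ s) fun j _ _ => hg0 j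
    · rw [hlow]
      simp only [Set.indicator_of_notMem h]
      exact Finset.sum_nonneg fun j _ => hg0 j
  rw [integral_add (integrable_finsetSum _ fun j _ => (hbi j).1) hli, hlv,
    integral_finsetSum _ fun j _ => (hbi j).1, Finset.sum_congr rfl fun j _ => (hbi j).2,
    ← Finset.mul_sum] at hmono
  have e : ((s.card : ℝ) - B) / (2 * (1 + 128 * B))
      = 1 / 2 * (((s.card : ℝ) - B) / (1 + 128 * B)) := by
    field_simp
  rw [e]
  linarith

end Vale.Agent.P087
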