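import Vale.Agent.P087.Model

/-! # P087 — `S` is a free semicircular family, free from `X`

The members are indexed by `Option (Fin N)`: `none` is `alg(X)` (inside the algebra of all `λ(g)`
and all `s'_k`), `some j` is `alg(S_j)`.  For a member `i` every basis vector splits uniquely as a
local part followed by an outer part (`FreeAux.split`, `FreeAux.cat`); the member's operators act
on the local part only.  Hence the compression of a member element to the span of the vectors with
trivial local part is the scalar given by the trace.  The semicircle moments are the ballot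
numbers. -/

noncomputable section

open scoped InnerProductSpace lp ENNReal Classical

namespace Vale.Agent.P087

namespace FreeAux

variable {G : Type} [Group G] {N : ℕ}

/-- The empty basis vector. -/
def vac : Bas G N := (1, [])

/-- The member to which a leg belongs. -/
def mem (c : Fin N × Bool) : Option (Fin N) := if c.2 then some c.1 else none

/-- Which part of the leading group element is local for the member `i`. -/
def hdSplit : Option (Fin N) → G → G × G
  | none, g => (g, 1)
  | some _, g => (1, g)

/-- The local part and the outer part of a basis vector. -/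
def splitAux (i : Option (Fin N)) : G → List ((Fin N × Bool) × G) → Bas G N × Bas G N
  | g₀, [] => (((hdSplit i g₀).1, []), ((hdSplit i g₀).2, []))
  | g₀, (c, g) :: l =>
    if mem c = i ∧ (i = none ∨ g₀ = 1) then
      ((g₀, (c, (splitAux i g l).1.1) :: (splitAux i g l).1.2), (splitAux i g l).2)
    else (((hdSplit i g₀).1, []), ((hdSplit i g₀).2, (c, g) :: l))

/-- The local part and the outer part of a basis vector. -/
def split (i : Option (Fin N)) (b : Bas G N) : Bas G N × Bas G N := splitAux i b.1 b.2

/-- Concatenation of basis vectors. -/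
def catAux : G → List ((Fin N × Bool) × G) → Bas G N → Bas G N
  | g₀, [], b => (g₀ * b.1, b.2)
  | g₀, (c, g) :: l, b => (g₀, (c, (catAux g l b).1) :: (catAux g l b).2)

theorem hdSplit_mul (i : Option (Fin N)) (g : G) : (hdSplit i g).1 * (hdSplit i g).2 = g := by
  cases i <;> simp [hdSplit]

theorem cat_splitAux (i : Option (Fin N)) : ∀ (l : List ((Fin N × Bool) × G)) (g₀ : G),
    catAux (splitAux i g₀ l).1.1 (splitAux i g₀ l).1.2 (splitAux i g₀ l).2 = (g₀, l)
  | [], g₀ => by simp [splitAux, catAux, hdSplit_mul]
  | (c, g) :: l, g₀ => by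
    rw [splitAux]
    split_ifs with h
    · simp [catAux, cat_splitAux i l g]
    · simp [catAux, hdSplit_mul]

theorem cat_split (i : Option (Fin N)) (b : Bas G N) :
    catAux (split i b).1.1 (split i b).1.2 (split i b).2 = b :=
  cat_splitAux i b.2 b.1

theorem split_injective (i : Option (Fin N)) :
    Function.Injective (split i : Bas G N → Bas G N × Bas G N) := fun b b' h => by
  rw [← cat_split i b, ← cat_split i b', h]

/-- `b` has trivial local part. -/
def IsOuter (i : Option (Fin N)) (b : Bas G N) : Prop := (split i b).1 = vac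

theorem split_of_isOuter {i : Option (Fin N)} {b : Bas G N} (h : IsOuter i b) :
    split i b = (vac, b) := by
  refine Prod.ext h ?_
  have h1 := cat_split i b
  rw [h] at h1
  simpa [vac, catAux] using h1

theorem isOuter_vac (i : Option (Fin N)) : IsOuter (G := G) i vac := by
  cases i <;> simp [IsOuter, split, splitAux, vac, hdSplit]

theorem isOuter_or {i i' : Option (Fin N)} (hne : i ≠ i') (b : Bas G N) :
    IsOuter i b ∨ IsOuter i' b := by
  obtain ⟨g₀, l⟩ := b
  rcases l with _ | ⟨⟨c, g⟩, l⟩
  · cases i with
    | none =>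
      cases i' with
      | none => exact absurd rfl hne
      | some j => right; simp [IsOuter, split, splitAux, vac, hdSplit]
    | some j => left; simp [IsOuter, split, splitAux, vac, hdSplit]
  · cases i with
    | none =>
      cases i' with
      | none => exact absurd rfl hne
      | some j =>
        by_cases h : mem c = some j ∧ g₀ = 1
        · left; simp [IsOuter, split, splitAux, vac, hdSplit, h.1, h.2]
        · right
          have h' : ¬(mem c = some j ∧ (some j = none ∨ g₀ = 1)) := by simpa using h
          simp only [IsOuter, split, splitAux, if_neg h', vac, hdSplit]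
    | some j =>
      by_cases h : mem c = some j ∧ g₀ = 1
      · right
        have h' : ¬(mem c = i' ∧ (i' = none ∨ g₀ = 1)) := fun hh => hne (h.1.symm.trans hh.1)
        simp only [IsOuter, split, splitAux, if_neg h', vac]
        cases i' <;> simp [hdSplit, h.2]
      · left
        have h' : ¬(mem c = some j ∧ (some j = none ∨ g₀ = 1)) := by simpa using h
        simp only [IsOuter, split, splitAux, if_neg h', vac, hdSplit]

/-- The partial map `k` acts on the local part only. -/
def IsLocal (i : Option (Fin N)) (k : Bas G N → Option (Bas G N)) : Prop :=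
  ∀ b, k (split i b).1 = (k b).map (fun c => (split i c).1) ∧
    ∀ c, k b = some c → (split i c).2 = (split i b).2

theorem isLocal_crMap {i : Option (Fin N)} {c : Fin N × Bool} (hc : mem c = i) :
    IsLocal (G := G) i (crMap c) := by
  rintro ⟨g₀, l⟩
  rcases l with _ | ⟨⟨c', g⟩, l⟩
  · simp [split, splitAux, crMap]
  by_cases hg : g₀ = 1 ∧ c' = c
  · obtain ⟨rfl, rfl⟩ := hg
    simp [split, splitAux, crMap, hc]
  · have hn : crMap c (g₀, (c', g) :: l) = none := by simp [crMap, hg]
    rw [hn]
    refine ⟨?_, by simp⟩
    rw [Option.map_none]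
    simp only [split, splitAux]
    split_ifs with h
    · simp [crMap, hg]
    · simp [crMap]

theorem isLocal_anMap {i : Option (Fin N)} {c : Fin N × Bool} (hc : mem c = i) :
    IsLocal (G := G) i (anMap c) := by
  intro b
  simp [split, splitAux, anMap, hc]

theorem isLocal_leftMap (g : G) : IsLocal (N := N) none (leftMap g) := by
  rintro ⟨g₀, l⟩
  rcases l with _ | ⟨⟨c, h⟩, l⟩
  · simp [split, splitAux, leftMap, hdSplit]
  · by_cases h1 : mem c = none <;> simp [split, splitAux, leftMap, hdSplit, h1]

/-- The embedding of the local vectors in front of the outer vector `b`. -/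
def embMap (i : Option (Fin N)) (b : Bas G N) : Bas G N → Option (Bas G N) :=
  fun b' => if (split i b').2 = b then some (split i b').1 else none

theorem pinj_embMap (i : Option (Fin N)) (b : Bas G N) : PInj (embMap i b) := by
  intro a a' u h h'
  simp only [embMap, Option.ite_none_right_eq_some, Option.some.injEq] at h h'
  exact split_injective i (Prod.ext (h.2.trans h'.2.symm) (h.1.trans h'.1.symm))

/-- The embedding of the local vectors in front of the outer vector `b`. -/
def embOp (i : Option (Fin N)) (b : Bas G N) : L2 (Bas G N) →L[ℂ] L2 (Bas G N) :=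
  pull (embMap i b) (pinj_embMap i b)

theorem commute_pull {i : Option (Fin N)} {k : Bas G N → Option (Bas G N)} (hk : PInj k)
    (hl : IsLocal i k) (b : Bas G N) : embOp i b * pull k hk = pull k hk * embOp i b := by
  refine ContinuousLinearMap.ext fun ψ => lp.ext (funext fun b' => ?_)
  rw [mul_apply, mul_apply]
  simp only [embOp, pull_apply]
  obtain ⟨h1, h2⟩ := hl b'
  cases hkb : k b' with
  | none =>
    rw [hkb] at h1
    simp only [Option.elim_none]
    unfold embMap
    split_ifs with h
    · simp [h1]
    · simp
  | some c =>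
    rw [hkb] at h1
    simp only [Option.elim_some, pull_apply]
    have h3 := h2 c hkb
    unfold embMap
    rw [h3]
    split_ifs with h
    · simp [h1]
    · simp
where
  mul_apply {A B : L2 (Bas G N) →L[ℂ] L2 (Bas G N)} {ψ : L2 (Bas G N)} :
      (A * B) ψ = A (B ψ) := rfl

/-- The algebra of the member `i` commutes with the embeddings. -/
theorem memberAlg_le (y : Fin N → G) (a : Fin N → ℝ) (i : Option (Fin N)) (b : Bas G N) :
    memberAlg (Xop y a) Sop i ≤ Subalgebra.centralizer ℂ {embOp i b} := by
  have hs : ∀ c : Fin N × Bool, mem c = i →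
      (sOp c : L2 (Bas G N) →L[ℂ] L2 (Bas G N)) ∈ Subalgebra.centralizer ℂ {embOp i b} := by
    intro c hc
    rw [Subalgebra.mem_centralizer_iff]
    simp only [Set.mem_singleton_iff, forall_eq, sOp, mul_add, add_mul,
      commute_pull _ (isLocal_crMap hc), commute_pull _ (isLocal_anMap hc)]
  cases i with
  | none =>
    refine Algebra.adjoin_le ?_
    rintro _ ⟨k, rfl⟩
    refine add_mem ?_ (Subalgebra.smul_mem _ (hs (k, false) (by simp [mem])) _)
    rw [Subalgebra.mem_centralizer_iff]
    simp only [Set.mem_singleton_iff, forall_eq, gOp]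
    exact commute_pull _ (isLocal_leftMap (y k)) b
  | some j =>
    refine Algebra.adjoin_le ?_
    rintro _ rfl
    exact hs (j, true) (by simp [mem])

theorem embOp_omega {i : Option (Fin N)} {b : Bas G N} (hb : IsOuter i b) :
    embOp i b omega = dl b := by
  refine lp.ext (funext fun b' => ?_)
  have hiff : embMap i b b' = some vac ↔ b = b' := by
    simp only [embMap, Option.ite_none_right_eq_some, Option.some.injEq]
    constructor
    · rintro ⟨h2, h1⟩
      exact split_injective i ((split_of_isOuter hb).trans (Prod.ext h1.symm h2.symm))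
    · rintro rfl
      simp [split_of_isOuter hb]
  rw [embOp, pull_apply, dl_apply]
  cases h : embMap i b b' with
  | none =>
    rw [Option.elim_none, if_neg]
    intro hh
    rw [hiff.2 hh.symm] at h
    simp at h
  | some u =>
    rw [Option.elim_some, omega, dl_apply]
    rw [h, Option.some.injEq] at hiff
    by_cases hu : u = vac
    · rw [if_pos (by exact hu), if_pos (hiff.1 hu).symm]
    · rw [if_neg (by exact hu), if_neg fun hh => hu (hiff.2 hh.symm)]

theorem vstate_omega (x : L2 (Bas G N) →L[ℂ] L2 (Bas G N)) :
    vstate omega x = x omega (1, []) :=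
  inner_dl_left _ _

/-- The compression of a member element to the outer vectors is its trace. -/
theorem apply_dl_outer {y : Fin N → G} {a : Fin N → ℝ} {i : Option (Fin N)}
    {x : L2 (Bas G N) →L[ℂ] L2 (Bas G N)} (hx : x ∈ memberAlg (Xop y a) Sop i)
    {b b' : Bas G N} (hb : IsOuter i b) (hb' : IsOuter i b') :
    x (dl b') b = if b' = b then vstate omega x else 0 := by
  have hc := Subalgebra.mem_centralizer_iff ℂ |>.1 (memberAlg_le y a i b' hx) _ rfl
  rw [← embOp_omega hb']
  have h1 : x (embOp i b' omega) = embOp i b' (x omega) := by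
    have := DFunLike.congr_fun hc.symm omega
    simpa using this
  rw [h1, embOp, pull_apply, embMap, split_of_isOuter hb]
  by_cases h : b' = b
  · subst h
    simp [vstate_omega, vac]
  · simp [h, Ne.symm h]

/-- A centred member element kills the outer part of an outer vector. -/
theorem apply_outer {y : Fin N → G} {a : Fin N → ℝ} {i : Option (Fin N)}
    {x : L2 (Bas G N) →L[ℂ] L2 (Bas G N)} (hx : x ∈ memberAlg (Xop y a) Sop i)
    (hx0 : vstate omega x = 0) {ψ : L2 (Bas G N)} (hψ : ∀ b, ¬IsOuter i b → ψ b = 0)
    {b : Bas G N} (hb : IsOuter i b) : x ψ b = 0 := by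
  have h0 : HasSum (fun b' => ψ b' • dl b') ψ := by
    convert lp.hasSum_single (p := 2) (by norm_num) ψ using 1
    ext b' : 1
    refine lp.ext (funext fun c => ?_)
    rw [lp.coeFn_smul, Pi.smul_apply, dl_apply, lp.single_apply, Pi.single_apply, smul_eq_mul]
    by_cases hcb : c = b' <;> simp [hcb]
  have h1 := (x.hasSum h0).map ((innerSL ℂ (dl b)).toLinearMap.toAddMonoidHom)
    (innerSL ℂ (dl b)).continuous
  have h2 : HasSum (fun _ : Bas G N => (0 : ℂ)) (x ψ b) := by
    convert h1 using 1
    · funext b'
      simp only [Function.comp, LinearMap.toAddMonoidHom_coe, ContinuousLinearMap.coe_coe,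
        innerSL_apply_apply, inner_dl_left, map_smul, smul_eq_mul]
      by_cases hb' : IsOuter i b'
      · rw [apply_dl_outer hx hb hb', hx0]
        simp
      · rw [hψ b' hb', zero_mul]
    · simp [inner_dl_left]
  exact h2.unique hasSum_zero

/-- An alternating product of centred elements sends `Ω` off the outer vectors of its first
member. -/
theorem prod_apply_outer {y : Fin N → G} {a : Fin N → ℝ} :
    ∀ (p : Option (Fin N) × (L2 (Bas G N) →L[ℂ] L2 (Bas G N)))
      (l : List (Option (Fin N) × (L2 (Bas G N) →L[ℂ] L2 (Bas G N)))),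
      (∀ q ∈ p :: l, q.2 ∈ memberAlg (Xop y a) Sop q.1 ∧ vstate omega q.2 = 0) →
      (p :: l).IsChain (fun p q => p.1 ≠ q.1) →
      ∀ b, IsOuter p.1 b → ((p :: l).map Prod.snd).prod omega b = 0
  | p, [], h, _, b, hb => by
    simp only [List.map_cons, List.map_nil, List.prod_cons, List.prod_nil, mul_one]
    refine apply_outer (h p (List.mem_cons_self ..)).1 (h p (List.mem_cons_self ..)).2
      (fun b' hb' => ?_) hb
    rw [omega, dl_apply, if_neg]
    rintro rfl
    exact hb' (isOuter_vac _)
  | p, q :: l, h, hc, b, hb => by
    have hc' := List.isChain_cons_cons.1 hc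
    simp only [List.map_cons, List.prod_cons]
    refine apply_outer (h p (List.mem_cons_self ..)).1 (h p (List.mem_cons_self ..)).2
      (fun b' hb' => ?_) hb
    have := prod_apply_outer q l (fun q' hq' => h q' (List.mem_cons_of_mem _ hq')) hc'.2 b'
      ((isOuter_or hc'.1 b').resolve_left hb')
    simp only [List.map_cons, List.prod_cons] at this ⊢
    exact this

/-- The basis vector `e_c^r`. -/
def pure' (c : Fin N × Bool) (r : ℕ) : Bas G N := (1, List.replicate r (c, 1))

/-- The ballot numbers. -/
def ballot (m r : ℕ) : ℤ :=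
  if Even (m + r) then (m.choose ((m + r) / 2) : ℤ) - m.choose ((m + r) / 2 + 1) else 0

theorem ballot_zero (r : ℕ) : ballot 0 r = if r = 0 then 1 else 0 := by
  unfold ballot
  rcases Nat.eq_zero_or_pos r with rfl | hr
  · simp
  · rw [if_neg hr.ne']
    split_ifs with he
    · obtain ⟨s, rfl⟩ : ∃ s, r = 2 * (s + 1) := by
        obtain ⟨s, hs⟩ := he
        exact ⟨s - 1, by omega⟩
      simp
    · rfl

theorem ballot_succ_zero (m : ℕ) : ballot (m + 1) 0 = ballot m 1 := by
  unfold ballot
  simp only [Nat.add_zero]
  split_ifs with he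
  · obtain ⟨s, hs⟩ := he
    obtain ⟨t, rfl⟩ : ∃ t, s = t + 1 := ⟨s - 1, by omega⟩
    obtain rfl : m = 2 * t + 1 := by omega
    have h1 : (2 * t + 1 + 1) / 2 = t + 1 := by omega
    rw [h1, Nat.choose_succ_succ, Nat.choose_succ_succ (2 * t + 1) (t + 1)]
    have h2 := Nat.choose_symm_half t
    push_cast
    simp only [Nat.succ_eq_add_one]
    omega
  · rfl

theorem ballot_succ_succ (m r : ℕ) :
    ballot (m + 1) (r + 1) = ballot m r + ballot m (r + 2) := by
  unfold ballot
  have e1 : m + 1 + (r + 1) = (m + r) + 2 := by ring
  have e2 : m + (r + 2) = (m + r) + 2 := by ring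
  rw [e1, e2]
  have hev : Even (m + r + 2) ↔ Even (m + r) := by simp [Nat.even_add]
  simp only [hev]
  split_ifs with he
  · obtain ⟨s, hs⟩ := he
    have h1 : (m + r + 2) / 2 = s + 1 := by omega
    have h2 : (m + r) / 2 = s := by omega
    rw [h1, h2, Nat.choose_succ_succ, Nat.choose_succ_succ m (s + 1)]
    push_cast
    simp only [Nat.succ_eq_add_one]
    ring
  · rfl

theorem ballot_even (n : ℕ) : ballot (2 * n) 0 = (catalan n : ℤ) := by
  unfold ballot
  have he : Even (2 * n + 0) := ⟨n, by ring⟩
  have h1 : (2 * n + 0) / 2 = n := by omega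
  rw [if_pos he, h1]
  have h2 := Nat.choose_succ_right_eq (2 * n) n
  have h3 := succ_mul_catalan_eq_centralBinom n
  rw [Nat.centralBinom_eq_two_mul_choose] at h3
  have h4 : 2 * n - n = n := by omega
  rw [h4] at h2
  have h2' : ((2 * n).choose (n + 1) : ℤ) * (n + 1) = (2 * n).choose n * n := by exact_mod_cast h2
  have h3' : ((n : ℤ) + 1) * catalan n = (2 * n).choose n := by exact_mod_cast h3
  refine mul_left_cancel₀ (by positivity : ((n : ℤ) + 1) ≠ 0) ?_
  linear_combination -h2' - h3'

theorem sOp_pow_omega_apply (c : Fin N × Bool) : ∀ (m r : ℕ),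
    ((sOp c : L2 (Bas G N) →L[ℂ] L2 (Bas G N)) ^ m) omega (pure' c r) = (ballot m r : ℂ)
  | 0, r => by
    rw [pow_zero, ballot_zero]
    show omega (pure' c r) = _
    rw [omega, dl_apply]
    rcases r with _ | r <;> simp [pure', List.replicate_succ]
  | m + 1, r => by
    have hm : (sOp c ^ (m + 1) : L2 (Bas G N) →L[ℂ] L2 (Bas G N)) omega
        = sOp c ((sOp c ^ m : L2 (Bas G N) →L[ℂ] L2 (Bas G N)) omega) := by
      rw [pow_succ']
      rfl
    rw [hm]
    have hs : ∀ (φ : L2 (Bas G N)) (b : Bas G N),
        sOp c φ b = (crMap c b).elim 0 φ + (anMap c b).elim 0 φ := fun φ b => rfl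
    rw [hs]
    have ha : anMap c (pure' (G := G) c r) = some (pure' c (r + 1)) := by
      simp [anMap, pure', List.replicate_succ]
    rw [ha, Option.elim_some, sOp_pow_omega_apply c m (r + 1)]
    rcases r with _ | r
    · rw [ballot_succ_zero]
      simp [pure', crMap]
    · have hcr : crMap c (pure' (G := G) c (r + 1)) = some (pure' c r) := by
        simp [crMap, pure', List.replicate_succ]
      rw [hcr, Option.elim_some, sOp_pow_omega_apply c m r, ballot_succ_succ]
      push_cast
      rfl

theorem vstate_sOp_pow (c : Fin N × Bool) (m : ℕ) :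
    vstate (omega : L2 (Bas G N)) (sOp c ^ m)
      = if Even m then ((catalan (m / 2) : ℕ) : ℂ) else 0 := by
  rw [vstate_omega, show ((1 : G), ([] : List ((Fin N × Bool) × G))) = pure' c 0 from rfl,
    sOp_pow_omega_apply]
  split_ifs with he
  · obtain ⟨n, rfl⟩ := he
    rw [← two_mul, ballot_even, show 2 * n / 2 = n by omega]
    simp
  · simp [ballot, he]

end FreeAux

open FreeAux in
theorem isFreeSemicircularFrom_model {G : Type} [Group G] {N : ℕ} {y : Fin N → G}
    {a : Fin N → ℝ} :
    IsFreeSemicircularFrom (omega : L2 (Bas G N)) (Xop y a) Sop := by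
  refine ⟨fun j m => vstate_sOp_pow _ m, ?_⟩
  intro l hl h hc
  obtain ⟨p, l', rfl⟩ := List.exists_cons_of_ne_nil hl
  rw [vstate_omega]
  exact prod_apply_outer p l' h hc _ (isOuter_vac _)

end Vale.Agent.P087
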