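import Vale.Agent.P087.Defs

/-! # P087 — the Gaussian ensemble `B + a/√k · herm(x)` -/

noncomputable section

open MeasureTheory ProbabilityTheory

namespace Vale.Agent.P087

/-- The standard Gaussian measure on coordinates of `N` self-adjoint `k × k` matrices. -/
def stdGauss (N k : ℕ) : Measure (Fin N → Fin k × Fin k → ℝ) :=
  Measure.pi fun _ => Measure.pi fun _ => gaussianReal 0 1

/-- `B_j + (a_j / √k) herm(x_j)`. -/
def noisy {N k : ℕ} (B : Fin N → Matrix (Fin k) (Fin k) ℂ) (a : Fin N → ℝ)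
    (x : Fin N → Fin k × Fin k → ℝ) (j : Fin N) : Matrix (Fin k) (Fin k) ℂ :=
  B j + ((a j / Real.sqrt k : ℝ) : ℂ) • herm (x j)

end Vale.Agent.P087
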