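import Mathlib

/-! # P087 — the recursions (moments, pure amplitudes, free cumulants)

Generic in a group `G`, letters `y : ι → G` and variances `t : ι → ℝ`: `amp y t g w` is the
amplitude at `(g, [])` of `X_w Ω` for `X_k = y_k + √(t_k) s_k`. -/

noncomputable section

open scoped Classical

namespace Vale.Agent.P087

variable {ι G : Type*} [Group G] {R : Type*} [AddCommMonoid R]

/-- Sum over all splittings `w = a ++ i :: b` of `F a b`. -/
def cut (i : ι) : List ι → (List ι → List ι → R) → R
  | [], _ => 0
  | k :: w, F => (if k = i then F [] w else 0) + cut i w (fun a b => F (k :: a) b)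

/-- Sum over all splittings `w = a ++ b` of `F a b`. -/
def splitSum : List ι → (List ι → List ι → R) → R
  | [], F => F [] []
  | k :: w, F => F [] (k :: w) + splitSum w (fun a b => F (k :: a) b)

theorem cut_congr (i : ι) : ∀ (w : List ι) {F F' : List ι → List ι → R},
    (∀ a b, w = a ++ i :: b → F a b = F' a b) → cut i w F = cut i w F'
  | [], _, _, _ => rfl
  | k :: w, F, F', h => by
      rw [cut, cut]
      congr 1
      · split
        · next hk => exact h [] w (by rw [hk, List.nil_append])
        · rfl
      · exact cut_congr i w fun a b hab => h (k :: a) b (by rw [hab, List.cons_append])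

theorem splitSum_congr : ∀ (w : List ι) {F F' : List ι → List ι → R},
    (∀ a b, w = a ++ b → F a b = F' a b) → splitSum w F = splitSum w F'
  | [], F, F', h => h [] [] rfl
  | k :: w, F, F', h => by
      rw [splitSum, splitSum, h [] (k :: w) rfl]
      congr 1
      exact splitSum_congr w fun a b hab => h (k :: a) b (by rw [hab, List.cons_append])

/-- `amp` with fuel. -/
def ampF (y : ι → G) (t : ι → ℝ) : ℕ → G → List ι → ℝ
  | 0, g, _ => if g = 1 then 1 else 0
  | _ + 1, g, [] => if g = 1 then 1 else 0
  | d + 1, g, k :: w => ampF y t d (y k * g) w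
      + t k * cut k w (fun a b => ampF y t d 1 a * ampF y t d g b)

/-- Amplitude at `(g, [])` of `X_w Ω`. -/
def amp (y : ι → G) (t : ι → ℝ) (g : G) (w : List ι) : ℝ := ampF y t w.length g w

theorem ampF_eq (y : ι → G) (t : ι → ℝ) : ∀ (d : ℕ) (g : G) (w : List ι), w.length ≤ d →
    ampF y t d g w = amp y t g w := by
  intro d
  induction d using Nat.strong_induction_on with
  | _ d ih =>
    intro g w hw
    cases w with
    | nil => cases d <;> rfl
    | cons k w =>
      obtain _ | d := d
      · simp at hw
      have hw' : w.length ≤ d := by simpa using hw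
      show ampF y t (d + 1) g (k :: w) = ampF y t (w.length + 1) g (k :: w)
      simp only [ampF]
      have hw2 : w.length < d + 1 := by omega
      rw [ih d d.lt_succ_self _ w hw', ih w.length hw2 _ w le_rfl]
      congr 2
      refine cut_congr k w fun a b hab => ?_
      have hl : w.length = a.length + (b.length + 1) := by simp [hab]
      rw [ih d d.lt_succ_self _ a (by omega), ih d d.lt_succ_self _ b (by omega),
        ih w.length hw2 _ a (by omega), ih w.length hw2 _ b (by omega)]

theorem amp_nil (y : ι → G) (t : ι → ℝ) (g : G) :
    amp y t g [] = if g = 1 then 1 else 0 := rfl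

theorem amp_cons (y : ι → G) (t : ι → ℝ) (g : G) (k : ι) (w : List ι) :
    amp y t g (k :: w)
      = amp y t (y k * g) w + t k * cut k w (fun a b => amp y t 1 a * amp y t g b) := by
  show ampF y t (w.length + 1) g (k :: w) = _
  simp only [ampF]
  rw [ampF_eq y t _ _ w le_rfl]
  congr 2
  refine cut_congr k w fun a b hab => ?_
  have hl : w.length = a.length + (b.length + 1) := by simp [hab]
  rw [ampF_eq y t _ _ a (by omega), ampF_eq y t _ _ b (by omega)]

/-- Amplitude at `(g, l)` of `X_w Ω`, weights removed. -/
def coefG (y : ι → G) (t : ι → ℝ) : G → List (ι × G) → List ι → ℝ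
  | g, [], w => amp y t g w
  | g, (i, h) :: l, w => cut i w (fun a b => amp y t g a * coefG y t h l b)

/-- Pure amplitude: at `(1, [(u_1, 1), …, (u_d, 1)])`. -/
def cu (y : ι → G) (t : ι → ℝ) : List ι → List ι → ℝ
  | [], w => amp y t 1 w
  | i :: u, w => cut i w (fun a b => amp y t 1 a * cu y t u b)

theorem coefG_pure (y : ι → G) (t : ι → ℝ) : ∀ (u w : List ι),
    coefG y t 1 (u.map fun i => (i, (1 : G))) w = cu y t u w
  | [], w => rfl
  | i :: u, w => by
      show cut i w _ = cut i w _
      exact cut_congr i w fun a b _ => by rw [coefG_pure y t u b]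

/-- The cumulant kernel with fuel. -/
def KF (y : ι → G) : ℕ → G → List ι → ℝ
  | 0, g, _ => if g = 1 then 1 else 0
  | _ + 1, g, [] => if g = 1 then 1 else 0
  | d + 1, g, k :: q => if g = 1 then 0 else
      KF y d (y k * g) q - splitSum q (fun p u => KF y d (y k) p * KF y d g u)

/-- The cumulant kernel `K_g(u)`; for `g = y_j` it is the free cumulant `κ(j, u)`. -/
def K (y : ι → G) (g : G) (u : List ι) : ℝ := KF y u.length g u

theorem KF_eq (y : ι → G) : ∀ (d : ℕ) (g : G) (u : List ι), u.length ≤ d →
    KF y d g u = K y g u := by
  intro d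
  induction d using Nat.strong_induction_on with
  | _ d ih =>
    intro g u hu
    cases u with
    | nil => cases d <;> rfl
    | cons k q =>
      obtain _ | d := d
      · simp at hu
      have hq : q.length ≤ d := by simpa using hu
      show KF y (d + 1) g (k :: q) = KF y (q.length + 1) g (k :: q)
      simp only [KF]
      split_ifs
      · rfl
      have hq2 : q.length < d + 1 := by omega
      rw [ih d d.lt_succ_self _ q hq, ih q.length hq2 _ q le_rfl]
      congr 1
      refine splitSum_congr q fun a b hab => ?_
      have hl : q.length = a.length + b.length := by simp [hab]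
      rw [ih d d.lt_succ_self _ a (by omega), ih d d.lt_succ_self _ b (by omega),
        ih q.length hq2 _ a (by omega), ih q.length hq2 _ b (by omega)]

theorem K_nil (y : ι → G) (g : G) : K y g [] = if g = 1 then 1 else 0 := rfl

theorem K_one_cons (y : ι → G) (k : ι) (q : List ι) : K y 1 (k :: q) = 0 := by
  simp [K, KF]

theorem K_cons (y : ι → G) {g : G} (hg : g ≠ 1) (k : ι) (q : List ι) :
    K y g (k :: q) = K y (y k * g) q - splitSum q (fun p u => K y (y k) p * K y g u) := by
  show KF y (q.length + 1) g (k :: q) = _
  simp only [KF, if_neg hg]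
  rw [KF_eq y _ _ q le_rfl]
  congr 1
  refine splitSum_congr q fun a b hab => ?_
  have hl : q.length = a.length + b.length := by simp [hab]
  rw [KF_eq y _ _ a (by omega), KF_eq y _ _ b (by omega)]

end Vale.Agent.P087
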