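import Vale.Agent.P087.GaussPoly
import Vale.Agent.P087.Rec

/-! # P087 — moments of deterministic plus Gaussian matrices converge in probability

Route: Gaussian integration by parts, by induction on the number of Gaussian letters, for
expectations of products of traces of words in the two kinds of letters. A letter `inl j` is the
deterministic matrix `B j`, a letter `inr j` the noisy one. -/

noncomputable section

open MeasureTheory Filter MvPolynomial
open scoped Topology ENNReal Classical ComplexConjugate

namespace Vale.Agent.P087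

namespace GM

/-- All splittings `w = u ++ x :: v`. -/
def cutList {α : Type*} (x : α) : List α → List (List α × List α)
  | [] => []
  | l :: w => (if l = x then [([], w)] else []) ++ (cutList x w).map fun p => (l :: p.1, p.2)

theorem eq_of_mem_cutList {α : Type*} (x : α) : ∀ (w : List α) {p : List α × List α},
    p ∈ cutList x w → w = p.1 ++ x :: p.2
  | [], p, h => by simp [cutList] at h
  | l :: w, p, h => by
      simp only [cutList, List.mem_append, List.mem_map] at h
      rcases h with h | ⟨q, hq, rfl⟩
      · split_ifs at h with hl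
        · simp only [List.mem_singleton] at h
          simp [h, hl]
        · simp at h
      · rw [eq_of_mem_cutList x w hq]
        rfl

theorem cut_eq_sum {α R : Type*} [AddCommMonoid R] (x : α) : ∀ (w : List α)
    (F : List α → List α → R), cut x w F = ((cutList x w).map fun p => F p.1 p.2).sum
  | [], F => rfl
  | l :: w, F => by
      rw [cut, cut_eq_sum x w, cutList]
      split_ifs <;> simp [Function.comp_def]

variable {N k : ℕ}

abbrev Ltr (N : ℕ) := Fin N ⊕ Fin N

theorem cutList_noisy (j : Fin N) (P : List (Fin N)) : ∀ w : List (Fin N),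
    cutList (Sum.inr j) (w.map Sum.inr ++ P.map Sum.inl : List (Ltr N))
      = (cutList j w).map fun p => (p.1.map Sum.inr, p.2.map Sum.inr ++ P.map Sum.inl)
  | [] => by
      induction P with
      | nil => rfl
      | cons i P ih =>
        simp only [List.map_nil, List.nil_append] at ih
        simp [cutList, ih]
  | l :: w => by
      have ih := cutList_noisy j P w
      simp only [List.map_cons, List.cons_append, cutList, ih]
      by_cases h : l = j <;> simp [h, Function.comp_def]

variable (B : Fin N → Matrix (Fin k) (Fin k) ℂ) (a : Fin N → ℝ)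

/-- The scale `a_j / √k`. -/
def sc (k : ℕ) (a : Fin N → ℝ) (j : Fin N) : ℂ := ((a j / Real.sqrt k : ℝ) : ℂ)

/-- The matrix of a letter. -/
def lm : Ltr N → Matrix (Fin k) (Fin k) (GPoly N k)
  | .inl j => (B j).map C
  | .inr j => (B j).map C
      + (C (sc k a j) : GPoly N k) • ∑ c, (X (j, c) : GPoly N k) • EcP N c

/-- The matrix of a word. -/
def wm (W : List (Ltr N)) : Matrix (Fin k) (Fin k) (GPoly N k) := (W.map (lm B a)).prod

/-- The normalised trace of a word. -/
def tn (W : List (Ltr N)) : GPoly N k := C (k : ℂ)⁻¹ * (wm B a W).trace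

/-- A product of normalised traces. -/
def Z (Ws : List (List (Ltr N))) : GPoly N k := (Ws.map (tn B a)).prod

theorem wm_append (U V : List (Ltr N)) : wm B a (U ++ V) = wm B a U * wm B a V := by
  simp [wm]

theorem wm_cons (l : Ltr N) (V : List (Ltr N)) : wm B a (l :: V) = lm B a l * wm B a V := by
  simp [wm]

theorem tn_rot (U V : List (Ltr N)) : tn B a (U ++ V) = tn B a (V ++ U) := by
  rw [tn, tn, wm_append, wm_append, Matrix.trace_mul_comm]

theorem Z_cons (W : List (Ltr N)) (Ws : List (List (Ltr N))) :
    Z B a (W :: Ws) = tn B a W * Z B a Ws := by simp [Z]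

theorem Z_perm {Ws Ws' : List (List (Ltr N))} (h : Ws.Perm Ws') : Z B a Ws = Z B a Ws' :=
  (h.map _).prod_eq

/-- Entrywise derivative. -/
def dM (q : Idx N k) (M : Matrix (Fin k) (Fin k) (GPoly N k)) :
    Matrix (Fin k) (Fin k) (GPoly N k) := M.map (pderiv q)

theorem dM_mul (q : Idx N k) (M M' : Matrix (Fin k) (Fin k) (GPoly N k)) :
    dM q (M * M') = dM q M * M' + M * dM q M' := by
  refine Matrix.ext fun i j => ?_
  simp [dM, Matrix.mul_apply, ← Finset.sum_add_distrib, mul_comm, add_comm]

theorem pderiv_trace (q : Idx N k) (M : Matrix (Fin k) (Fin k) (GPoly N k)) :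
    pderiv q M.trace = (dM q M).trace := by simp [dM, Matrix.trace]

theorem dM_EcP (q : Idx N k) (c : Fin k × Fin k) : dM q (EcP N c) = 0 := by
  refine Matrix.ext fun i j => ?_
  simp [dM, EcP]

theorem lm_inr_apply (i : Fin N) (p q : Fin k) : lm B a (Sum.inr i) p q
    = C (B i p q) + C (sc k a i) * ∑ c, X (i, c) * C (Ec c p q) := by
  simp only [lm, EcP, Matrix.add_apply, Matrix.smul_apply, Matrix.sum_apply, Matrix.map_apply,
    smul_eq_mul]

theorem dM_lm (j : Fin N) (c : Fin k × Fin k) (l : Ltr N) : dM (j, c) (lm B a l) =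
    if l = Sum.inr j then (C (sc k a j) : GPoly N k) • EcP N c else 0 := by
  refine Matrix.ext fun p q => ?_
  rcases l with i | i
  · rw [if_neg Sum.inl_ne_inr]
    exact pderiv_C
  · rw [dM, Matrix.map_apply, lm_inr_apply, map_add, pderiv_C, zero_add, pderiv_C_mul, map_sum]
    simp only [pderiv_mul, pderiv_C, mul_zero, add_zero, pderiv_X, Pi.single_apply, ite_mul,
      one_mul, zero_mul, Prod.mk.injEq, Sum.inr.injEq]
    by_cases h : i = j
    · subst h
      simp only [true_and, Finset.sum_ite_eq', Finset.mem_univ, if_true, Matrix.smul_apply,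
        smul_eq_mul, EcP, Matrix.map_apply]
    · simp only [h, false_and, if_false, Finset.sum_const_zero, mul_zero, Matrix.zero_apply]

theorem dM_wm (j : Fin N) (c : Fin k × Fin k) : ∀ W : List (Ltr N), dM (j, c) (wm B a W)
      = (C (sc k a j) : GPoly N k) • ((cutList (Sum.inr j) W).map
          fun p => wm B a p.1 * EcP N c * wm B a p.2).sum
  | [] => by
      refine Matrix.ext fun p q => ?_
      by_cases h : p = q <;> simp [dM, wm, cutList, h]
  | l :: W => by
      have e : ∀ q : List (Ltr N) × List (Ltr N),
          lm B a l * (wm B a q.1 * EcP N c * wm B a q.2)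
            = wm B a (l :: q.1) * EcP N c * wm B a q.2 := fun q => by
        rw [wm_cons, ← mul_assoc, ← mul_assoc]
      have e1 : (if l = Sum.inr j then (C (sc k a j) : GPoly N k) • EcP N c else 0) * wm B a W
          = (C (sc k a j) : GPoly N k) • ((if l = Sum.inr j then [([], W)] else []).map
              fun p : List (Ltr N) × List (Ltr N) => wm B a p.1 * EcP N c * wm B a p.2).sum := by
        by_cases h : l = Sum.inr j
        · rw [if_pos h, if_pos h, Matrix.smul_mul, List.map_singleton, List.sum_singleton]
          simp only [wm, List.map_nil, List.prod_nil, one_mul]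
        · rw [if_neg h, if_neg h, List.map_nil, List.sum_nil, zero_mul, smul_zero]
      rw [wm_cons, dM_mul, dM_wm j c W, dM_lm, cutList, List.map_append, List.sum_append,
        smul_add, Matrix.mul_smul, List.map_map, ← List.sum_map_mul_left, e1]
      simp only [Function.comp_def, e]
      by_cases h : l = Sum.inr j <;> simp [h]

theorem pderiv_tn (j : Fin N) (c : Fin k × Fin k) (W : List (Ltr N)) :
    pderiv (j, c) (tn B a W) = C (sc k a j) * C (k : ℂ)⁻¹ *
      ((cutList (Sum.inr j) W).map fun p => (wm B a (p.2 ++ p.1) * EcP N c).trace).sum := by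
  rw [tn, pderiv_C_mul, pderiv_trace, dM_wm, Matrix.trace_smul, Matrix.trace_list_sum,
    List.map_map, smul_eq_mul]
  have e : (Matrix.trace ∘ fun p : List (Ltr N) × List (Ltr N) => wm B a p.1 * EcP N c * wm B a p.2)
      = fun p => (wm B a (p.2 ++ p.1) * EcP N c).trace := funext fun p => by
    rw [Function.comp_apply, Matrix.trace_mul_comm, ← mul_assoc, wm_append]
  rw [e]
  ring

/-- The lists obtained by merging `W` with one of the other traces. -/
def mergeList (j : Fin N) (W : List (Ltr N)) :
    List (List (Ltr N)) → List (List (List (Ltr N)))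
  | [] => []
  | r :: rs => ((cutList (Sum.inr j) r).map fun p => (W ++ (p.2 ++ p.1)) :: rs)
      ++ (mergeList j W rs).map fun l => r :: l

theorem sum_pderiv_Z (j : Fin N) (hk : k ≠ 0) (W : List (Ltr N)) : ∀ rs : List (List (Ltr N)),
    ∑ c, (wm B a W * EcP N c).trace * pderiv (j, c) (Z B a rs)
      = C (sc k a j) * ((mergeList j W rs).map (Z B a)).sum
  | [] => by simp [Z, mergeList]
  | r :: rs => by
      have ih := sum_pderiv_Z j hk W rs
      have e1 : ∀ c, (wm B a W * EcP N c).trace * pderiv (j, c) (Z B a (r :: rs))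
          = C (sc k a j) * C (k : ℂ)⁻¹ * Z B a rs *
              ((cutList (Sum.inr j) r).map fun p =>
                (wm B a W * EcP N c).trace * (wm B a (p.2 ++ p.1) * EcP N c).trace).sum
            + tn B a r * ((wm B a W * EcP N c).trace * pderiv (j, c) (Z B a rs)) := fun c => by
        rw [Z_cons, pderiv_mul, pderiv_tn, List.sum_map_mul_left]
        ring
      simp only [e1, Finset.sum_add_distrib, ← Finset.mul_sum, ih]
      have e2 : ∑ c, ((cutList (Sum.inr j) r).map fun p =>
            (wm B a W * EcP N c).trace * (wm B a (p.2 ++ p.1) * EcP N c).trace).sum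
          = ((cutList (Sum.inr j) r).map fun p => (wm B a (W ++ (p.2 ++ p.1))).trace).sum := by
        induction cutList (Sum.inr j) r with
        | nil => simp
        | cons p l ihl =>
          simp only [List.map_cons, List.sum_cons, Finset.sum_add_distrib, ihl, sum_trace_merge]
          rw [← wm_append]
      rw [e2, mergeList, List.map_append, List.sum_append, List.map_map, List.map_map, mul_add]
      congr 1
      · rw [mul_assoc, mul_assoc]
        congr 1
        rw [← List.sum_map_mul_left, ← List.sum_map_mul_left]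
        congr 1
        refine List.map_congr_left fun p _ => ?_
        simp only [Function.comp_apply, Z_cons, tn]
        ring
      · rw [mul_left_comm]
        congr 1
        rw [← List.sum_map_mul_left]
        congr 1

/-- The expectation of a product of normalised traces. -/
def EZ (Ws : List (List (Ltr N))) : ℂ := Ex (Z B a Ws)

theorem EZ_rot (U V : List (Ltr N)) (rs : List (List (Ltr N))) :
    EZ B a ((U ++ V) :: rs) = EZ B a ((V ++ U) :: rs) := by
  rw [EZ, EZ, Z_cons, Z_cons, tn_rot]

theorem sum_pderiv_trace (hk : k ≠ 0) (j : Fin N) (W : List (Ltr N)) :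
    ∑ c, pderiv (j, c) (wm B a W * EcP N c).trace = C (sc k a j * (k : ℂ) ^ 2)
      * ((cutList (Sum.inr j) W).map fun p => tn B a p.1 * tn B a p.2).sum := by
  have hc : C ((k : ℂ) ^ 2) * (C (k : ℂ)⁻¹ * C (k : ℂ)⁻¹) = (1 : GPoly N k) := by
    rw [← map_mul, ← map_mul, ← map_one (C (σ := Idx N k) (R := ℂ))]
    congr 1
    field_simp [Nat.cast_ne_zero.2 hk]
  have e : ∀ c, pderiv (j, c) (wm B a W * EcP N c).trace = C (sc k a j) *
      ((cutList (Sum.inr j) W).map fun p =>
        (wm B a p.1 * EcP N c * wm B a p.2 * EcP N c).trace).sum := fun c => by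
    rw [pderiv_trace, dM_mul, dM_EcP, mul_zero, add_zero, dM_wm, smul_mul_assoc,
      Matrix.trace_smul, smul_eq_mul, ← List.sum_map_mul_right, Matrix.trace_list_sum,
      List.map_map]
    rfl
  simp only [e, ← Finset.mul_sum, map_mul, mul_assoc (C (sc k a j))]
  congr 1
  induction cutList (Sum.inr j) W with
  | nil => simp
  | cons p l ihl =>
    simp only [List.map_cons, List.sum_cons, Finset.sum_add_distrib, mul_add, ihl,
      sum_trace_split, tn]
    linear_combination (-(wm B a p.1).trace * (wm B a p.2).trace) * hc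

/-- The Schwinger-Dyson recursion. -/
theorem EZ_step (hk : k ≠ 0) (j : Fin N) (W : List (Ltr N)) (rs : List (List (Ltr N))) :
    EZ B a ((Sum.inr j :: W) :: rs) = EZ B a ((Sum.inl j :: W) :: rs)
      + (a j : ℂ) ^ 2 * ((cutList (Sum.inr j) W).map fun p => EZ B a (p.1 :: p.2 :: rs)).sum
      + (a j : ℂ) ^ 2 / (k : ℂ) ^ 2 * ((mergeList j W rs).map (EZ B a)).sum := by
  set s : ℂ := sc k a j with hs
  have hk' : (k : ℂ) ≠ 0 := Nat.cast_ne_zero.2 hk
  have hs2 : s ^ 2 = (a j : ℂ) ^ 2 / k := by
    have h0 : (Real.sqrt k : ℂ) ^ 2 = k := by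
      rw [← Complex.ofReal_pow, Real.sq_sqrt (Nat.cast_nonneg k)]; simp
    rw [hs, sc, Complex.ofReal_div, div_pow, h0]
  have eM : (lm B a (Sum.inr j) * wm B a W).trace = ((B j).map C * wm B a W).trace
      + C s * ∑ c, (X (j, c) : GPoly N k) * (wm B a W * EcP N c).trace := by
    rw [lm, Matrix.add_mul, Matrix.trace_add, Matrix.smul_mul, Matrix.trace_smul, Matrix.sum_mul,
      Matrix.trace_sum, smul_eq_mul]
    congr 2
    refine Finset.sum_congr rfl fun c _ => ?_
    rw [Matrix.smul_mul, Matrix.trace_smul, smul_eq_mul, Matrix.trace_mul_comm]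
  have h1 : Z B a ((Sum.inr j :: W) :: rs) = Z B a ((Sum.inl j :: W) :: rs)
      + C ((k : ℂ)⁻¹ * s) * ∑ c, X (j, c) * ((wm B a W * EcP N c).trace * Z B a rs) := by
    have e0 : lm B a (Sum.inl j) = (B j).map C := rfl
    rw [Z_cons, Z_cons, tn, tn, wm_cons, wm_cons, eM, e0, map_mul]
    simp only [← mul_assoc, ← Finset.sum_mul]
    ring
  have h2 : ∑ c, pderiv (j, c) ((wm B a W * EcP N c).trace * Z B a rs)
      = C (s * (k : ℂ) ^ 2) * ((cutList (Sum.inr j) W).map fun p => Z B a (p.1 :: p.2 :: rs)).sum
        + C s * ((mergeList j W rs).map (Z B a)).sum := by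
    simp only [pderiv_mul, Finset.sum_add_distrib, sum_pderiv_Z B a j hk W rs]
    congr 1
    rw [← Finset.sum_mul, sum_pderiv_trace B a hk, mul_assoc, ← List.sum_map_mul_right]
    simp only [Z_cons, mul_assoc, hs]
  rw [EZ, h1, Ex_add, Ex_C_mul, Ex_sum]
  simp only [Ex_ibp]
  rw [← Ex_sum, h2, Ex_add, Ex_C_mul, Ex_C_mul, Ex_list_sum, Ex_list_sum, List.map_map,
    List.map_map]
  have e1 : Ex ∘ (fun p : List (Ltr N) × List (Ltr N) => Z B a (p.1 :: p.2 :: rs))
      = fun p => EZ B a (p.1 :: p.2 :: rs) := rfl
  have e2 : Ex ∘ Z B a = EZ B a := rfl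
  rw [e1, e2, ← EZ]
  generalize ((cutList (Sum.inr j) W).map fun p => EZ B a (p.1 :: p.2 :: rs)).sum = S1
  generalize ((mergeList j W rs).map (EZ B a)).sum = S2
  have e3 : (k : ℂ)⁻¹ * s * (s * (k : ℂ) ^ 2 * S1 + s * S2)
      = s ^ 2 * (k : ℂ) * S1 + s ^ 2 * (k : ℂ)⁻¹ * S2 := by
    field_simp
  rw [e3, hs2]
  field_simp
  ring

theorem perm_of_mem_mergeList (j : Fin N) (W : List (Ltr N)) :
    ∀ (rs : List (List (Ltr N))) {l : List (List (Ltr N))}, l ∈ mergeList j W rs →
      (Sum.inr j :: l.flatten).Perm (W ++ rs.flatten)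
  | [], l, h => by simp [mergeList] at h
  | r :: rs, l, h => by
      simp only [mergeList, List.mem_append, List.mem_map] at h
      rcases h with ⟨p, hp, rfl⟩ | ⟨l', hl', rfl⟩
      · rw [eq_of_mem_cutList _ r hp, ← Multiset.coe_eq_coe]
        simp only [List.flatten_cons, ← Multiset.coe_add, ← Multiset.cons_coe,
          ← Multiset.singleton_add]
        abel
      · have ih := Multiset.coe_eq_coe.2 (perm_of_mem_mergeList j W rs hl')
        rw [← Multiset.coe_eq_coe]
        simp only [List.flatten_cons, ← Multiset.coe_add, ← Multiset.cons_coe,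
          ← Multiset.singleton_add] at ih ⊢
        rw [add_left_comm, ih]
        abel

theorem perm_of_mem_cutList (x : Ltr N) (W : List (Ltr N)) (rs : List (List (Ltr N)))
    {p : List (Ltr N) × List (Ltr N)} (h : p ∈ cutList x W) :
    (x :: (p.1 :: p.2 :: rs).flatten).Perm (W ++ rs.flatten) := by
  rw [eq_of_mem_cutList _ W h, ← Multiset.coe_eq_coe]
  simp only [List.flatten_cons, ← Multiset.coe_add, ← Multiset.cons_coe, ← Multiset.singleton_add]
  abel

/-- A word with all deterministic letters before all noisy ones. -/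
def form (p : List (Fin N) × List (Fin N)) : List (Ltr N) := p.1.map Sum.inl ++ p.2.map Sum.inr

/-- The sample value of a word. -/
def val (x : Fin N → Fin k × Fin k → ℝ) (W : List (Ltr N)) : ℂ :=
  ntr ((W.map (Sum.elim B (noisy B a x))).prod)

theorem eval_tn (x : Fin N → Fin k × Fin k → ℝ) (W : List (Ltr N)) :
    eval (pt x) (tn B a W) = val B a x W := by
  have hl : (fun l => (eval (pt x)).mapMatrix (lm B a l)) = Sum.elim B (noisy B a x) := by
    funext l
    refine Matrix.ext fun p q => ?_
    rcases l with i | i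
    · simp [lm]
    · simp [lm, noisy, sc, herm_eq_sum, Matrix.sum_apply, EcP, pt, map_sum]
  have hw : (eval (pt x)).mapMatrix (wm B a W) = (W.map (Sum.elim B (noisy B a x))).prod := by
    rw [wm, map_list_prod, List.map_map, ← hl]
    rfl
  rw [tn, map_mul, eval_C, val, ntr, ← hw]
  simp [Matrix.trace, map_sum]

theorem val_reverse (hB : ∀ j, (B j).IsHermitian) (x : Fin N → Fin k × Fin k → ℝ)
    (w : List (Fin N)) : val B a x (w.reverse.map Sum.inr) = conj (val B a x (w.map Sum.inr)) := by
  have hn : ∀ j, (noisy B a x j).conjTranspose = noisy B a x j := fun j => by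
    have hh : (herm (x j)).conjTranspose = herm (x j) := by
      refine Matrix.ext fun p q => ?_
      rw [Matrix.conjTranspose_apply]
      rcases lt_trichotomy p q with h | rfl | h
      · simp [herm, h, h.ne, h.ne', not_lt.2 h.le, sub_eq_add_neg]
      · simp [herm]
      · simp [herm, h, h.ne, h.ne', not_lt.2 h.le, sub_eq_add_neg]
    simp [noisy, Matrix.conjTranspose_add, Matrix.conjTranspose_smul, hh, (hB j).eq]
  simp only [val, ntr, List.map_map, Sum.elim_comp_inr]
  have : (w.reverse.map (noisy B a x)).prod = ((w.map (noisy B a x)).prod).conjTranspose := by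
    rw [Matrix.conjTranspose_list_prod, List.map_map, List.map_reverse]
    congr 2
    exact List.map_congr_left fun j _ => (hn j).symm
  rw [this, Matrix.trace_conjTranspose]
  simp

/-- The recursion for words with all deterministic letters first. -/
theorem EZ_form_step (hk : k ≠ 0) (j : Fin N) (P w : List (Fin N))
    (rs : List (List (Ltr N))) :
    EZ B a (form (P, j :: w) :: rs) = EZ B a (form (P ++ [j], w) :: rs)
      + (a j : ℂ) ^ 2 * ((cutList j w).map fun p =>
          EZ B a (form ([], p.1) :: form (P, p.2) :: rs)).sum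
      + (a j : ℂ) ^ 2 / (k : ℂ) ^ 2 *
          ((mergeList j (w.map Sum.inr ++ P.map Sum.inl) rs).map (EZ B a)).sum := by
  have e1 : form (P, j :: w) = P.map Sum.inl ++ (Sum.inr j :: w.map Sum.inr) := rfl
  have e2 : form (P ++ [j], w) = P.map Sum.inl ++ (Sum.inl j :: w.map Sum.inr) := by
    simp [form]
  have e3 : ∀ p : List (Fin N) × List (Fin N),
      EZ B a (p.1.map Sum.inr :: (p.2.map Sum.inr ++ P.map Sum.inl) :: rs)
        = EZ B a (form ([], p.1) :: form (P, p.2) :: rs) := fun p => by
    simp only [form, List.map_nil, List.nil_append, EZ, Z_cons,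
      tn_rot B a (P.map Sum.inl) (p.2.map Sum.inr)]
  rw [e1, EZ_rot, List.cons_append, EZ_step B a hk, cutList_noisy, List.map_map, e2,
    EZ_rot B a (P.map Sum.inl), List.cons_append]
  simp only [Function.comp_def, e3]

end GM

theorem tendsto_list_sum {β γ : Type*} {l : List β} {f : β → γ → ℂ} {c : β → ℂ} {F : Filter γ}
    (h : ∀ b ∈ l, Tendsto (f b) F (𝓝 (c b))) :
    Tendsto (fun i => (l.map fun b => f b i).sum) F (𝓝 (l.map c).sum) := by
  induction l with
  | nil => simpa using tendsto_const_nhds
  | cons b l ih =>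
    simp only [List.map_cons, List.sum_cons]
    exact (h b List.mem_cons_self).add (ih fun b' hb' => h b' (List.mem_cons_of_mem _ hb'))

section Limit

open GM

variable {G : Type*} [Group G] {N : ℕ} (y : Fin N → G) (a : Fin N → ℝ) (k : ℕ → ℕ)
  (B : ∀ i, Fin N → Matrix (Fin (k i)) (Fin (k i)) ℂ) (L : ℕ)
  (hB : ∀ i, ∀ v : List (Fin N), v.length ≤ 2 * L →
      ntr (matMonom (B i) v) = if (v.map y).prod = 1 then 1 else 0)

include hB

theorem gm_k_ne_zero (i : ℕ) : k i ≠ 0 := fun h => by
  have h1 := hB i [] (Nat.zero_le _)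
  simp [ntr, h] at h1

theorem EZ_det (i : ℕ) : ∀ Ps : List (List (Fin N)), Ps.flatten.length ≤ 2 * L →
    EZ (B i) a (Ps.map fun P => P.map Sum.inl)
      = (Ps.map fun P => if (P.map y).prod = 1 then (1 : ℂ) else 0).prod
  | [], _ => by simp [EZ, Z, Ex]
  | P :: Ps, hl => by
      simp only [List.flatten_cons, List.length_append] at hl
      have ht : tn (B i) a (P.map Sum.inl) = C (if (P.map y).prod = 1 then (1 : ℂ) else 0) := by
        rw [← hB i P (by omega), tn, ntr, matMonom, map_mul]
        have : wm (B i) a (P.map Sum.inl) = (C : ℂ →+* GPoly N (k i)).mapMatrix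
            ((P.map (B i)).prod) := by
          rw [wm, map_list_prod, List.map_map, List.map_map]
          rfl
        rw [this]
        simp [Matrix.trace, map_sum]
      rw [List.map_cons, EZ, Z_cons, ht, Ex_C_mul, List.map_cons, List.prod_cons,
        ← EZ_det i Ps (by omega)]
      rfl

/-- Every expectation of a product of traces of short words has a limit. -/
theorem EZ_converges (hk : Tendsto k atTop atTop) : ∀ (n : ℕ) (Ws : List (List (Ltr N))),
    Ws.flatten.countP Sum.isRight = n → Ws.flatten.length ≤ 2 * L →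
    ∃ c, Tendsto (fun i => EZ (B i) a Ws) atTop (𝓝 c) := by
  intro n
  induction n using Nat.strong_induction_on with
  | _ n ih =>
    intro Ws hn hl
    by_cases h : ∃ W ∈ Ws, ∃ j, Sum.inr j ∈ W
    · obtain ⟨W, hW, j, hj⟩ := h
      obtain ⟨u, v, rfl⟩ := List.append_of_mem hj
      obtain ⟨s₁, s₂, hWs⟩ := List.append_of_mem hW
      have hp : Ws.Perm ((u ++ Sum.inr j :: v) :: (s₁ ++ s₂)) := hWs ▸ List.perm_middle
      generalize s₁ ++ s₂ = rs at hp
      have hperm : Ws.flatten.Perm (Sum.inr j :: ((v ++ u) ++ rs.flatten)) := by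
        refine hp.flatten.trans (Multiset.coe_eq_coe.1 ?_)
        simp only [List.flatten_cons, ← Multiset.coe_add, ← Multiset.cons_coe,
          ← Multiset.singleton_add]
        abel
      have hc := hperm.countP_eq Sum.isRight
      have hlen := hperm.length_eq
      simp only [List.countP_cons, Sum.isRight_inr, if_true, List.length_cons] at hc hlen
      have hsub : ∀ l : List (List (Ltr N)),
          (Sum.inr j :: l.flatten).Perm ((v ++ u) ++ rs.flatten) →
          ∃ c, Tendsto (fun i => EZ (B i) a l) atTop (𝓝 c) := fun l hlp => by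
        have h1 := hlp.countP_eq Sum.isRight
        have h2 := hlp.length_eq
        simp only [List.countP_cons, Sum.isRight_inr, if_true, List.length_cons] at h1 h2
        exact ih _ (by omega) l rfl (by omega)
      obtain ⟨c0, h0⟩ := ih _ (by
        simp only [List.flatten_cons, List.cons_append, List.countP_cons, Sum.isRight_inl,
          List.countP_append, List.countP_flatten] at hc hn ⊢
        simp
        omega) ((Sum.inl j :: (v ++ u)) :: rs) rfl (by
        simp only [List.flatten_cons, List.length_cons, List.length_append] at hlen ⊢; omega)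
      choose! c1 h1 using fun p (hp : p ∈ cutList (Sum.inr j) (v ++ u)) =>
        hsub (p.1 :: p.2 :: rs) (perm_of_mem_cutList _ _ rs hp)
      choose! c2 h2 using fun l (hl : l ∈ mergeList j (v ++ u) rs) =>
        hsub l (perm_of_mem_mergeList j _ rs hl)
      have hz : Tendsto (fun i => (a j : ℂ) ^ 2 / ((k i : ℕ) : ℂ) ^ 2) atTop (𝓝 0) := by
        have := ((tendsto_inv_atTop_nhds_zero_nat (𝕜 := ℂ)).comp hk).pow 2 |>.const_mul
          ((a j : ℂ) ^ 2)
        simpa [div_eq_mul_inv, inv_pow] using this
      refine ⟨_, ((h0.add ((tendsto_list_sum h1).const_mul ((a j : ℂ) ^ 2))).add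
        (hz.mul (tendsto_list_sum h2))).congr fun i => ?_⟩
      rw [← EZ_step (B i) a (gm_k_ne_zero y k B L hB i), ← List.cons_append, EZ_rot,
        EZ, EZ, Z_perm _ _ hp]
    · push Not at h
      refine ⟨((Ws.map fun W => W.filterMap Sum.getLeft?).map fun P =>
        if (P.map y).prod = 1 then (1 : ℂ) else 0).prod, ?_⟩
      have hWs : (Ws.map fun W => W.filterMap Sum.getLeft?).map (fun P => P.map Sum.inl) = Ws := by
        rw [List.map_map]
        conv_rhs => rw [← List.map_id Ws]
        refine List.map_congr_left fun W hW => ?_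
        have hW' := h W hW
        clear hW
        simp only [Function.comp_apply, id_eq]
        induction W with
        | nil => rfl
        | cons l W ihW =>
          rcases l with i | i
          · simp [ihW fun j hj => hW' j (List.mem_cons_of_mem _ hj)]
          · exact absurd List.mem_cons_self (hW' i)
      refine tendsto_const_nhds.congr fun i => ?_
      rw [← EZ_det y a k B L hB i, hWs]
      rw [← hWs] at hl
      rw [← List.map_flatten] at hl
      rw [List.length_map] at hl
      exact hl

omit hB in
theorem gm_length_form (pw : List (List (Fin N) × List (Fin N))) :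
    (pw.map GM.form).flatten.length = (pw.map fun p => p.1.length + p.2.length).sum := by
  simp [GM.form, List.length_flatten, Function.comp_def]

/-- The limit for words with all deterministic letters first. -/
theorem EZ_tendsto_amp (hy : ∀ j, y j * y j = 1) (hk : Tendsto k atTop atTop) :
    ∀ (n : ℕ) (pw : List (List (Fin N) × List (Fin N))),
    (pw.map fun p => p.2.length).sum = n → (pw.map GM.form).flatten.length ≤ 2 * L →
    Tendsto (fun i => EZ (B i) a (pw.map GM.form)) atTop (𝓝 (pw.map fun p =>
      ((amp y (fun j => a j ^ 2) ((p.1.map y).prod)⁻¹ p.2 : ℝ) : ℂ)).prod) := by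
  intro n
  induction n using Nat.strong_induction_on with
  | _ n ih =>
    intro pw hn hl
    by_cases h : ∃ p ∈ pw, p.2 ≠ []
    · obtain ⟨⟨P, w⟩, hpw, hw⟩ := h
      obtain ⟨j, w, rfl⟩ := List.exists_cons_of_ne_nil hw
      obtain ⟨s₁, s₂, hpws⟩ := List.append_of_mem hpw
      have hp : pw.Perm ((P, j :: w) :: (s₁ ++ s₂)) := hpws ▸ List.perm_middle
      generalize s₁ ++ s₂ = rs at hp
      rw [gm_length_form, (hp.map _).sum_eq] at hl
      rw [(hp.map _).sum_eq] at hn
      simp only [List.map_cons, List.sum_cons, List.length_cons] at hn hl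
      have h0 := ih _ (by simp only [List.map_cons, List.sum_cons]; omega)
        ((P ++ [j], w) :: rs) rfl (by
          rw [gm_length_form]
          simp only [List.map_cons, List.sum_cons, List.length_append, List.length_singleton]
          omega)
      have h1 : ∀ p ∈ cutList j w, Tendsto
          (fun i => EZ (B i) a ((([], p.1) :: (P, p.2) :: rs).map GM.form)) atTop
          (𝓝 (((([], p.1) :: (P, p.2) :: rs) : List (List (Fin N) × List (Fin N))).map fun p =>
            ((amp y (fun j => a j ^ 2) ((p.1.map y).prod)⁻¹ p.2 : ℝ) : ℂ)).prod) := fun p hp => by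
        have hwl : w.length = p.1.length + (p.2.length + 1) := by
          rw [eq_of_mem_cutList j w hp]; simp
        exact ih _ (by simp only [List.map_cons, List.sum_cons]; omega) _ rfl (by
          rw [gm_length_form]
          simp only [List.map_cons, List.sum_cons, List.length_nil]
          omega)
      choose! c2 h2 using fun l (hl' : l ∈ mergeList j (w.map Sum.inr ++ P.map Sum.inl)
          (rs.map GM.form)) => EZ_converges y a k B L hB hk _ l rfl (by
        have := (perm_of_mem_mergeList j _ _ hl').length_eq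
        simp only [gm_length_form, List.length_cons, List.length_append, List.length_map] at this
        omega)
      have hz : Tendsto (fun i => (a j : ℂ) ^ 2 / ((k i : ℕ) : ℂ) ^ 2) atTop (𝓝 0) := by
        have := ((tendsto_inv_atTop_nhds_zero_nat (𝕜 := ℂ)).comp hk).pow 2 |>.const_mul
          ((a j : ℂ) ^ 2)
        simpa [div_eq_mul_inv, inv_pow] using this
      have key := (h0.add ((tendsto_list_sum h1).const_mul ((a j : ℂ) ^ 2))).add
        (hz.mul (tendsto_list_sum h2))
      have hval : ∀ g : G, g = ((P.map y).prod)⁻¹ →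
          (((P ++ [j]).map y).prod)⁻¹ = y j * g := fun g hg => by
        rw [hg, List.map_append, List.prod_append, List.map_singleton, List.prod_singleton,
          mul_inv_rev, inv_eq_of_mul_eq_one_right (hy j)]
      have hamp : ((amp y (fun j => a j ^ 2) ((P.map y).prod)⁻¹ (j :: w) : ℝ) : ℂ)
          = ((amp y (fun j => a j ^ 2) (((P ++ [j]).map y).prod)⁻¹ w : ℝ) : ℂ)
            + (a j : ℂ) ^ 2 * ((cutList j w).map fun p =>
              ((amp y (fun j => a j ^ 2) 1 p.1 : ℝ) : ℂ)
                * ((amp y (fun j => a j ^ 2) ((P.map y).prod)⁻¹ p.2 : ℝ) : ℂ)).sum := by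
        rw [amp_cons, cut_eq_sum, hval _ rfl, Complex.ofReal_add, Complex.ofReal_mul,
          Complex.ofReal_pow, ← Complex.ofRealHom_eq_coe (List.sum _), map_list_sum,
          List.map_map]
        simp [Function.comp_def]
      rw [(hp.map _).prod_eq, List.map_cons, List.prod_cons, hamp]
      convert key.congr fun i => ?_ using 2
      · simp only [List.map_cons, List.prod_cons, List.map_nil, List.prod_nil, inv_one,
          ← mul_assoc, List.sum_map_mul_right]
        ring
      · have e : EZ (B i) a (pw.map GM.form)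
            = EZ (B i) a (GM.form (P, j :: w) :: rs.map GM.form) := by
          rw [EZ, EZ, Z_perm _ _ (hp.map GM.form), List.map_cons]
        rw [e, EZ_form_step (B i) a (gm_k_ne_zero y k B L hB i)]
        simp only [List.map_cons]
    · push Not at h
      refine tendsto_const_nhds.congr fun i => ?_
      have e : pw.map GM.form = (pw.map Prod.fst).map fun P => P.map Sum.inl := by
        rw [List.map_map]
        exact List.map_congr_left fun p hp => by simp [GM.form, h p hp]
      rw [e, EZ_det y a k B L hB i _ (by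
        rw [e, ← List.map_flatten, List.length_map] at hl; exact hl), List.map_map]
      congr 1
      refine List.map_congr_left fun p hp => ?_
      by_cases hP : (p.1.map y).prod = 1 <;> simp [h p hp, amp_nil, hP]

end Limit

open GM in
theorem tendsto_moment {G : Type*} [Group G] {N : ℕ} (y : Fin N → G) (hy : ∀ j, y j * y j = 1)
    (a : Fin N → ℝ) (k : ℕ → ℕ) (hk : Tendsto k atTop atTop)
    (B : ∀ i, Fin N → Matrix (Fin (k i)) (Fin (k i)) ℂ) (hBh : ∀ i j, (B i j).IsHermitian)
    (L : ℕ)
    (hB : ∀ i, ∀ v : List (Fin N), v.length ≤ 2 * L →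
      ntr (matMonom (B i) v) = if (v.map y).prod = 1 then 1 else 0)
    (w : List (Fin N)) (hw : w.length ≤ L) {ε : ℝ} (hε : 0 < ε) :
    Tendsto (fun i => stdGauss N (k i)
      {x | ε ≤ ‖ntr (matMonom (noisy (B i) a x) w) - (amp y (fun j => a j ^ 2) 1 w : ℂ)‖})
      atTop (𝓝 0) := by
  set c : ℂ := (amp y (fun j => a j ^ 2) 1 w : ℂ) with hcdef
  set W : List (Ltr N) := w.map Sum.inr with hW
  set W' : List (Ltr N) := w.reverse.map Sum.inr with hW'
  have hlim : ∀ pw : List (List (Fin N) × List (Fin N)), (pw.map GM.form).flatten.length ≤ 2 * L →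
      Tendsto (fun i => EZ (B i) a (pw.map GM.form)) atTop (𝓝 (pw.map fun p =>
        ((amp y (fun j => a j ^ 2) ((p.1.map y).prod)⁻¹ p.2 : ℝ) : ℂ)).prod) :=
    fun pw h => EZ_tendsto_amp y a k B L hB hy hk _ pw rfl h
  have t1 : Tendsto (fun i => EZ (B i) a [W]) atTop (𝓝 c) := by
    simpa [GM.form, hcdef, hW] using hlim [([], w)] (by simp [GM.form]; omega)
  have hconj : ∀ i, EZ (B i) a [W'] = conj (EZ (B i) a [W]) := fun i => by
    simp only [EZ, Z, List.map_cons, List.map_nil, List.prod_cons, List.prod_nil, mul_one, Ex,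
      eval_tn, hW, hW', val_reverse (B i) a (hBh i)]
    exact integral_conj
  have t2 : Tendsto (fun i => EZ (B i) a [W']) atTop (𝓝 c) := by
    simp only [hconj]
    simpa [hcdef, Function.comp_def] using (Complex.continuous_conj.tendsto _).comp t1
  have hrev : (amp y (fun j => a j ^ 2) 1 w.reverse : ℂ) = c :=
    tendsto_nhds_unique (by
      simpa [GM.form, hW'] using hlim [([], w.reverse)] (by simp [GM.form]; omega)) t2
  have t3 : Tendsto (fun i => EZ (B i) a [W, W']) atTop (𝓝 (c * c)) := by
    simpa [GM.form, hcdef, hW, hW', hrev] using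
      hlim [([], w), ([], w.reverse)] (by simp [GM.form]; omega)
  let q : ∀ i, GPoly N (k i) := fun i =>
    (tn (B i) a W - C c) * (tn (B i) a W' - C c)
  have hq : ∀ i, Ex (q i) = EZ (B i) a [W, W'] - c * EZ (B i) a [W] - c * EZ (B i) a [W']
      + c * c := fun i => by
    have e : q i = Z (B i) a [W, W'] + C (-c) * Z (B i) a [W] + C (-c) * Z (B i) a [W']
        + C (c * c) := by
      simp [q, Z]; ring
    rw [e, Ex_add, Ex_add, Ex_add, Ex_C_mul, Ex_C_mul, Ex_C]
    simp only [EZ]
    ring
  have tq : Tendsto (fun i => Ex (q i)) atTop (𝓝 0) := by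
    simp only [hq]
    have := ((t3.sub (t1.const_mul c)).sub (t2.const_mul c)).add_const (c * c)
    simpa using this
  let f : ∀ i, (Fin N → Fin (k i) × Fin (k i) → ℝ) → ℝ := fun i x =>
    ‖ntr (matMonom (noisy (B i) a x) w) - c‖ ^ 2
  have hf : ∀ i x, eval (pt x) (q i) = (f i x : ℂ) := fun i x => by
    simp only [q, map_mul, map_sub, eval_C, eval_tn, hW, hW', val_reverse (B i) a (hBh i)]
    have e : val (B i) a x (w.map Sum.inr) = ntr (matMonom (noisy (B i) a x) w) := by
      simp [val, matMonom, List.map_map]
    have hc : conj c = c := by simp [hcdef]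
    rw [e, ← hc, ← map_sub, hc, Complex.mul_conj, Complex.normSq_eq_norm_sq]
  have hint : ∀ i, Integrable (f i) (stdGauss N (k i)) := fun i => by
    have := (integrable_eval (q i)).re
    simpa [hf] using this
  have hI : Tendsto (fun i => ∫ x, f i x ∂stdGauss N (k i)) atTop (𝓝 0) := by
    have e : ∀ i, ∫ x, f i x ∂stdGauss N (k i) = (Ex (q i)).re := fun i => by
      simp only [Ex, hf, integral_complex_ofReal, Complex.ofReal_re]
    simpa [e, Function.comp_def] using (Complex.continuous_re.tendsto _).comp tq
  have hup : Tendsto (fun i => ENNReal.ofReal ((∫ x, f i x ∂stdGauss N (k i)) / ε ^ 2))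
      atTop (𝓝 0) := by
    simpa using ENNReal.tendsto_ofReal (hI.div_const (ε ^ 2))
  refine tendsto_of_tendsto_of_tendsto_of_le_of_le tendsto_const_nhds hup (fun i => zero_le)
    fun i => ?_
  have hset : {x | ε ≤ ‖ntr (matMonom (noisy (B i) a x) w) - c‖} ⊆ {x | ε ^ 2 ≤ f i x} :=
    fun x hx => pow_le_pow_left₀ hε.le hx 2
  refine (measure_mono hset).trans (ENNReal.le_ofReal_iff_toReal_le (measure_ne_top _ _)
    (div_nonneg (integral_nonneg fun x => sq_nonneg _) (sq_nonneg _)) |>.2 ?_)
  rw [le_div_iff₀ (by positivity), mul_comm]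
  exact mul_meas_ge_le_integral_of_nonneg (ae_of_all _ fun x => sq_nonneg _) (hint i) _

end Vale.Agent.P087
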