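import Vale.Agent.P087.GaussDefs
import Vale.Agent.P166W.Ibp

/-! # P087 — Gaussian expectation of polynomials in the matrix coordinates

`Ex` is the expectation of a complex polynomial in the coordinates; `Ex (X q * p) = Ex (∂_q p)`.
`Ec c` is the `c`-th orthonormal Hermitian basis matrix and `casimir` its completeness relation. -/

noncomputable section

open MeasureTheory ProbabilityTheory Finset MvPolynomial
open scoped Classical

namespace Vale.Agent.P087

variable {N k : ℕ}

instance isProbabilityMeasure_stdGauss : IsProbabilityMeasure (stdGauss N k) := by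
  unfold stdGauss; infer_instance

abbrev Idx (N k : ℕ) := Fin N × (Fin k × Fin k)

abbrev GPoly (N k : ℕ) := MvPolynomial (Idx N k) ℂ

/-- Evaluation point of a sample. -/
def pt (x : Fin N → Fin k × Fin k → ℝ) : Idx N k → ℂ := fun q => (x q.1 q.2 : ℂ)

/-- Gaussian expectation. -/
def Ex (p : GPoly N k) : ℂ := ∫ x, eval (pt x) p ∂stdGauss N k

/-- Moments of the standard Gaussian. -/
def gmom (n : ℕ) : ℂ := ∫ x : ℝ, (x : ℂ) ^ n ∂gaussianReal 0 1

theorem integrable_gmom (n : ℕ) : Integrable (fun x : ℝ => (x : ℂ) ^ n) (gaussianReal 0 1) := by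
  refine (P166W.integrable_one_add_abs_pow n).mono' (by fun_prop) (ae_of_all _ fun x => ?_)
  rw [norm_pow, Complex.norm_real, Real.norm_eq_abs]
  exact pow_le_pow_left₀ (abs_nonneg x) (by linarith) n

theorem gmom_succ (n : ℕ) : gmom (n + 1) = (n : ℂ) * gmom (n - 1) := by
  have hb : ∀ (m : ℕ), m ≤ n → ∀ x : ℝ, |x ^ m| ≤ (1 + |x|) ^ n := fun m hm x => by
    rw [abs_pow]
    exact (pow_le_pow_left₀ (abs_nonneg x) (by linarith) m).trans
      (pow_le_pow_right₀ (by linarith [abs_nonneg x]) hm)
  have h := P166W.ibp_real (f := fun x : ℝ => x ^ n) (f' := fun x => (n : ℝ) * x ^ (n - 1))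
    (A := (n : ℝ) + 1) (m := n) (fun x => hasDerivAt_pow n x) (by fun_prop)
    (fun x => (hb n le_rfl x).trans (le_mul_of_one_le_left (by positivity) (by simp)))
    (fun x => by
      rw [abs_mul, Nat.abs_cast]
      exact mul_le_mul (by simp) (hb _ (n.sub_le 1) x) (abs_nonneg _) (by positivity))
  have hc : ∀ m : ℕ, gmom m = ((∫ x : ℝ, x ^ m ∂gaussianReal 0 1 : ℝ) : ℂ) := fun m => by
    rw [gmom, ← integral_complex_ofReal]
    simp
  simp_rw [← pow_succ'] at h
  rw [integral_const_mul] at h
  rw [hc, hc, h]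
  push_cast
  rfl

theorem eval_pt_monomial (x : Fin N → Fin k × Fin k → ℝ) (u : Idx N k →₀ ℕ) (r : ℂ) :
    eval (pt x) (monomial u r) = r * ∏ j, ∏ c, (x j c : ℂ) ^ u (j, c) := by
  rw [eval_monomial, Finsupp.prod_fintype _ _ (fun _ => pow_zero _), Fintype.prod_prod_type]
  rfl

theorem integrable_eval (p : GPoly N k) :
    Integrable (fun x => eval (pt x) p) (stdGauss N k) := by
  induction p using MvPolynomial.induction_on' with
  | monomial u r =>
    simp only [eval_pt_monomial]
    exact (Integrable.fintype_prod (f := fun j (z : Fin k × Fin k → ℝ) =>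
      ∏ c, (z c : ℂ) ^ u (j, c)) fun j => Integrable.fintype_prod (f := fun c (t : ℝ) =>
        (t : ℂ) ^ u (j, c)) fun c => integrable_gmom _).const_mul r
  | add p q hp hq =>
    simp only [map_add]
    exact hp.add hq

theorem Ex_add (p q : GPoly N k) : Ex (p + q) = Ex p + Ex q := by
  simp only [Ex, map_add]
  exact integral_add (integrable_eval p) (integrable_eval q)

theorem Ex_C_mul (r : ℂ) (p : GPoly N k) : Ex (C r * p) = r * Ex p := by
  simp only [Ex, map_mul, eval_C]
  exact integral_const_mul r _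

theorem Ex_C (r : ℂ) : Ex (C r : GPoly N k) = r := by
  simp [Ex]

theorem Ex_zero : Ex (0 : GPoly N k) = 0 := by simp [Ex]

theorem Ex_sum {β : Type*} (s : Finset β) (f : β → GPoly N k) :
    Ex (∑ i ∈ s, f i) = ∑ i ∈ s, Ex (f i) :=
  map_sum (AddMonoidHom.mk' Ex Ex_add) f s

theorem Ex_list_sum (l : List (GPoly N k)) : Ex l.sum = (l.map Ex).sum :=
  map_list_sum (AddMonoidHom.mk' Ex Ex_add) l

theorem Ex_monomial (u : Idx N k →₀ ℕ) (r : ℂ) :
    Ex (monomial u r) = r * ∏ q, gmom (u q) := by
  simp only [Ex, eval_pt_monomial]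
  rw [integral_const_mul, stdGauss, Fintype.prod_prod_type,
    integral_fintype_prod_eq_prod (fun j (z : Fin k × Fin k → ℝ) => ∏ c, (z c : ℂ) ^ u (j, c))]
  congr 1
  refine prod_congr rfl fun j _ => ?_
  rw [integral_fintype_prod_eq_prod (fun c (t : ℝ) => (t : ℂ) ^ u (j, c))]
  rfl

/-- Gaussian integration by parts. -/
theorem Ex_ibp (q : Idx N k) (p : GPoly N k) : Ex (X q * p) = Ex (pderiv q p) := by
  induction p using MvPolynomial.induction_on' with
  | monomial u r =>
    rw [X, monomial_mul, one_mul, pderiv_monomial, Ex_monomial, Ex_monomial,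
      ← mul_prod_erase univ _ (mem_univ q), ← mul_prod_erase univ _ (mem_univ q)]
    simp only [Finsupp.add_apply, Finsupp.tsub_apply, Finsupp.single_eq_same]
    rw [prod_congr rfl (s₂ := univ.erase q) (g := fun q' => gmom (u q')) fun q' hq' => by
        simp [Finsupp.single_eq_of_ne (ne_of_mem_erase hq')],
      prod_congr rfl (f := fun q' => gmom (u q' - _)) (g := fun q' => gmom (u q')) fun q' hq' => by
        simp [Finsupp.single_eq_of_ne (ne_of_mem_erase hq')]]
    rw [add_comm 1 (u q), gmom_succ]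
    ring
  | add p p' hp hp' =>
    rw [mul_add, Ex_add, map_add, Ex_add, hp, hp']

/-- The orthonormal Hermitian basis. -/
def Ec (c : Fin k × Fin k) : Matrix (Fin k) (Fin k) ℂ := herm (Pi.single c 1)

theorem Ec_apply (c : Fin k × Fin k) (p q : Fin k) : Ec c p q =
    if p = q then (if c = (p, p) then 1 else 0)
    else if p < q then
      ((if c = (p, q) then 1 else 0) + Complex.I * (if c = (q, p) then 1 else 0))
        / (Real.sqrt 2 : ℂ)
    else ((if c = (q, p) then 1 else 0) - Complex.I * (if c = (p, q) then 1 else 0))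
        / (Real.sqrt 2 : ℂ) := by
  simp only [Ec, herm, Pi.single_apply, eq_comm (b := c)]
  split_ifs <;> simp

theorem herm_eq_sum (x : Fin k × Fin k → ℝ) (p q : Fin k) :
    herm x p q = ∑ c, (x c : ℂ) * Ec c p q := by
  simp only [Ec_apply, herm]
  split_ifs <;>
    simp [mul_div_assoc', mul_add, mul_sub, ← sum_div, sum_add_distrib, sum_sub_distrib,
      mul_comm Complex.I]

theorem Ec_coord (c : Fin k × Fin k) (p q : Fin k) : Ec c p q =
    (if p = q then 1 else if p < q then (Real.sqrt 2 : ℂ)⁻¹ else -Complex.I * (Real.sqrt 2 : ℂ)⁻¹)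
        * (if c = (p, q) then 1 else 0)
      + (if p = q then 0 else if p < q then Complex.I * (Real.sqrt 2 : ℂ)⁻¹ else (Real.sqrt 2 : ℂ)⁻¹)
        * (if c = (q, p) then 1 else 0) := by
  rw [Ec_apply]
  rcases eq_or_ne p q with rfl | hne
  · simp
  · simp only [if_neg hne]
    by_cases h : p < q <;> simp only [h, if_true, if_false] <;> ring

theorem sum_Ec_mul (p q p' q' : Fin k) :
    ∑ c, Ec c p q * Ec c p' q' = if p = q' ∧ q = p' then (1 : ℂ) else 0 := by
  have h2 : (Real.sqrt 2 : ℂ)⁻¹ * (Real.sqrt 2 : ℂ)⁻¹ = 2⁻¹ := by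
    rw [← mul_inv, ← Complex.ofReal_mul, Real.mul_self_sqrt (by norm_num : (0:ℝ) ≤ 2)]; norm_num
  simp only [Ec_coord _ p q, add_mul, mul_assoc, ite_mul, one_mul, zero_mul, sum_add_distrib]
  simp only [Ec_coord]
  by_cases e1 : p = p' ∧ q = q'
  · obtain ⟨rfl, rfl⟩ := e1
    rcases lt_trichotomy p q with h | rfl | h
    · simp [h, h.ne, h.ne', h2]
      linear_combination (Complex.I * Complex.I) * h2 + 2⁻¹ * Complex.I_mul_I
    · simp
    · simp [h.ne, h.ne', not_lt.2 h.le, h2]
      linear_combination (Complex.I * Complex.I) * h2 + 2⁻¹ * Complex.I_mul_I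
  · by_cases e2 : p = q' ∧ q = p'
    · obtain ⟨rfl, rfl⟩ := e2
      rcases lt_trichotomy p q with h | rfl | h
      · simp [h, h.ne, h.ne', not_lt.2 h.le, h2]
        linear_combination -(Complex.I * Complex.I) * h2 - 2⁻¹ * Complex.I_mul_I
      · simp
      · simp [h, h.ne, h.ne', not_lt.2 h.le, h2]
        linear_combination -(Complex.I * Complex.I) * h2 - 2⁻¹ * Complex.I_mul_I
    · have e2' : ¬(q = p' ∧ p = q') := fun h => e2 h.symm
      have e1' : ¬(q = q' ∧ p = p') := fun h => e1 h.symm
      simp [e1, e2, e1', e2']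

/-- `Ec` over the polynomial ring. -/
def EcP (N : ℕ) (c : Fin k × Fin k) : Matrix (Fin k) (Fin k) (GPoly N k) := (Ec c).map C

theorem casimir (Φ : Matrix (Fin k) (Fin k) (GPoly N k) →ₗ[GPoly N k]
      Matrix (Fin k) (Fin k) (GPoly N k) →ₗ[GPoly N k] GPoly N k) :
    ∑ c, Φ (EcP N c) (EcP N c)
      = ∑ p, ∑ q, Φ (Matrix.single p q 1) (Matrix.single q p 1) := by
  have e : ∀ c : Fin k × Fin k, EcP N c = ∑ p, ∑ q, (C (Ec c p q) : GPoly N k) • Matrix.single p q 1 := fun c => by
    conv_lhs => rw [Matrix.matrix_eq_sum_single (EcP N c)]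
    simp [EcP, Matrix.smul_single]
  have e2 : ∀ c : Fin k × Fin k, Φ (EcP N c) (EcP N c) = ∑ p, ∑ q, ∑ p', ∑ q',
      C (Ec c p q * Ec c p' q') * Φ (Matrix.single p' q' 1) (Matrix.single p q 1) := fun c => by
    rw [e c]
    simp only [map_sum, LinearMap.sum_apply, map_smul, LinearMap.smul_apply, smul_eq_mul,
      Finset.mul_sum, map_mul]
    exact sum_congr rfl fun _ _ => sum_congr rfl fun _ _ => sum_congr rfl fun _ _ =>
      sum_congr rfl fun _ _ => by ring
  conv_rhs => rw [Finset.sum_comm]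
  simp only [e2]
  rw [sum_comm]
  refine sum_congr rfl fun p _ => ?_
  rw [sum_comm]
  refine sum_congr rfl fun q _ => ?_
  rw [sum_comm]
  rw [sum_eq_single q _ (by simp)]
  · rw [sum_comm, sum_eq_single p _ (by simp)]
    · rw [← Finset.sum_mul, ← map_sum, sum_Ec_mul]
      simp
    · intro q' _ hq'
      rw [← Finset.sum_mul, ← map_sum, sum_Ec_mul, if_neg fun h => hq' h.1.symm]
      simp
  · intro p' _ hp'
    rw [sum_comm]
    refine sum_eq_zero fun q' _ => ?_
    rw [← Finset.sum_mul, ← map_sum, sum_Ec_mul, if_neg fun h => hp' h.2.symm]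
    simp

theorem trace_mul_single_one (U : Matrix (Fin k) (Fin k) (GPoly N k)) (i j : Fin k) :
    (U * Matrix.single i j 1).trace = U j i := by
  simp [Matrix.trace_mul_single]

/-- `∑_c Tr (U E_c V E_c) = Tr U · Tr V`. -/
theorem sum_trace_split (U V : Matrix (Fin k) (Fin k) (GPoly N k)) :
    ∑ c, (U * EcP N c * V * EcP N c).trace = U.trace * V.trace := by
  have h := casimir (LinearMap.mk₂ (GPoly N k) (fun A B => (U * A * V * B).trace)
    (fun A A' B => by simp [mul_add, add_mul]) (fun r A B => by simp)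
    (fun A B B' => by simp [mul_add]) (fun r A B => by simp))
  simp only [LinearMap.mk₂_apply] at h
  rw [h]
  have e : ∀ p q : Fin k,
      (U * Matrix.single p q 1 * V * Matrix.single q p 1).trace = U p p * V q q := fun p q => by
    rw [mul_assoc U, mul_assoc U, Matrix.single_mul_mul_single, one_mul, mul_one,
      Matrix.trace_mul_single]
    simp
  simp only [e, ← Finset.mul_sum, ← Finset.sum_mul]
  rfl

/-- `∑_c Tr (U E_c) Tr (V E_c) = Tr (U V)`. -/
theorem sum_trace_merge (U V : Matrix (Fin k) (Fin k) (GPoly N k)) :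
    ∑ c, (U * EcP N c).trace * (V * EcP N c).trace = (U * V).trace := by
  have h := casimir (LinearMap.mk₂ (GPoly N k) (fun A B => (U * A).trace * (V * B).trace)
    (fun A A' B => by simp [mul_add, add_mul]) (fun r A B => by simp [mul_assoc])
    (fun A B B' => by simp [mul_add]) (fun r A B => by simp [mul_left_comm]))
  simp only [LinearMap.mk₂_apply] at h
  rw [h]
  simp only [trace_mul_single_one]
  rw [Finset.sum_comm]
  simp [Matrix.trace, Matrix.mul_apply]

end Vale.Agent.P087
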