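import Vale.Agent.P087.Trace
import Vale.Agent.P087.Free
import Vale.Agent.P087.Fisher
import Vale.Agent.P087.ChiUpper
import Vale.Agent.P087.ChiLower

/-! # P087 — assembly -/

noncomputable section

open MeasureTheory
open scoped InnerProductSpace lp ENNReal

namespace Vale.Agent.P087

variable {G : Type} [Group G] {N : ℕ}

theorem gOp_one : (gOp (1 : G) : L2 (Bas G N) →L[ℂ] L2 (Bas G N)) = 1 := by
  ext ψ b
  simp [gOp, leftMap]

theorem gOp_mul (g h : G) :
    (gOp (g * h) : L2 (Bas G N) →L[ℂ] L2 (Bas G N)) = gOp g * gOp h := by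
  ext ψ b
  simp [gOp, leftMap, mul_assoc]

theorem gOp_prod (l : List G) :
    (gOp l.prod : L2 (Bas G N) →L[ℂ] L2 (Bas G N)) = (l.map gOp).prod := by
  induction l with
  | nil => simpa using gOp_one
  | cons g l ih => simp [gOp_mul, ih]

theorem norm_sOp_omega (c : Fin N × Bool) :
    ‖sOp c (omega : L2 (Bas G N))‖ = 1 := by
  have : sOp c (omega : L2 (Bas G N)) = dl (1, [(c, 1)]) := by
    ext ⟨g, l⟩
    simp only [sOp, add_apply, lp.coeFn_add, Pi.add_apply, omega, pull_apply, anMap,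
      Option.elim_some, dl_apply]
    rw [if_neg (show ¬((1 : G), (c, g) :: l) = (1, []) by simp), add_zero]
    cases l with
    | nil => simp [crMap]
    | cons p l =>
      obtain ⟨c', h⟩ := p
      by_cases hg : g = 1 ∧ c' = c
      · obtain ⟨rfl, rfl⟩ := hg
        simp only [crMap, and_self, if_true, Option.elim_some, dl_apply]
        by_cases hh : (h, l) = ((1 : G), ([] : List ((Fin N × Bool) × G)))
        · rw [if_pos hh, if_pos (by simp_all [Prod.ext_iff])]
        · rw [if_neg hh, if_neg (by simp_all [Prod.ext_iff])]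
      · simp only [crMap, if_neg hg, Option.elim_none]
        rw [if_neg]
        simp only [Prod.mk.injEq, List.cons.injEq]
        exact fun hh => hg ⟨hh.1, hh.2.1.1⟩
  rw [this, norm_dl]

/-- Perturbing the factors of a product of contractions. -/
theorem norm_prod_sub_prod_le {E : Type*} [NormedAddCommGroup E] [NormedSpace ℂ E] {ι : Type*}
    (A B : ι → E →L[ℂ] E) {δ : ℝ} (hδ : 0 ≤ δ) (hB : ∀ i, ‖B i‖ ≤ 1)
    (hAB : ∀ i, ‖A i - B i‖ ≤ δ) :
    ∀ w : List ι, ‖(w.map B).prod‖ ≤ 1 ∧ ‖(w.map A).prod - (w.map B).prod‖ ≤ (1 + δ) ^ w.length - 1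
  | [] => ⟨by rw [List.map_nil, List.prod_nil]; exact ContinuousLinearMap.norm_id_le, by simp⟩
  | i :: w => by
    obtain ⟨h1, h2⟩ := norm_prod_sub_prod_le A B hδ hB hAB w
    simp only [List.map_cons, List.prod_cons, List.length_cons]
    refine ⟨(norm_mul_le _ _).trans (mul_le_one₀ (hB i) (norm_nonneg _) h1), ?_⟩
    have hA : ‖A i‖ ≤ 1 + δ := by
      calc ‖A i‖ = ‖B i + (A i - B i)‖ := by rw [add_sub_cancel]
        _ ≤ 1 + δ := (norm_add_le _ _).trans (add_le_add (hB i) (hAB i))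
    calc ‖A i * (w.map A).prod - B i * (w.map B).prod‖
        = ‖A i * ((w.map A).prod - (w.map B).prod) + (A i - B i) * (w.map B).prod‖ := by
          rw [mul_sub, sub_mul]; abel_nf
      _ ≤ ‖A i‖ * ‖(w.map A).prod - (w.map B).prod‖ + ‖A i - B i‖ * ‖(w.map B).prod‖ :=
          (norm_add_le _ _).trans (add_le_add (norm_mul_le _ _) (norm_mul_le _ _))
      _ ≤ (1 + δ) * ((1 + δ) ^ w.length - 1) + δ * 1 :=
          add_le_add (mul_le_mul hA h2 (norm_nonneg _) (by linarith))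
            (mul_le_mul (hAB i) h1 (norm_nonneg _) hδ)
      _ = (1 + δ) ^ (w.length + 1) - 1 := by ring

theorem star_monom {H : Type*} [NormedAddCommGroup H] [InnerProductSpace ℂ H] [CompleteSpace H]
    (X : Fin N → H →L[ℂ] H) (hX : ∀ j, IsSelfAdjoint (X j)) :
    ∀ w : List (Fin N), star (monom X w) = monom X w.reverse
  | [] => by simp [monom]
  | j :: w => by
    have ih := star_monom X hX w
    simp only [monom, List.map_cons, List.prod_cons, List.reverse_cons, List.map_append,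
      List.prod_append, List.map_nil, List.prod_nil, mul_one, star_mul, (hX j).star_eq] at ih ⊢
    rw [ih]

/-- `τ((X_j - W)^2) = ‖X_j Ω - W Ω‖²` for a palindromic word `W`. -/
theorem quad_eq_norm_sq {H : Type*} [NormedAddCommGroup H] [InnerProductSpace ℂ H]
    [CompleteSpace H] (Ω : H) (X : Fin N → H →L[ℂ] H) (hX : ∀ j, IsSelfAdjoint (X j))
    (j : Fin N) (W : List (Fin N)) (hW : W.reverse = W) :
    (vstate Ω (monom X [j, j]) - vstate Ω (monom X (j :: W)) - vstate Ω (monom X (W ++ [j]))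
      + vstate Ω (monom X (W ++ W))).re = ‖X j Ω - monom X W Ω‖ ^ 2 := by
  have hm : ∀ u v : H, ⟪u, monom X W v⟫_ℂ = ⟪monom X W u, v⟫_ℂ := by
    intro u v
    have h1 := star_monom X hX W
    rw [hW, ContinuousLinearMap.star_eq_adjoint] at h1
    conv_lhs => rw [← h1]
    rw [ContinuousLinearMap.adjoint_inner_right]
  have hj : ∀ u v : H, ⟪u, X j v⟫_ℂ = ⟪X j u, v⟫_ℂ := by
    intro u v
    have h1 := (hX j).star_eq
    rw [ContinuousLinearMap.star_eq_adjoint] at h1
    conv_lhs => rw [← h1]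
    rw [ContinuousLinearMap.adjoint_inner_right]
  have e1 : monom X (W ++ [j]) Ω = monom X W (X j Ω) := by simp [monom]
  have e2 : monom X (W ++ W) Ω = monom X W (monom X W Ω) := by simp [monom]
  have e3 : monom X [] Ω = Ω := by simp [monom]
  simp only [vstate, monom_cons, e1, e2, e3]
  rw [hj Ω (X j Ω), hj Ω (monom X W Ω), hm Ω (X j Ω), hm Ω (monom X W Ω),
    ← inner_sub_sub_self, inner_self_eq_norm_sq_to_K]
  norm_cast

theorem isSelfAdjoint_model (n : ℕ) (a : Fin (3 + n) → ℝ) (j : Fin (3 + n)) :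
    IsSelfAdjoint (Xop (yv n) a j) :=
  isSelfAdjoint_Xop (yv_sq n) j

theorem decode_close (n : ℕ) {ε : ℝ} (hε : 0 ≤ ε) (a : Fin (3 + n) → ℝ)
    (haZ : ∀ c : Fin 3, a (Fin.castAdd n c) = ε) (haY : ∀ i : Fin n, a (Fin.natAdd 3 i) = 1)
    (i : Fin n) :
    ‖Xop (yv n) a (Fin.natAdd 3 i) omega - monom (Xop (yv n) a) (decodeWord n i) omega‖
      ≤ 1 + ((1 + 2 * ε) ^ (4 * (i : ℕ) + 5) - 1) := by
  set A : Fin 3 → L2 (Bas G3 (3 + n)) →L[ℂ] L2 (Bas G3 (3 + n)) :=
    fun c => Xop (yv n) a (Fin.castAdd n c)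
  set B : Fin 3 → L2 (Bas G3 (3 + n)) →L[ℂ] L2 (Bas G3 (3 + n)) := fun c => gOp (gg c)
  have hyc : ∀ c : Fin 3, yv n (Fin.castAdd n c) = gg c := by
    intro c
    simp [yv, spell, gprod]
  have hyi : yv n (Fin.natAdd 3 i) = gprod (midWord i) := by simp [yv, spell]
  have hAB : ∀ c, ‖A c - B c‖ ≤ 2 * ε := by
    intro c
    simp only [A, B, Xop, hyc, haZ, add_sub_cancel_left, norm_smul, Complex.norm_real,
      Real.norm_eq_abs, abs_of_nonneg hε]
    nlinarith [norm_sOp_le (G := G3) ((Fin.castAdd n c), false)]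
  have hp := (norm_prod_sub_prod_le A B (by linarith) (fun c => norm_gOp_le _) hAB (midWord i)).2
  have hB : ((midWord i).map B).prod = gOp (gprod (midWord i)) := by
    rw [gprod, gOp_prod, List.map_map]
    rfl
  have hA : monom (Xop (yv n) a) (decodeWord n i) = ((midWord i).map A).prod := by
    rw [monom, decodeWord, List.map_map]
    rfl
  rw [hB, length_midWord] at hp
  rw [hA]
  have hsplit : Xop (yv n) a (Fin.natAdd 3 i) omega - ((midWord i).map A).prod omega
      = sOp (Fin.natAdd 3 i, false) omega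
        - (((midWord i).map A).prod - gOp (gprod (midWord i)) :
            L2 (Bas G3 (3 + n)) →L[ℂ] L2 (Bas G3 (3 + n))) omega := by
    simp [Xop, hyi, haY]
    abel
  rw [hsplit]
  refine (norm_sub_le _ _).trans (add_le_add (norm_sOp_omega _).le ?_)
  refine (ContinuousLinearMap.le_opNorm _ _).trans ?_
  rw [norm_omega, mul_one]
  exact hp

theorem amp_pair {ι : Type*} (y : ι → G) (v : ι → ℝ) (z : ι) (hz : y z * y z = 1) :
    amp y v 1 [z, z] = 1 + v z := by
  simp [amp_cons, amp_nil, cut, hz]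

/-- The numerical gap. -/
theorem numeric_gap (n : ℕ) (hn : n = 10 ^ 12) :
    3 / 2 * Real.log 3 + 2 + 9 * Real.log n
      < ((n : ℝ) - (2 * Real.sqrt n + 3)) / (2 * (1 + 128 * (2 * Real.sqrt n + 3))) := by
  subst hn
  have hsq : Real.sqrt (((10 : ℕ) ^ 12 : ℕ) : ℝ) = 10 ^ 6 := by
    rw [show (((10 : ℕ) ^ 12 : ℕ) : ℝ) = ((10 : ℝ) ^ 6) ^ 2 by norm_num]
    exact Real.sqrt_sq (by norm_num)
  have h3 : Real.log 3 ≤ 2 := by
    have := Real.log_le_sub_one_of_pos (show (0 : ℝ) < 3 by norm_num)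
    linarith
  have h10 : Real.log 10 ≤ 4 := by
    have h : Real.log 10 ≤ Real.log 16 := Real.log_le_log (by norm_num) (by norm_num)
    have h16 : Real.log 16 = 4 * Real.log 2 := by
      rw [show (16 : ℝ) = 2 ^ 4 by norm_num, Real.log_pow]
      norm_num
    have h2 := Real.log_le_sub_one_of_pos (show (0 : ℝ) < 2 by norm_num)
    linarith
  have hl : Real.log (((10 : ℕ) ^ 12 : ℕ) : ℝ) = 12 * Real.log 10 := by
    rw [show (((10 : ℕ) ^ 12 : ℕ) : ℝ) = (10 : ℝ) ^ 12 by norm_num, Real.log_pow]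
    norm_num
  rw [hsq, hl]
  refine lt_of_le_of_lt (b := (437 : ℝ)) (by linarith) ?_
  norm_num

theorem model_gap (n : ℕ) (hn : n = 10 ^ 12) (ε : ℝ) (hε : ε = 1 / (n : ℝ) ^ 3) :
    ∃ (N : ℕ) (H : Type) (_ : NormedAddCommGroup H) (_ : InnerProductSpace ℂ H)
      (_ : CompleteSpace H) (Ω : H) (X S : Fin N → H →L[ℂ] H),
      0 < N ∧ (∀ j, IsSelfAdjoint (X j) ∧ IsSelfAdjoint (S j)) ∧
      IsFaithfulTrace Ω (vnGen (Set.range X ∪ Set.range S)) ∧
      IsFreeSemicircularFrom Ω X S ∧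
      ⊥ < chi Ω X ∧
      ∃ ξ : ℝ → Fin N → H,
        (∀ t : ℝ, 0 < t → ∀ j, IsConjugateVar Ω (addSemicircular X S t) j (ξ t j)) ∧
        IntegrableOn (fun t : ℝ => (N : ℝ) / (1 + t) - ∑ j, ‖ξ t j‖ ^ 2) (Set.Ioi 0) ∧
        chi Ω X < ((1 / 2 * ∫ t in Set.Ioi (0 : ℝ), ((N : ℝ) / (1 + t) - ∑ j, ‖ξ t j‖ ^ 2))
            + (N : ℝ) / 2 * Real.log (2 * Real.pi * Real.exp 1) : ℝ) := by
  set a : Fin (3 + n) → ℝ := Fin.append (fun _ => ε) (fun _ => 1) with ha_def
  have hn36 : (36 : ℝ) ≤ n := by rw [hn]; norm_num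
  have hn0 : (0 : ℝ) < n := by linarith
  have hεpos : 0 < ε := by rw [hε]; positivity
  have haZ : ∀ c : Fin 3, a (Fin.castAdd n c) = ε := fun c => by simp [ha_def]
  have haY : ∀ i : Fin n, a (Fin.natAdd 3 i) = 1 := fun i => by simp [ha_def]
  have hapos : ∀ j, 0 < a j := by
    intro j
    induction j using Fin.addCases with
    | left c => rw [haZ]; exact hεpos
    | right i => rw [haY]; norm_num
  set B : ℝ := 2 * Real.sqrt n + 3
  set s : Finset (Fin (3 + n)) := Finset.univ.map (Fin.natAddEmb 3) with hs_def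
  have hs : ∀ j ∈ s, a j = 1 := by
    intro j hj
    obtain ⟨i, -, rfl⟩ := Finset.mem_map.1 hj
    exact haY i
  have hcard : (s.card : ℝ) = n := by simp [hs_def]
  have hB1 : 1 ≤ B := by
    have := Real.sqrt_nonneg (n : ℝ)
    simp only [B]
    linarith
  have hgap := numeric_gap n hn
  have hBn : B ≤ (n : ℝ) := by
    by_contra h
    push Not at h
    have h0 : ((n : ℝ) - B) / (2 * (1 + 128 * B)) ≤ 0 :=
      div_nonpos_of_nonpos_of_nonneg (by linarith) (by linarith)
    have := Real.log_nonneg (show (1 : ℝ) ≤ 3 by norm_num)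
    have := Real.log_nonneg (show (1 : ℝ) ≤ (n : ℝ) by linarith)
    simp only [B] at h0
    linarith
  obtain ⟨ξ, hξ, hint, hlow⟩ := exists_conjugate (a := a) (yv_sq n) (yv_ne_one n) hapos hB1
    (fun m => by convert count_trivial n m) s hs (by rw [hcard]; exact hBn)
  have hXsa := isSelfAdjoint_model n a
  refine ⟨3 + n, L2 (Bas G3 (3 + n)), inferInstance, inferInstance, inferInstance, omega,
    Xop (yv n) a, Sop, Nat.lt_of_lt_of_le (by norm_num) (Nat.le_add_right 3 n), fun j => ⟨hXsa j, isSelfAdjoint_Sop j⟩,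
    isFaithfulTrace_model (yv_sq n) (closure_yv n), isFreeSemicircularFrom_model,
    bot_lt_chi _ _ a hapos (vstate_monom_X (yv_sq n)), ξ, hξ, hint, ?_⟩
  have hV' : (0 : ℝ) < 1 + 4 / n := by positivity
  have hup := chi_le (omega : L2 (Bas G3 (3 + n))) norm_omega (Xop (yv n) a) (decodeWord n)
    (fun i => by rw [decodeWord, ← List.map_reverse, midWord_reverse])
    (fun i z hz => by
      obtain ⟨c, -, rfl⟩ := List.mem_map.1 hz
      exact ⟨c, rfl⟩)
    (V := 3) (V' := 1 + 4 / n) (by norm_num) hV'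
    (fun c => by
      rw [vstate_monom_X (yv_sq n), Complex.ofReal_re, amp_pair _ _ _ (yv_sq n _)]
      simp only [haZ]
      have : ε ≤ 1 := by
        rw [hε, div_le_one (by positivity)]
        nlinarith [pow_le_pow_left₀ (by norm_num) (show (1 : ℝ) ≤ n by linarith) 3]
      nlinarith)
    (fun i => by
      rw [quad_eq_norm_sq _ _ hXsa _ _ (by rw [decodeWord, ← List.map_reverse, midWord_reverse])]
      have h1 := decode_close n hεpos.le a haZ haY i
      have hiL : ((4 * (i : ℕ) + 5 : ℕ) : ℝ) ≤ 9 * n := by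
        have : (i : ℝ) ≤ n := by exact_mod_cast i.isLt.le
        push_cast
        linarith
      have hεn : ε * n = 1 / (n : ℝ) ^ 2 := by rw [hε]; field_simp
      have hu0 : 0 ≤ 2 * ε * ((4 * (i : ℕ) + 5 : ℕ) : ℝ) := by positivity
      have hu1 : 2 * ε * ((4 * (i : ℕ) + 5 : ℕ) : ℝ) ≤ 18 * (1 / (n : ℝ) ^ 2) := by
        calc 2 * ε * ((4 * (i : ℕ) + 5 : ℕ) : ℝ) ≤ 2 * ε * (9 * n) :=
              mul_le_mul_of_nonneg_left hiL (by linarith)
          _ = 18 * (1 / (n : ℝ) ^ 2) := by rw [← hεn]; ring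
      have hnn : 36 * (1 / (n : ℝ) ^ 2) ≤ 1 / n := by
        rw [mul_one_div, div_le_div_iff₀ (by positivity) hn0]
        nlinarith
      have hn1 : 1 / (n : ℝ) ≤ 1 / 36 := one_div_le_one_div_of_le (by norm_num) hn36
      have h2 : (1 + 2 * ε) ^ (4 * (i : ℕ) + 5) - 1 ≤ 1 / (n : ℝ) := by
        have h3 : (1 + 2 * ε) ^ (4 * (i : ℕ) + 5)
            ≤ Real.exp (2 * ε * ((4 * (i : ℕ) + 5 : ℕ) : ℝ)) := by
          rw [mul_comm (2 * ε), Real.exp_nat_mul]
          exact pow_le_pow_left₀ (by linarith)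
            ((add_comm _ _).trans_le (Real.add_one_le_exp _)) _
        have h4 := Real.abs_exp_sub_one_le (x := 2 * ε * ((4 * (i : ℕ) + 5 : ℕ) : ℝ))
          (by rw [abs_of_nonneg hu0]; linarith)
        rw [abs_of_nonneg hu0] at h4
        linarith [le_abs_self (Real.exp (2 * ε * ((4 * (i : ℕ) + 5 : ℕ) : ℝ)) - 1)]
      have h5 := pow_le_pow_left₀ (norm_nonneg _) (h1.trans (add_le_add le_rfl h2)) 2
      refine lt_of_le_of_lt h5 ?_
      have h6 : (1 / (n : ℝ)) ^ 2 < 2 / n := by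
        rw [div_pow, one_pow, div_lt_div_iff₀ (by positivity) hn0]
        nlinarith
      have h7 : (4 : ℝ) / n = 2 / n + 2 * (1 / n) := by ring
      nlinarith)
  refine lt_of_le_of_lt hup ?_
  rw [EReal.coe_lt_coe_iff]
  have hsum : ∑ j, Real.log (a j) = -9 * Real.log n := by
    rw [Fin.sum_univ_add]
    simp only [haZ, haY, Real.log_one, Finset.sum_const, Finset.card_univ, Fintype.card_fin,
      smul_zero, add_zero, nsmul_eq_mul, hε, Real.log_div one_ne_zero (pow_ne_zero 3 hn0.ne'),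
      Real.log_pow, zero_sub]
    push_cast
    ring
  have hp : (0 : ℝ) < 2 * Real.pi * Real.exp 1 := by positivity
  have hlogV' : Real.log (1 + 4 / n) ≤ 4 / n := by
    have := Real.log_le_sub_one_of_pos hV'
    linarith
  have hmul : (n : ℝ) / 2 * Real.log (1 + 4 / n) ≤ 2 := by
    calc (n : ℝ) / 2 * Real.log (1 + 4 / n) ≤ (n : ℝ) / 2 * (4 / n) :=
          mul_le_mul_of_nonneg_left hlogV' (by positivity)
      _ = 2 := by field_simp; ring
  rw [Real.log_mul hp.ne' (by norm_num : (3 : ℝ) ≠ 0), Real.log_mul hp.ne' hV'.ne']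
  rw [hsum, hcard] at hlow
  push_cast at hlow ⊢
  simp only [B] at hlow
  linarith

theorem main_counterexample :
    ∃ (N : ℕ) (H : Type) (_ : NormedAddCommGroup H) (_ : InnerProductSpace ℂ H)
      (_ : CompleteSpace H) (Ω : H) (X S : Fin N → H →L[ℂ] H),
      0 < N ∧ (∀ j, IsSelfAdjoint (X j) ∧ IsSelfAdjoint (S j)) ∧
      IsFaithfulTrace Ω (vnGen (Set.range X ∪ Set.range S)) ∧
      IsFreeSemicircularFrom Ω X S ∧
      ⊥ < chi Ω X ∧
      ∃ ξ : ℝ → Fin N → H,
        (∀ t : ℝ, 0 < t → ∀ j, IsConjugateVar Ω (addSemicircular X S t) j (ξ t j)) ∧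
        IntegrableOn (fun t : ℝ => (N : ℝ) / (1 + t) - ∑ j, ‖ξ t j‖ ^ 2) (Set.Ioi 0) ∧
        chi Ω X < ((1 / 2 * ∫ t in Set.Ioi (0 : ℝ), ((N : ℝ) / (1 + t) - ∑ j, ‖ξ t j‖ ^ 2))
            + (N : ℝ) / 2 * Real.log (2 * Real.pi * Real.exp 1) : ℝ) := by
  exact model_gap (10 ^ 12) rfl _ rfl

end Vale.Agent.P087
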