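import Mathlib

/-! # P087 — partial permutation operators on `ℓ²` -/

noncomputable section

open scoped InnerProductSpace lp ENNReal Classical

namespace Vale.Agent.P087

/-- `ℓ²(β)` over `ℂ`. -/
abbrev L2 (β : Type) := lp (fun _ : β => ℂ) 2

variable {β : Type}

/-- The basis vector at `b`. -/
def dl (b : β) : L2 β := lp.single 2 b 1

/-- A partial map which is injective where defined. -/
def PInj (h : β → Option β) : Prop :=
  ∀ ⦃a a' b⦄, h a = some b → h a' = some b → a = a'

/-- `ψ ↦ (b ↦ ψ (h b))`, zero where `h` is undefined. -/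
def pullFun (h : β → Option β) (ψ : β → ℂ) : β → ℂ := fun b => (h b).elim 0 ψ

theorem memℓp_pullFun {h : β → Option β} (hh : PInj h) (ψ : L2 β) :
    Memℓp (pullFun h ψ) 2 ∧
      (∀ s : Finset β, ∑ b ∈ s, ‖pullFun h ψ b‖ ^ 2 ≤ ‖ψ‖ ^ 2) := by
  have key : ∀ s : Finset β, ∑ b ∈ s, ‖pullFun h ψ b‖ ^ 2 ≤ ‖ψ‖ ^ 2 := by
    intro s
    have h1 : ∀ t : Finset β, ∑ b ∈ t, ‖ψ b‖ ^ 2 ≤ ‖ψ‖ ^ 2 := by
      intro t
      have := lp.sum_rpow_le_norm_rpow (p := 2) (by norm_num) ψ t
      simpa using this
    calc ∑ b ∈ s, ‖pullFun h ψ b‖ ^ 2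
        = ∑ b ∈ s.filter (fun b => (h b).isSome), ‖pullFun h ψ b‖ ^ 2 := by
          refine (Finset.sum_filter_of_ne fun b _ hb => ?_).symm
          cases hc : h b with
          | none => exact absurd (by simp [pullFun, hc]) hb
          | some c => rfl
      _ = ∑ c ∈ (s.filter (fun b => (h b).isSome)).image (fun b => (h b).getD b), ‖ψ c‖ ^ 2 := by
          rw [Finset.sum_image]
          · refine Finset.sum_congr rfl fun b hb => ?_
            obtain ⟨c, hc⟩ := Option.isSome_iff_exists.1 (Finset.mem_filter.1 hb).2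
            simp [pullFun, hc]
          · intro a ha a' ha' heq
            obtain ⟨c, hc⟩ := Option.isSome_iff_exists.1 (Finset.mem_filter.1 ha).2
            obtain ⟨c', hc'⟩ := Option.isSome_iff_exists.1 (Finset.mem_filter.1 ha').2
            simp only [hc, hc', Option.getD_some] at heq
            exact hh hc (heq ▸ hc')
      _ ≤ ‖ψ‖ ^ 2 := h1 _
  refine ⟨memℓp_gen' (C := ‖ψ‖ ^ 2) fun s => ?_, key⟩
  simpa using key s

/-- The operator of a partial injection. -/
def pull (h : β → Option β) (hh : PInj h) : L2 β →L[ℂ] L2 β :=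
  LinearMap.mkContinuous
    { toFun := fun ψ => ⟨pullFun h ψ, (memℓp_pullFun hh ψ).1⟩
      map_add' := fun ψ φ => by
        ext b
        show pullFun h ((ψ + φ : L2 β) : β → ℂ) b = pullFun h ψ b + pullFun h φ b
        rw [lp.coeFn_add]
        cases hc : h b <;> simp [pullFun, hc]
      map_smul' := fun c ψ => by
        ext b
        show pullFun h ((c • ψ : L2 β) : β → ℂ) b = c * pullFun h ψ b
        cases hc : h b <;> simp [pullFun, hc] }
    1 (fun ψ => by
      rw [one_mul]
      refine lp.norm_le_of_forall_sum_le (p := 2) (by norm_num) (norm_nonneg _) fun s => ?_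
      simpa using (memℓp_pullFun hh ψ).2 s)

@[simp] theorem pull_apply {h : β → Option β} (hh : PInj h) (ψ : L2 β) (b : β) :
    pull h hh ψ b = (h b).elim 0 ψ := rfl

theorem norm_pull_le {h : β → Option β} (hh : PInj h) : ‖pull h hh‖ ≤ 1 :=
  LinearMap.mkContinuous_norm_le _ zero_le_one _

theorem dl_apply (b c : β) : dl b c = if c = b then 1 else 0 := by
  simp [dl, lp.single_apply, Pi.single_apply]

theorem inner_dl_left (b : β) (ψ : L2 β) : ⟪dl b, ψ⟫_ℂ = ψ b := by
  rw [dl, lp.inner_single_left]
  simp

theorem norm_dl (b : β) : ‖dl b‖ = 1 := by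
  rw [dl, lp.norm_single (by norm_num)]
  simp

/-- Two partial injections inverse to each other give mutually adjoint operators. -/
theorem inner_pull {h h' : β → Option β} (hh : PInj h) (hh' : PInj h')
    (hinv : ∀ a b, h a = some b ↔ h' b = some a) (ψ φ : L2 β) :
    ⟪pull h hh ψ, φ⟫_ℂ = ⟪ψ, pull h' hh' φ⟫_ℂ := by
  have e : ∀ b : β, pull h' hh' φ b = ⟪pull h hh (dl b), φ⟫_ℂ := by
    intro b
    cases hc : h' b with
    | none =>
      have : pull h hh (dl b) = 0 := by
        ext a
        rw [pull_apply, lp.coeFn_zero, Pi.zero_apply]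
        cases ha : h a with
        | none => rfl
        | some c =>
          simp only [Option.elim_some, dl_apply]
          rw [if_neg]
          rintro rfl
          rw [(hinv a c).1 ha] at hc
          simp at hc
      simp [pull_apply, hc, this]
    | some a =>
      have : pull h hh (dl b) = dl a := by
        ext a'
        rw [pull_apply, dl_apply]
        cases ha : h a' with
        | none =>
          rw [if_neg]
          · rfl
          rintro rfl
          rw [(hinv a' b).2 hc] at ha
          simp at ha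
        | some c =>
          simp only [Option.elim_some, dl_apply]
          refine if_congr ⟨?_, ?_⟩ rfl rfl
          · rintro rfl
            exact hh ha ((hinv a c).2 hc)
          · rintro rfl
            exact Option.some.inj (((hinv a' b).2 hc) ▸ ha).symm
      simp [pull_apply, hc, this, inner_dl_left]
  have hψ : HasSum (fun b => ψ b • dl b) ψ := by
    convert lp.hasSum_single (p := 2) (by norm_num) ψ using 1
    ext b : 1
    rw [dl, ← lp.single_smul]
    simp
  have h1 := ((pull h hh).hasSum hψ)
  have h2 : HasSum (fun b => ⟪pull h hh (ψ b • dl b), φ⟫_ℂ) ⟪pull h hh ψ, φ⟫_ℂ := by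
    have h3 := h1.map ((innerSL ℂ φ).toLinearMap.toAddMonoidHom) (innerSL ℂ φ).continuous
    have h4 := h3.map (starRingEnd ℂ).toAddMonoidHom RCLike.continuous_conj
    convert h4 using 1
    · funext b
      simp [inner_smul_left, mul_comm]
    · simp
  have h5 : HasSum (fun b => ⟪pull h hh (ψ b • dl b), φ⟫_ℂ) ⟪ψ, pull h' hh' φ⟫_ℂ := by
    have h6 := lp.hasSum_inner (𝕜 := ℂ) ψ (pull h' hh' φ)
    refine h6.congr_fun fun b => ?_
    rw [map_smul, inner_smul_left, e b, RCLike.inner_apply]
    ring
  exact h2.unique h5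

end Vale.Agent.P087
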