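import Vale.Agent.P087.Defs
import Vale.Agent.P087.Rec
import Vale.Agent.P087.Op

/-! # P087 — the model: `ℓ²(G × lists)`, the free product of `L(G)` with `2N` semicirculars

A basis vector `(g₀, [(c₁, g₁), …, (c_r, g_r)])` stands for `g₀ e_{c₁} g₁ ⋯ e_{c_r} g_r`. -/

noncomputable section

open scoped InnerProductSpace lp ENNReal Classical

namespace Vale.Agent.P087

variable {G : Type} [Group G] {N : ℕ}

/-- The index set of the basis. -/
abbrev Bas (G : Type) (N : ℕ) := G × List ((Fin N × Bool) × G)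

/-- Left translation by `g`, as a partial map (`pull` of it sends `δ_(h,l)` to `δ_(g h, l)`). -/
def leftMap (g : G) : Bas G N → Option (Bas G N) := fun b => some (g⁻¹ * b.1, b.2)

theorem pinj_leftMap (g : G) : PInj (leftMap (N := N) g) := by
  rintro ⟨a, l⟩ ⟨a', l'⟩ b h h'
  simp only [leftMap, Option.some.injEq] at h h'
  obtain ⟨h1, h2⟩ := Prod.ext_iff.1 (h.trans h'.symm)
  simp_all

/-- Creation `δ_(g,l) ↦ δ_(1,(c,g)::l)`. -/
def crMap (c : Fin N × Bool) : Bas G N → Option (Bas G N)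
  | (g₀, (c', g) :: l) => if g₀ = 1 ∧ c' = c then some (g, l) else none
  | (_, []) => none

/-- Annihilation. -/
def anMap (c : Fin N × Bool) : Bas G N → Option (Bas G N) :=
  fun b => some (1, (c, b.1) :: b.2)

theorem crMap_eq_some_iff (c : Fin N × Bool) (a b : Bas G N) :
    crMap c a = some b ↔ anMap c b = some a := by
  obtain ⟨g₀, l⟩ := a
  cases l with
  | nil => simp [crMap, anMap]
  | cons p l =>
    obtain ⟨c', g⟩ := p
    by_cases hg : g₀ = 1 ∧ c' = c
    · obtain ⟨rfl, rfl⟩ := hg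
      simp only [crMap, anMap, and_self, if_true, Option.some.injEq]
      constructor
      · intro h
        rw [← h]
      · intro h
        simp only [Prod.ext_iff, List.cons.injEq, true_and] at h
        exact Prod.ext h.1.symm h.2.symm
    · simp only [crMap, anMap, if_neg hg, reduceCtorEq, false_iff, Option.some.injEq]
      intro h
      simp only [Prod.mk.injEq, List.cons.injEq] at h
      exact hg ⟨h.1.symm, h.2.1.1.symm⟩

theorem pinj_anMap (c : Fin N × Bool) : PInj (anMap (G := G) c) := by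
  rintro ⟨a, l⟩ ⟨a', l'⟩ b h h'
  simp only [anMap, Option.some.injEq] at h h'
  have h2 := h.trans h'.symm
  simp only [Prod.ext_iff, List.cons.injEq, true_and] at h2
  exact Prod.ext h2.1 h2.2

theorem pinj_crMap (c : Fin N × Bool) : PInj (crMap (G := G) c) := by
  intro a a' b h h'
  rw [crMap_eq_some_iff] at h h'
  exact Option.some.inj (h.symm.trans h')

/-- `λ(g)`. -/
def gOp (g : G) : L2 (Bas G N) →L[ℂ] L2 (Bas G N) := pull (leftMap g) (pinj_leftMap g)

/-- The semicircular element `s_c = l_c + l_c*`. -/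
def sOp (c : Fin N × Bool) : L2 (Bas G N) →L[ℂ] L2 (Bas G N) :=
  pull (crMap c) (pinj_crMap c) + pull (anMap c) (pinj_anMap c)

/-- The vacuum. -/
def omega : L2 (Bas G N) := dl (1, [])

/-- `X_k = y_k + a_k s'_k`. -/
def Xop (y : Fin N → G) (a : Fin N → ℝ) (k : Fin N) : L2 (Bas G N) →L[ℂ] L2 (Bas G N) :=
  gOp (y k) + (a k : ℂ) • sOp (k, false)

/-- `S_k = s''_k`. -/
def Sop (k : Fin N) : L2 (Bas G N) →L[ℂ] L2 (Bas G N) := sOp (k, true)

/-- The weight of a leg in `X + √t S`. -/
def wgt (a : Fin N → ℝ) (t : ℝ) (c : Fin N × Bool) : ℝ :=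
  if c.2 then Real.sqrt t else a c.1

theorem norm_gOp_le (g : G) : ‖(gOp g : L2 (Bas G N) →L[ℂ] L2 (Bas G N))‖ ≤ 1 :=
  norm_pull_le _

theorem norm_sOp_le (c : Fin N × Bool) :
    ‖(sOp c : L2 (Bas G N) →L[ℂ] L2 (Bas G N))‖ ≤ 2 := by
  refine (norm_add_le _ _).trans ?_
  linarith [norm_pull_le (pinj_crMap (G := G) c), norm_pull_le (pinj_anMap (G := G) c)]

theorem norm_omega : ‖(omega : L2 (Bas G N))‖ = 1 := norm_dl _

end Vale.Agent.P087
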