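import Vale.Agent.P087.Model

/-! # P087 — coordinates of `(X + √t S)_w Ω` -/

noncomputable section

open scoped InnerProductSpace lp ENNReal Classical

namespace Vale.Agent.P087

variable {G : Type} [Group G] {N : ℕ} {y : Fin N → G} {a : Fin N → ℝ}

theorem monom_cons {H : Type*} [NormedAddCommGroup H] [InnerProductSpace ℂ H]
    (X : Fin N → H →L[ℂ] H) (k : Fin N) (w : List (Fin N)) (v : H) :
    monom X (k :: w) v = X k (monom X w v) := by
  simp [monom]

theorem cut_add {ι R : Type*} [AddCommMonoid R] (i : ι) : ∀ (w : List ι)
    (F F' : List ι → List ι → R),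
    cut i w (fun u v => F u v + F' u v) = cut i w F + cut i w F'
  | [], _, _ => by simp [cut]
  | k :: w, F, F' => by
      rw [cut, cut, cut, cut_add i w]
      split <;> simp [add_assoc, add_left_comm]

theorem cut_mul_left {ι : Type*} (i : ι) : ∀ (w : List ι) (c : ℝ) (F : List ι → List ι → ℝ),
    cut i w (fun u v => c * F u v) = c * cut i w F
  | [], c, F => by simp [cut]
  | k :: w, c, F => by
      rw [cut, cut, cut_mul_left i w]
      split <;> simp [mul_add]

theorem cut_mul_right {ι : Type*} (i : ι) : ∀ (w : List ι) (c : ℝ) (F : List ι → List ι → ℝ),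
    cut i w (fun u v => F u v * c) = cut i w F * c
  | [], c, F => by simp [cut]
  | k :: w, c, F => by
      rw [cut, cut, cut_mul_right i w]
      split <;> simp [add_mul]

theorem cut_zero {ι R : Type*} [AddCommMonoid R] (i : ι) : ∀ (w : List ι),
    cut i w (fun _ _ => (0 : R)) = 0
  | [] => rfl
  | k :: w => by rw [cut, cut_zero i w]; simp

/-- Two successive cuts in either bracketing. -/
theorem cut_cut_assoc {ι : Type*} (i j : ι) : ∀ (w : List ι) (F : List ι → List ι → List ι → ℝ),
    cut j w (fun u v => cut i v (F u)) = cut i w (fun e d => cut j e (fun u c => F u c d))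
  | [], F => by simp [cut]
  | k :: w, F => by
      rw [cut, cut, cut_cut_assoc i j w]
      simp only [cut]
      rw [cut_add]
      by_cases h : k = j
      · simp [h]
      · simp only [if_neg h]
        rw [cut_zero]
        simp

/-- One step of the coordinate recursion. -/
theorem coefG_cons (y : Fin N → G) (v : Fin N → ℝ) (g : G) (l : List (Fin N × G)) (k : Fin N)
    (w : List (Fin N)) :
    coefG y v g l (k :: w)
      = (match l with
          | [] => 0
          | (i, h) :: l' => if g = 1 ∧ i = k then coefG y v h l' w else 0)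
        + coefG y v (y k * g) l w + v k * coefG y v 1 ((k, g) :: l) w := by
  cases l with
  | nil =>
    show amp y v g (k :: w) = _
    rw [amp_cons, zero_add]
    rfl
  | cons p l =>
    obtain ⟨i, h⟩ := p
    show cut i (k :: w) (fun u r => amp y v g u * coefG y v h l r) = _
    rw [cut]
    simp only [amp_cons, add_mul]
    rw [cut_add]
    have h1 : (cut i w fun u r => v k * cut k u (fun c d => amp y v 1 c * amp y v g d)
          * coefG y v h l r) = v k * coefG y v 1 ((k, g) :: (i, h) :: l) w := by
      show _ = v k * cut k w (fun u r => amp y v 1 u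
        * cut i r (fun c d => amp y v g c * coefG y v h l d))
      simp only [← cut_mul_left, ← cut_mul_right]
      rw [cut_cut_assoc]
      refine cut_congr i w fun u r _ => cut_congr k u fun c d _ => ?_
      ring
    rw [h1, ← add_assoc]
    congr 2
    by_cases hg : g = 1 <;> by_cases hk : k = i <;> simp [amp_nil, hg, hk, eq_comm]

/-- The coordinate at `(g, l)` of `(X + √t S)_w Ω`. -/
theorem monom_omega_apply (hy : ∀ k, y k * y k = 1) {t : ℝ} (ht : 0 ≤ t) (w : List (Fin N))
    (g : G) (l : List ((Fin N × Bool) × G)) :
    (monom (addSemicircular (Xop y a) Sop t) w omega) (g, l)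
      = (((l.map fun p => wgt a t p.1).prod
          * coefG y (fun k => a k ^ 2 + t) g (l.map fun p => (p.1.1, p.2)) w : ℝ) : ℂ) := by
  induction w generalizing g l with
  | nil =>
    simp only [monom, List.map_nil, List.prod_nil, one_apply_eq_self, omega, dl_apply]
    cases l with
    | nil => by_cases hg : g = 1 <;> simp [coefG, amp_nil, hg]
    | cons p l => simp [coefG, cut]
  | cons k w ih =>
    rw [monom_cons]
    set ψ := monom (addSemicircular (Xop y a) Sop t) w omega
    have hinv : (y k)⁻¹ = y k := inv_eq_of_mul_eq_one_right (hy k)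
    simp only [addSemicircular, Xop, Sop, sOp, gOp, add_apply,
      smul_apply, lp.coeFn_add, lp.coeFn_smul, Pi.add_apply, Pi.smul_apply,
      smul_eq_mul, pull_apply, leftMap, anMap, Option.elim_some, ih, hinv, coefG_cons]
    cases l with
    | nil =>
      simp only [crMap, Option.elim_none, wgt, List.map_cons, List.map_nil, List.prod_cons,
        List.prod_nil, mul_one, one_mul, Bool.false_eq_true, if_false, if_true]
      push_cast
      have hs : ((Real.sqrt t : ℝ) : ℂ) * (Real.sqrt t : ℝ) = (t : ℂ) := by
        rw [← Complex.ofReal_mul, Real.mul_self_sqrt ht]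
      linear_combination (coefG y (fun k => a k ^ 2 + t) 1 [(k, g)] w : ℂ) * hs
    | cons p l =>
      obtain ⟨⟨i, b⟩, h⟩ := p
      have hs : ((Real.sqrt t : ℝ) : ℂ) * (Real.sqrt t : ℝ) = (t : ℂ) := by
        rw [← Complex.ofReal_mul, Real.mul_self_sqrt ht]
      have key : ∀ c : Bool,
          (crMap (k, c) (g, ((i, b), h) :: l)).elim 0 (ψ : Bas G N → ℂ)
            = if g = 1 ∧ i = k ∧ b = c then (((l.map fun p => wgt a t p.1).prod
                * coefG y (fun k => a k ^ 2 + t) h (l.map fun p => (p.1.1, p.2)) w : ℝ) : ℂ)
              else 0 := by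
        intro c
        simp only [crMap, Prod.mk.injEq]
        split <;> simp [ih]
      simp only [key, List.map_cons, List.prod_cons]
      have hwf : wgt a t (k, false) = a k := rfl
      have hwt : wgt a t (k, true) = Real.sqrt t := rfl
      by_cases hgk : g = 1 ∧ i = k
      · obtain ⟨rfl, rfl⟩ := hgk
        cases b
        · simp [hwf, hwt]
          linear_combination (a i : ℂ) * ((l.map fun p => wgt a t p.1).prod : ℂ)
            * (coefG y (fun k => a k ^ 2 + t) 1
              ((i, 1) :: (i, h) :: l.map fun p => (p.1.1, p.2)) w : ℂ) * hs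
        · simp [hwf, hwt]
          linear_combination (Real.sqrt t : ℂ) * ((l.map fun p => wgt a t p.1).prod : ℂ)
            * (coefG y (fun k => a k ^ 2 + t) 1
              ((i, 1) :: (i, h) :: l.map fun p => (p.1.1, p.2)) w : ℂ) * hs
      · have hn : ∀ c : Bool, ¬(g = 1 ∧ i = k ∧ b = c) := fun c hh => hgk ⟨hh.1, hh.2.1⟩
        simp only [hn, hgk, if_false, hwf, hwt]
        push_cast
        linear_combination ((wgt a t (i, b) : ℝ) : ℂ) * ((l.map fun p => wgt a t p.1).prod : ℂ)
            * (coefG y (fun k => a k ^ 2 + t) 1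
              ((k, g) :: (i, h) :: l.map fun p => (p.1.1, p.2)) w : ℂ) * hs

/-- The same for `X` itself. -/
theorem vstate_monom_X (hy : ∀ k, y k * y k = 1) (w : List (Fin N)) :
    vstate omega (monom (Xop y a) w) = (amp y (fun k => a k ^ 2) 1 w : ℂ) := by
  have h : addSemicircular (Xop y a) Sop 0 = (Xop y a : Fin N → L2 (Bas G N) →L[ℂ] _) := by
    funext j
    simp [addSemicircular]
  have := monom_omega_apply (a := a) hy le_rfl w (1 : G) []
  rw [h] at this
  simpa [vstate, omega, inner_dl_left, coefG] using this

/-- Moments of `X + √t S`. -/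
theorem vstate_monom_XS (hy : ∀ k, y k * y k = 1) {t : ℝ} (ht : 0 ≤ t) (w : List (Fin N)) :
    vstate omega (monom (addSemicircular (Xop y a) Sop t) w)
      = (amp y (fun k => a k ^ 2 + t) 1 w : ℂ) := by
  have := monom_omega_apply (a := a) hy ht w (1 : G) []
  simpa [vstate, omega, inner_dl_left, coefG] using this

end Vale.Agent.P087
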