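import Vale.Agent.P087.Model

/-! # P087 — the vacuum is a faithful trace on the generated von Neumann algebra

Route: explicit right operators (right translation, creation and annihilation at the far end)
commute with the left ones; `R_x Ω = x Ω` for each generator, and their words applied to `Ω` are dense. -/

noncomputable section

open scoped InnerProductSpace lp ENNReal Classical

namespace Vale.Agent.P087

variable {G : Type} [Group G] {N : ℕ} {y : Fin N → G} {a : Fin N → ℝ}

/-- Pulling a basis vector back. -/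
theorem pull_dl {β : Type} {h h' : β → Option β} (hh : PInj h)
    (hinv : ∀ u v, h u = some v ↔ h' v = some u) (b : β) :
    pull h hh (dl b) = (h' b).elim 0 dl := by
  ext u
  rw [pull_apply]
  cases hu : h u with
  | none =>
    cases hb : h' b with
    | none => simp
    | some w =>
      simp only [Option.elim_none, Option.elim_some, dl_apply]
      rw [if_neg]
      rintro rfl
      simp [(hinv u b).2 hb] at hu
  | some v =>
    simp only [Option.elim_some, dl_apply]
    by_cases hv : v = b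
    · subst hv
      simp [(hinv u v).1 hu, dl_apply]
    · rw [if_neg hv]
      cases hb : h' b with
      | none => simp
      | some w =>
        simp only [Option.elim_some, dl_apply]
        rw [if_neg]
        rintro rfl
        exact hv (Option.some.inj (hu.symm.trans ((hinv u b).2 hb)))

theorem hasSum_dl {β : Type} (ψ : L2 β) : HasSum (fun b => ψ b • dl b) ψ := by
  convert lp.hasSum_single (p := 2) (by norm_num) ψ using 1
  ext b : 1
  rw [dl, ← lp.single_smul]
  simp

theorem leftMap_inv (g : G) (u v : Bas G N) :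
    leftMap g u = some v ↔ leftMap g⁻¹ v = some u := by
  obtain ⟨u₁, u₂⟩ := u
  obtain ⟨v₁, v₂⟩ := v
  simp only [leftMap, Option.some.injEq, Prod.mk.injEq, inv_inv]
  constructor <;> rintro ⟨rfl, rfl⟩ <;> simp

theorem inner_gOp (g : G) (ψ φ : L2 (Bas G N)) :
    ⟪gOp g ψ, φ⟫_ℂ = ⟪ψ, gOp g⁻¹ φ⟫_ℂ :=
  inner_pull _ _ (leftMap_inv g) ψ φ

theorem inner_sOp (c : Fin N × Bool) (ψ φ : L2 (Bas G N)) :
    ⟪sOp c ψ, φ⟫_ℂ = ⟪ψ, sOp c φ⟫_ℂ := by
  have h1 := inner_pull (pinj_crMap (G := G) c) (pinj_anMap c) (crMap_eq_some_iff c) ψ φ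
  have h2 := inner_pull (pinj_anMap (G := G) c) (pinj_crMap c)
    (fun u v => (crMap_eq_some_iff c v u).symm) ψ φ
  simp only [sOp, add_apply, inner_add_left, inner_add_right]
  rw [h1, h2, add_comm]

theorem inv_eq_of_sq (hy : ∀ k, y k * y k = 1) (k : Fin N) : (y k)⁻¹ = y k :=
  inv_eq_of_mul_eq_one_right (hy k)

theorem isSelfAdjoint_Xop (hy : ∀ k, y k * y k = 1) (k : Fin N) : IsSelfAdjoint (Xop y a k) := by
  rw [ContinuousLinearMap.isSelfAdjoint_iff_isSymmetric]
  intro ψ φ
  show ⟪Xop y a k ψ, φ⟫_ℂ = ⟪ψ, Xop y a k φ⟫_ℂ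
  simp only [Xop, add_apply, smul_apply, inner_add_left,
    inner_add_right, inner_smul_left, inner_smul_right, Complex.conj_ofReal, inner_sOp]
  rw [inner_gOp, inv_eq_of_sq hy]

theorem isSelfAdjoint_Sop (k : Fin N) :
    IsSelfAdjoint (Sop k : L2 (Bas G N) →L[ℂ] L2 (Bas G N)) := by
  rw [ContinuousLinearMap.isSelfAdjoint_iff_isSymmetric]
  intro ψ φ
  exact inner_sOp _ ψ φ

/-! ## The right operators -/

/-- A head put in front of a basis index. -/
def push (g₀ : G) (c : Fin N × Bool) (b : Bas G N) : Bas G N := (g₀, (c, b.1) :: b.2)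

omit [Group G] in
theorem exists_push (b : Bas G N) :
    (∃ g, b = (g, [])) ∨ ∃ g₀ c b', b = push g₀ c b' := by
  obtain ⟨g, l⟩ := b
  rcases l with _ | ⟨⟨c, g'⟩, l⟩
  · exact Or.inl ⟨g, rfl⟩
  · exact Or.inr ⟨g, c, (g', l), rfl⟩

/-- Right translation, in curried form. -/
def rTAux (g : G) : G → List ((Fin N × Bool) × G) → Bas G N
  | g₀, [] => (g₀ * g, [])
  | g₀, (c, g₁) :: l => push g₀ c (rTAux g g₁ l)

/-- Right translation. -/
def rT (g : G) (b : Bas G N) : Bas G N := rTAux g b.1 b.2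

@[simp] theorem rT_nil (g g₀ : G) : rT (N := N) g (g₀, []) = (g₀ * g, []) := rfl

@[simp] theorem rT_push (g g₀ : G) (c : Fin N × Bool) (b : Bas G N) :
    rT g (push g₀ c b) = push g₀ c (rT g b) := rfl

/-- A leg appended at the far end, in curried form. -/
def rAnAux (c : Fin N × Bool) : G → List ((Fin N × Bool) × G) → Bas G N
  | g₀, [] => push g₀ c (1, [])
  | g₀, (c', g₁) :: l => push g₀ c' (rAnAux c g₁ l)

/-- A leg appended at the far end. -/
def rAn (c : Fin N × Bool) (b : Bas G N) : Bas G N := rAnAux c b.1 b.2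

@[simp] theorem rAn_nil (c : Fin N × Bool) (g₀ : G) : rAn c (g₀, []) = push g₀ c (1, []) := rfl

@[simp] theorem rAn_push (c c' : Fin N × Bool) (g₀ : G) (b : Bas G N) :
    rAn c (push g₀ c' b) = push g₀ c' (rAn c b) := rfl

/-- The inverse of `rAn`, in curried form. -/
def rCrAux (c : Fin N × Bool) : G → List ((Fin N × Bool) × G) → Option (Bas G N)
  | _, [] => none
  | g₀, [(c', g₁)] => if g₁ = 1 ∧ c' = c then some (g₀, []) else none
  | g₀, (c', g₁) :: p :: l => (rCrAux c g₁ (p :: l)).map (push g₀ c')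

/-- The inverse of `rAn`. -/
def rCr (c : Fin N × Bool) (b : Bas G N) : Option (Bas G N) := rCrAux c b.1 b.2

@[simp] theorem rCr_nil (c : Fin N × Bool) (g₀ : G) : rCr c (g₀, []) = none := rfl

@[simp] theorem rCr_one (c c' : Fin N × Bool) (g₀ g₁ : G) :
    rCr c (push g₀ c' (g₁, [])) = if g₁ = 1 ∧ c' = c then some (g₀, []) else none := rfl

@[simp] theorem rCr_push_push (c c' c'' : Fin N × Bool) (g₀ g₁ : G) (b : Bas G N) :
    rCr c (push g₀ c' (push g₁ c'' b)) = (rCr c (push g₁ c'' b)).map (push g₀ c') := rfl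

omit [Group G] in
theorem push_inj {g₀ g₀' : G} {c c' : Fin N × Bool} {b b' : Bas G N} :
    push g₀ c b = push g₀' c' b' ↔ g₀ = g₀' ∧ c = c' ∧ b = b' := by
  obtain ⟨b₁, b₂⟩ := b
  obtain ⟨b₁', b₂'⟩ := b'
  simp [push, and_assoc]

omit [Group G] in
theorem nil_ne_push (g g₀ : G) (c : Fin N × Bool) (b : Bas G N) : (g, []) ≠ push g₀ c b := by
  simp [push]

theorem rT_rT (g g' : G) (b : Bas G N) : rT g' (rT g b) = rT (g * g') b := by
  obtain ⟨g₀, l⟩ := b
  induction l generalizing g₀ with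
  | nil => simp [mul_assoc]
  | cons p l ih =>
    show rT g' (rT g (push g₀ p.1 (p.2, l))) = rT (g * g') (push g₀ p.1 (p.2, l))
    simp [ih]

theorem rT_one (b : Bas G N) : rT 1 b = b := by
  obtain ⟨g₀, l⟩ := b
  induction l generalizing g₀ with
  | nil => simp
  | cons p l ih =>
    show rT 1 (push g₀ p.1 (p.2, l)) = push g₀ p.1 (p.2, l)
    simp [ih]

theorem rCr_iff (c : Fin N × Bool) (u v : Bas G N) : rCr c u = some v ↔ rAn c v = u := by
  obtain ⟨g₀, l⟩ := u
  induction l generalizing g₀ v with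
  | nil =>
    simp only [rCr_nil, reduceCtorEq, false_iff]
    rcases exists_push v with ⟨g, rfl⟩ | ⟨g, c', b', rfl⟩
    · rw [rAn_nil]; exact (nil_ne_push _ _ _ _).symm
    · rw [rAn_push]; exact (nil_ne_push _ _ _ _).symm
  | cons p l ih =>
    obtain ⟨c', g₁⟩ := p
    show rCr c (push g₀ c' (g₁, l)) = some v ↔ rAn c v = push g₀ c' (g₁, l)
    have hih := fun w => ih w g₁
    rcases l with _ | ⟨⟨c'', g₂⟩, l⟩
    · rw [rCr_one]
      rcases exists_push v with ⟨g, rfl⟩ | ⟨g, d, b', rfl⟩
      · rw [rAn_nil, push_inj]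
        by_cases h : g₁ = 1 ∧ c' = c
        · obtain ⟨rfl, rfl⟩ := h
          simp [eq_comm]
        · rw [if_neg h]
          simp only [reduceCtorEq, false_iff, Prod.mk.injEq, and_true]
          rintro ⟨_, h1, h2⟩
          exact h ⟨h2.symm, h1.symm⟩
      · rw [rAn_push, push_inj]
        have h := hih b'
        simp only [rCr_nil, reduceCtorEq, false_iff] at h
        have hne : ∀ o : Option (Bas G N), (if g₁ = 1 ∧ c' = c then some (g₀, []) else o)
            = some (push g d b') → o = some (push g d b') := by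
          intro o ho
          by_cases hc : g₁ = 1 ∧ c' = c
          · rw [if_pos hc] at ho
            exact absurd (Option.some.inj ho) (nil_ne_push _ _ _ _)
          · rwa [if_neg hc] at ho
        exact ⟨fun h' => absurd (hne none h') (by simp), fun h' => absurd h'.2.2 h⟩
    · show rCr c (push g₀ c' (push g₁ c'' (g₂, l))) = some v
          ↔ rAn c v = push g₀ c' (push g₁ c'' (g₂, l))
      rw [rCr_push_push, Option.map_eq_some_iff]
      constructor
      · rintro ⟨w, hw, rfl⟩
        rw [rAn_push, push_inj]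
        exact ⟨rfl, rfl, (hih w).1 hw⟩
      · intro h
        rcases exists_push v with ⟨g, rfl⟩ | ⟨g, d, b', rfl⟩
        · rw [rAn_nil, push_inj] at h
          exact absurd h.2.2 (nil_ne_push _ _ _ _)
        · rw [rAn_push, push_inj] at h
          obtain ⟨rfl, rfl, h⟩ := h
          exact ⟨b', (hih b').2 h, rfl⟩

theorem pinj_rT (g : G) : PInj (fun b : Bas G N => some (rT g b)) := by
  intro u u' v h h'
  have h2 : rT g u = rT g u' := Option.some.inj (h.trans h'.symm)
  have h3 := congrArg (rT g⁻¹) h2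
  rwa [rT_rT, rT_rT, mul_inv_cancel, rT_one, rT_one] at h3

theorem pinj_rCr (c : Fin N × Bool) : PInj (rCr (G := G) c) := by
  intro u u' v h h'
  rw [rCr_iff] at h h'
  exact h.symm.trans h'

theorem pinj_rAn (c : Fin N × Bool) : PInj (fun b : Bas G N => some (rAn c b)) := by
  intro u u' v h h'
  have h2 : rCr c v = some u := (rCr_iff c v u).2 (Option.some.inj h)
  have h3 : rCr c v = some u' := (rCr_iff c v u').2 (Option.some.inj h')
  exact Option.some.inj (h2.symm.trans h3)

/-- Right translation operator, `δ_b ↦ δ_(rT g b)`. -/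
def gR (g : G) : L2 (Bas G N) →L[ℂ] L2 (Bas G N) :=
  pull (fun b => some (rT g⁻¹ b)) (pinj_rT g⁻¹)

/-- The right semicircular operator. -/
def sR (c : Fin N × Bool) : L2 (Bas G N) →L[ℂ] L2 (Bas G N) :=
  pull (rCr c) (pinj_rCr c) + pull (fun b => some (rAn c b)) (pinj_rAn c)

theorem inner_gR (g : G) (ψ φ : L2 (Bas G N)) : ⟪gR g ψ, φ⟫_ℂ = ⟪ψ, gR g⁻¹ φ⟫_ℂ := by
  refine inner_pull _ _ (fun u v => ?_) ψ φ
  simp only [Option.some.injEq, inv_inv]
  constructor <;> rintro rfl <;> simp [rT_rT, rT_one]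

theorem inner_sR (c : Fin N × Bool) (ψ φ : L2 (Bas G N)) :
    ⟪sR c ψ, φ⟫_ℂ = ⟪ψ, sR c φ⟫_ℂ := by
  have e : ∀ u v : Bas G N, rCr c u = some v ↔ some (rAn c v) = some u := fun u v => by
    rw [Option.some.injEq]; exact rCr_iff c u v
  have h1 := inner_pull (pinj_rCr (G := G) c) (pinj_rAn c) e ψ φ
  have h2 := inner_pull (pinj_rAn (G := G) c) (pinj_rCr c) (fun u v => (e v u).symm) ψ φ
  simp only [sR, add_apply, inner_add_left, inner_add_right]
  rw [h1, h2, add_comm]

/-! ## Left and right operators commute -/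

theorem gOp_comm_gR (g g' : G) (ψ : L2 (Bas G N)) : gOp g (gR g' ψ) = gR g' (gOp g ψ) := by
  ext b
  simp only [gOp, gR, pull_apply, leftMap, Option.elim_some]
  rcases exists_push b with ⟨g₀, rfl⟩ | ⟨g₀, c, b', rfl⟩
  · simp [mul_assoc]
  · show ψ (rT g'⁻¹ (push (g⁻¹ * g₀) c b')) = _
    rw [rT_push, rT_push]
    rfl

theorem sOp_comm_gR (c : Fin N × Bool) (g' : G) (ψ : L2 (Bas G N)) :
    sOp c (gR g' ψ) = gR g' (sOp c ψ) := by
  ext b
  simp only [sOp, gR, add_apply, lp.coeFn_add, Pi.add_apply, pull_apply,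
    Option.elim_some]
  have hcr : crMap c (rT g'⁻¹ b) = (crMap c b).map (rT g'⁻¹) := by
    rcases exists_push b with ⟨g₀, rfl⟩ | ⟨g₀, c', b', rfl⟩
    · simp [crMap]
    · rw [rT_push]
      simp only [push, crMap]
      split <;> rfl
  have han : anMap c (rT g'⁻¹ b) = (anMap c b).map (rT g'⁻¹) := by
    show some (push 1 c (rT g'⁻¹ b)) = some (rT g'⁻¹ (push 1 c b))
    rw [rT_push]
  rw [hcr, han]
  cases crMap c b <;> cases anMap c b <;> simp [pull_apply]

theorem gOp_comm_sR (g : G) (c : Fin N × Bool) (ψ : L2 (Bas G N)) :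
    gOp g (sR c ψ) = sR c (gOp g ψ) := by
  ext b
  simp only [gOp, sR, add_apply, lp.coeFn_add, Pi.add_apply, pull_apply,
    Option.elim_some, leftMap]
  have han : rAn c (g⁻¹ * b.1, b.2) = (g⁻¹ * (rAn c b).1, (rAn c b).2) := by
    rcases exists_push b with ⟨g₀, rfl⟩ | ⟨g₀, c', b', rfl⟩ <;> rfl
  have hcr : rCr c (g⁻¹ * b.1, b.2) = (rCr c b).map fun x => (g⁻¹ * x.1, x.2) := by
    rcases exists_push b with ⟨g₀, rfl⟩ | ⟨g₀, c', b', rfl⟩
    · rfl
    · show rCr c (push (g⁻¹ * g₀) c' b') = _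
      rcases exists_push b' with ⟨g₁, rfl⟩ | ⟨g₁, c'', b'', rfl⟩
      · rw [rCr_one, rCr_one]
        split <;> rfl
      · rw [rCr_push_push, rCr_push_push, Option.map_map]
        rfl
  rw [han, hcr]
  cases rCr c b <;> simp [pull_apply, leftMap]

theorem crMap_push (c c' : Fin N × Bool) (g₀ : G) (x : Bas G N) :
    crMap c (push g₀ c' x) = if g₀ = 1 ∧ c' = c then some x else none := rfl

theorem rCr_crMap (c c' d : Fin N × Bool) (g₀ : G) (b : Bas G N) (f : Bas G N → ℂ) :
    (rCr d (push g₀ c' b)).elim 0 (fun x => (crMap c x).elim 0 f)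
      = if g₀ = 1 ∧ c' = c then (rCr d b).elim 0 f else 0 := by
  rcases exists_push b with ⟨g₁, rfl⟩ | ⟨g₁, c'', b', rfl⟩
  · rw [rCr_one, rCr_nil]
    by_cases h : g₁ = 1 ∧ c' = d
    · rw [if_pos h]
      simp [crMap]
    · rw [if_neg h]
      simp
  · rw [rCr_push_push]
    cases rCr d (push g₁ c'' b') with
    | none => simp
    | some x =>
      simp only [Option.map_some, Option.elim_some, crMap_push]
      split <;> rfl

theorem sOp_comm_sR (c d : Fin N × Bool) (ψ : L2 (Bas G N)) :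
    sOp c (sR d ψ) = sR d (sOp c ψ) := by
  ext b
  set f : Bas G N → ℂ := fun x => ψ x with hf
  have eR : ∀ u : Bas G N, (sR d ψ) u = (rCr d u).elim 0 f + f (rAn d u) := fun u => rfl
  have eL : ∀ u : Bas G N, (sOp c ψ) u = (crMap c u).elim 0 f + f (push 1 c u) := fun u => rfl
  show (crMap c b).elim 0 (fun x => (sR d ψ) x) + (sR d ψ) (push 1 c b)
    = (rCr d b).elim 0 (fun x => (sOp c ψ) x) + (sOp c ψ) (rAn d b)
  simp only [eR, eL]
  rcases exists_push b with ⟨g₀, rfl⟩ | ⟨g₀, c', b', rfl⟩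
  · rw [rAn_push, rAn_nil, rCr_one, rCr_nil, crMap_push]
    have h2 : crMap c (g₀, ([] : List ((Fin N × Bool) × G))) = none := rfl
    rw [h2]
    simp only [Option.elim_none, zero_add]
    by_cases h : g₀ = 1 ∧ d = c
    · obtain ⟨rfl, rfl⟩ := h
      simp
    · rw [if_neg h, if_neg (fun hh => h ⟨hh.1, hh.2.symm⟩)]
  · rw [rCr_push_push, rAn_push, rAn_push, crMap_push, crMap_push]
    have hsplit : (rCr d (push g₀ c' b')).elim 0
          (fun x => (crMap c x).elim 0 f + f (push 1 c x))
        = (rCr d (push g₀ c' b')).elim 0 (fun x => (crMap c x).elim 0 f)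
          + ((rCr d (push g₀ c' b')).map (push 1 c)).elim 0 f := by
      cases rCr d (push g₀ c' b') <;> simp
    rw [hsplit, rCr_crMap]
    by_cases h : g₀ = 1 ∧ c' = c
    · simp only [if_pos h, Option.elim_some]
      ring
    · simp only [if_neg h, Option.elim_none]
      ring

/-! ## Values on basis vectors -/

theorem gR_dl (g : G) (b : Bas G N) : gR g (dl b) = dl (rT g b) := by
  rw [gR, pull_dl (h' := fun x : Bas G N => some (rT g x)) _ (fun u v => ?_)]
  · rfl
  simp only [Option.some.injEq]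
  constructor <;> rintro rfl <;> simp [rT_rT, rT_one]

theorem gOp_dl (g : G) (b : Bas G N) : gOp g (dl b) = dl (g * b.1, b.2) := by
  rw [gOp, pull_dl (h' := leftMap g⁻¹) _ (leftMap_inv g)]
  simp [leftMap]

theorem sR_dl (c : Fin N × Bool) (b : Bas G N) :
    sR c (dl b) = dl (rAn c b) + (rCr c b).elim 0 dl := by
  have e : ∀ u v : Bas G N, rCr c u = some v ↔ some (rAn c v) = some u := fun u v => by
    rw [Option.some.injEq]; exact rCr_iff c u v
  rw [sR, add_apply, pull_dl (h' := fun x : Bas G N => some (rAn c x)) _ e,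
    pull_dl (h' := rCr c) _ (fun u v => (e v u).symm)]
  rfl

theorem sOp_dl (c : Fin N × Bool) (b : Bas G N) :
    sOp c (dl b) = dl (push 1 c b) + (crMap c b).elim 0 dl := by
  rw [sOp, add_apply, pull_dl (h' := anMap c) _ (crMap_eq_some_iff c),
    pull_dl (h' := crMap c) _ (fun u v => (crMap_eq_some_iff c v u).symm)]
  rfl

theorem sR_omega (c : Fin N × Bool) : sR c omega = sOp c (omega : L2 (Bas G N)) := by
  rw [omega, sR_dl, sOp_dl]
  rfl

/-- The right operator of a generator of the algebra. -/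
def Rgen (y : Fin N → G) (a : Fin N → ℝ) : Fin N ⊕ Fin N → (L2 (Bas G N) →L[ℂ] L2 (Bas G N))
  | .inl k => gR (y k) + (a k : ℂ) • sR (k, false)
  | .inr k => sR (k, true)

/-- A generator of the algebra. -/
def Lgen (y : Fin N → G) (a : Fin N → ℝ) : Fin N ⊕ Fin N → (L2 (Bas G N) →L[ℂ] L2 (Bas G N))
  | .inl k => Xop y a k
  | .inr k => Sop k

theorem range_Lgen :
    Set.range (Lgen y a) = Set.range (Xop y a) ∪ Set.range (Sop : Fin N → _) :=
  Set.Sum.elim_range (Xop y a) Sop ▸ congrArg Set.range (funext fun z => by cases z <;> rfl)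

theorem gR_mem_centralizer (g : G) :
    (gR g : L2 (Bas G N) →L[ℂ] L2 (Bas G N)) ∈ Set.centralizer (Set.range (Lgen y a)) := by
  rintro _ ⟨z, rfl⟩
  refine ContinuousLinearMap.ext fun ψ => ?_
  cases z with
  | inl k =>
    show Lgen y a (.inl k) (gR g ψ) = gR g (Lgen y a (.inl k) ψ)
    simp only [Lgen, Xop, add_apply, smul_apply, map_add, map_smul, gOp_comm_gR, sOp_comm_gR]
  | inr k => exact sOp_comm_gR _ _ ψ

theorem sR_mem_centralizer (c : Fin N × Bool) :
    (sR c : L2 (Bas G N) →L[ℂ] L2 (Bas G N)) ∈ Set.centralizer (Set.range (Lgen y a)) := by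
  rintro _ ⟨z, rfl⟩
  refine ContinuousLinearMap.ext fun ψ => ?_
  cases z with
  | inl k =>
    show Lgen y a (.inl k) (sR c ψ) = sR c (Lgen y a (.inl k) ψ)
    simp only [Lgen, Xop, add_apply, smul_apply, map_add, map_smul, gOp_comm_sR, sOp_comm_sR]
  | inr k => exact sOp_comm_sR _ _ ψ

theorem Rgen_mem_centralizer (z : Fin N ⊕ Fin N) :
    Rgen y a z ∈ Set.centralizer (Set.range (Lgen y a)) := by
  cases z with
  | inl k =>
    exact Set.add_mem_centralizer (gR_mem_centralizer _) (by
      intro t ht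
      rw [mul_smul_comm, smul_mul_assoc, sR_mem_centralizer (k, false) t ht])
  | inr k => exact sR_mem_centralizer _

theorem Rgen_omega (z : Fin N ⊕ Fin N) :
    Rgen y a z omega = Lgen y a z omega := by
  cases z with
  | inl k =>
    simp only [Rgen, Lgen, Xop, add_apply, smul_apply, sR_omega]
    simp only [omega, gR_dl, gOp_dl, rT_nil, one_mul, mul_one]
  | inr k => exact sR_omega _

theorem inner_Rgen (hy : ∀ k, y k * y k = 1) (z : Fin N ⊕ Fin N) (ψ φ : L2 (Bas G N)) :
    ⟪Rgen y a z ψ, φ⟫_ℂ = ⟪ψ, Rgen y a z φ⟫_ℂ := by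
  cases z with
  | inl k =>
    simp only [Rgen, add_apply, smul_apply, inner_add_left, inner_add_right, inner_smul_left,
      inner_smul_right, Complex.conj_ofReal, inner_sR]
    rw [inner_gR, inv_eq_of_sq hy]
  | inr k => exact inner_sR _ ψ φ

theorem inner_Lgen (hy : ∀ k, y k * y k = 1) (z : Fin N ⊕ Fin N) (ψ φ : L2 (Bas G N)) :
    ⟪Lgen y a z ψ, φ⟫_ℂ = ⟪ψ, Lgen y a z φ⟫_ℂ := by
  cases z with
  | inl k =>
    exact (ContinuousLinearMap.isSelfAdjoint_iff_isSymmetric.1 (isSelfAdjoint_Xop hy k)) ψ φ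
  | inr k => exact inner_sOp _ ψ φ

/-! ## Faithfulness -/

theorem exists_rT_rAn (b : Bas G N) :
    (∃ g, b = (g, [])) ∨ ∃ g c b', b = rT g (rAn c b') ∧ b'.2.length + 1 = b.2.length := by
  obtain ⟨g₀, l⟩ := b
  induction l generalizing g₀ with
  | nil => exact Or.inl ⟨g₀, rfl⟩
  | cons p l ih =>
    refine Or.inr ?_
    rcases ih p.2 with ⟨g, hg⟩ | ⟨g, c, b', hb, hlen⟩
    · refine ⟨g, p.1, (g₀, []), ?_, ?_⟩
      · show push g₀ p.1 (p.2, l) = _
        rw [hg, rAn_nil, rT_push, rT_nil, one_mul]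
      · have : l = [] := congrArg Prod.snd hg
        simp [this]
    · refine ⟨g, c, push g₀ p.1 b', ?_, ?_⟩
      · show push g₀ p.1 (p.2, l) = _
        rw [hb, rAn_push, rT_push]
      · simpa [push] using hlen

theorem length_rCr (c : Fin N × Bool) {u v : Bas G N} (h : rCr c u = some v) :
    v.2.length + 1 = u.2.length := by
  rw [rCr_iff] at h
  subst h
  obtain ⟨g₀, l⟩ := v
  induction l generalizing g₀ with
  | nil => simp [push]
  | cons p l ih =>
    show _ = (rAn c (push g₀ p.1 (p.2, l))).2.length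
    rw [rAn_push]
    simp only [push, List.length_cons] at ih ⊢
    rw [ih p.2]

/-- An operator commuting with the right operators and killing `Ω` is zero. -/
theorem eq_zero_of_commute_right {T : L2 (Bas G N) →L[ℂ] L2 (Bas G N)}
    (hg : ∀ g : G, gR g * T = T * gR g)
    (hs : ∀ c : Fin N × Bool, sR c * T = T * sR c)
    (h0 : T omega = 0) : T = 0 := by
  have cg : ∀ (g : G) (v : L2 (Bas G N)), T (gR g v) = gR g (T v) := fun g v =>
    (DFunLike.congr_fun (hg g) v).symm
  have cs : ∀ (c : Fin N × Bool) (v : L2 (Bas G N)), T (sR c v) = sR c (T v) := fun c v =>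
    (DFunLike.congr_fun (hs c) v).symm
  have hb : ∀ n : ℕ, ∀ b : Bas G N, b.2.length = n → T (dl b) = 0 := by
    intro n
    induction n using Nat.strong_induction_on with
    | _ n ih =>
      intro b hn
      rcases exists_rT_rAn b with ⟨g, rfl⟩ | ⟨g, c, b', rfl, hlen⟩
      · have e : dl (g, ([] : List ((Fin N × Bool) × G))) = gR g omega := by
          rw [omega, gR_dl, rT_nil, one_mul]
        rw [e, cg, h0, map_zero]
      · rw [← gR_dl, cg]
        have h1 : T (dl b') = 0 := ih _ (by omega) b' rfl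
        have h2 : T ((rCr c b').elim 0 dl) = 0 := by
          cases hc : rCr c b' with
          | none => exact map_zero T
          | some v =>
            have := length_rCr c hc
            exact ih _ (by omega) v rfl
        have h3 : T (dl (rAn c b')) = 0 := by
          have h4 := cs c (dl b')
          rw [h1, map_zero, sR_dl, map_add, h2, add_zero] at h4
          exact h4
        rw [h3, map_zero]
  refine ContinuousLinearMap.ext fun ψ => ?_
  have hψ := hasSum_dl ψ
  have h1 := T.hasSum hψ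
  have h2 : (fun b => T (ψ b • dl b)) = fun _ => 0 := funext fun b => by
    rw [map_smul, hb _ b rfl, smul_zero]
  rw [h2] at h1
  simpa using h1.unique hasSum_zero

/-! ## The trace property -/

section TraceProperty

variable {H : Type*} [NormedAddCommGroup H] [InnerProductSpace ℂ H] [CompleteSpace H]

theorem star_eq_of_inner {T : H →L[ℂ] H} (h : ∀ ψ φ, ⟪T ψ, φ⟫_ℂ = ⟪ψ, T φ⟫_ℂ) : star T = T :=
  ContinuousLinearMap.isSelfAdjoint_iff_isSymmetric.2 h

theorem inner_star_apply (T : H →L[ℂ] H) (ψ φ : H) : ⟪star T ψ, φ⟫_ℂ = ⟪ψ, T φ⟫_ℂ := by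
  rw [ContinuousLinearMap.star_eq_adjoint, ContinuousLinearMap.adjoint_inner_left]

theorem vstate_mul_eq_inner (Ω : H) (a b : H →L[ℂ] H) :
    vstate Ω (a * b) = ⟪star a Ω, b Ω⟫_ℂ := by
  rw [inner_star_apply]; rfl

theorem star_centralizer {A : Set (H →L[ℂ] H)} (hA : ∀ x ∈ A, star x = x) {T : H →L[ℂ] H}
    (hT : T ∈ Set.centralizer A) : star T ∈ Set.centralizer A := by
  intro x hx
  have h := congrArg star (hT x hx)
  rw [star_mul, star_mul, hA x hx] at h
  exact h.symm

/-- The criterion: self-adjoint generators with self-adjoint commuting partners agreeing on `Ω`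
give a tracial vector state on the double commutant. -/
theorem trace_of_partners {ι : Type*} (L R : ι → H →L[ℂ] H) (Ω : H)
    (hL : ∀ i, star (L i) = L i) (hR : ∀ i, star (R i) = R i)
    (hc : ∀ i, R i ∈ Set.centralizer (Set.range L)) (hΩ : ∀ i, R i Ω = L i Ω) :
    ∀ x ∈ vnGen (Set.range L), ∀ z ∈ vnGen (Set.range L),
      vstate Ω (x * z) = vstate Ω (z * x) := by
  set M := vnGen (Set.range L) with hM
  have hsaL : ∀ x ∈ Set.range L, star x = x := by rintro _ ⟨i, rfl⟩; exact hL i
  have hstarM : ∀ {T}, T ∈ M → star T ∈ M := by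
    intro T hT x hx
    have h := congrArg star (hT (star x) (star_centralizer hsaL hx))
    rw [star_mul, star_mul, star_star] at h
    exact h.symm
  have hLM : ∀ i, L i ∈ M := fun i x hx => (hx (L i) (Set.mem_range_self i)).symm
  have hmulM : ∀ {T U}, T ∈ M → U ∈ M → T * U ∈ M := fun h h' => Set.mul_mem_centralizer h h'
  have gen : ∀ i, ∀ b ∈ M, vstate Ω (L i * b) = vstate Ω (b * L i) := by
    intro i b hb
    have hcomm : R i (b Ω) = b (R i Ω) := DFunLike.congr_fun (hb (R i) (hc i)) Ω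
    calc vstate Ω (L i * b) = ⟪L i Ω, b Ω⟫_ℂ := by rw [vstate_mul_eq_inner, hL i]
      _ = ⟪R i Ω, b Ω⟫_ℂ := by rw [hΩ i]
      _ = ⟪Ω, R i (b Ω)⟫_ℂ := by
        conv_lhs => rw [← hR i]
        exact inner_star_apply _ _ _
      _ = vstate Ω (b * L i) := by rw [hcomm, hΩ i]; rfl
  let P := Submonoid.closure (Set.range L)
  have hPM : ∀ x ∈ P, x ∈ M := by
    intro x hx
    induction hx using Submonoid.closure_induction with
    | mem x hx => obtain ⟨i, rfl⟩ := hx; exact hLM i
    | one => intro x _; rw [mul_one, one_mul]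
    | mul x x' _ _ h h' => exact hmulM h h'
  have mono : ∀ x ∈ P, ∀ b ∈ M, vstate Ω (x * b) = vstate Ω (b * x) := by
    intro x hx
    induction hx using Submonoid.closure_induction with
    | mem x hx => obtain ⟨i, rfl⟩ := hx; exact gen i
    | one => intro b _; rw [mul_one, one_mul]
    | mul x x' hx hx' h h' =>
      intro b hb
      rw [mul_assoc, h _ (hmulM (hPM x' hx') hb), mul_assoc, h' _ (hmulM hb (hPM x hx)), mul_assoc]
  have hPstar : ∀ x ∈ P, star x ∈ P := by
    intro x hx
    induction hx using Submonoid.closure_induction with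
    | mem x hx => rw [hsaL x hx]; exact Submonoid.subset_closure hx
    | one => rw [star_one]; exact P.one_mem
    | mul x x' _ _ h h' => rw [star_mul]; exact P.mul_mem h' h
  let W : Submodule ℂ (H →L[ℂ] H) := Submodule.span ℂ (P : Set (H →L[ℂ] H))
  have hWM : ∀ x ∈ W, x ∈ M := by
    intro x hx
    induction hx using Submodule.span_induction with
    | mem x hx => exact hPM x hx
    | zero => exact fun x _ => by rw [mul_zero, zero_mul]
    | add x x' _ _ h h' => exact Set.add_mem_centralizer h h'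
    | smul r x _ h => intro t ht; rw [mul_smul_comm, smul_mul_assoc, h t ht]
  have lin : ∀ x ∈ W, ∀ b ∈ M, vstate Ω (x * b) = vstate Ω (b * x) := by
    intro x hx
    induction hx using Submodule.span_induction with
    | mem x hx => exact mono x hx
    | zero => intro b _; rw [mul_zero, zero_mul]
    | add x x' _ _ h h' =>
      intro b hb
      simp only [vstate, add_mul, mul_add, add_apply, inner_add_right] at *
      rw [h b hb, h' b hb]
    | smul r x _ h =>
      intro b hb
      simp only [vstate, smul_mul_assoc, mul_smul_comm, smul_apply, inner_smul_right] at *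
      rw [h b hb]
  have hWstar : ∀ x ∈ W, star x ∈ W := by
    intro x hx
    induction hx using Submodule.span_induction with
    | mem x hx => exact Submodule.subset_span (hPstar x hx)
    | zero => rw [star_zero]; exact W.zero_mem
    | add x x' _ _ h h' => rw [star_add]; exact W.add_mem h h'
    | smul r x _ h => rw [star_smul]; exact W.smul_mem _ h
  have hWmul : ∀ i, ∀ x ∈ W, L i * x ∈ W := by
    intro i x hx
    induction hx using Submodule.span_induction with
    | mem x hx =>
      exact Submodule.subset_span (P.mul_mem (Submonoid.subset_closure (Set.mem_range_self i)) hx)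
    | zero => rw [mul_zero]; exact W.zero_mem
    | add x x' _ _ h h' => rw [mul_add]; exact W.add_mem h h'
    | smul r x _ h => rw [mul_smul_comm]; exact W.smul_mem _ h
  let ev : (H →L[ℂ] H) →ₗ[ℂ] H :=
    { toFun := fun T => T Ω, map_add' := fun _ _ => rfl, map_smul' := fun _ _ => rfl }
  let V : Submodule ℂ H := (W.map ev).topologicalClosure
  have hV0 : ∀ x ∈ W, x Ω ∈ V := fun x hx =>
    Submodule.le_topologicalClosure _ (Submodule.mem_map_of_mem hx)
  have hΩV : Ω ∈ V := hV0 1 (Submodule.subset_span P.one_mem)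
  have hinv : ∀ i, ∀ v ∈ V, L i v ∈ V := by
    intro i v hv
    refine map_mem_closure (L i).continuous hv ?_
    rintro _ ⟨x, hx, rfl⟩
    exact ⟨L i * x, hWmul i x hx, rfl⟩
  have : CompleteSpace V := (Submodule.isClosed_topologicalClosure _).completeSpace_coe
  have hproj : V.starProjection ∈ Set.centralizer (Set.range L) := by
    rintro _ ⟨i, rfl⟩
    refine ContinuousLinearMap.ext fun v => ?_
    show L i (V.starProjection v) = V.starProjection (L i v)
    refine (Submodule.eq_starProjection_of_mem_of_inner_eq_zero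
      (hinv i _ (Submodule.starProjection_apply_mem _ _)) fun w hw => ?_).symm
    rw [← map_sub, ← hL i, inner_star_apply]
    exact Submodule.starProjection_inner_eq_zero v _ (hinv i w hw)
  have hmemV : ∀ T ∈ M, T Ω ∈ V := by
    intro T hT
    have h : V.starProjection (T Ω) = T (V.starProjection Ω) :=
      DFunLike.congr_fun (hT _ hproj) Ω
    rw [Submodule.starProjection_eq_self_iff.2 hΩV] at h
    exact Submodule.starProjection_eq_self_iff.1 h
  have approx : ∀ T ∈ M, ∀ ε > 0, ∃ x ∈ W, ‖T Ω - x Ω‖ < ε := by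
    intro T hT ε hε
    have h : T Ω ∈ closure ((W.map ev : Submodule ℂ H) : Set H) := hmemV T hT
    obtain ⟨v, ⟨x, hx, rfl⟩, hd⟩ := Metric.mem_closure_iff.1 h ε hε
    exact ⟨x, hx, by rwa [← dist_eq_norm]⟩
  have adj : ∀ T ∈ M, ∀ x ∈ W, ‖star T Ω - star x Ω‖ ≤ ‖T Ω - x Ω‖ := by
    intro T hT x hx
    set d := star T Ω - star x Ω with hd
    set e := ‖T Ω - x Ω‖ with he
    have hdV : d ∈ V := V.sub_mem (hmemV _ (hstarM hT)) (hV0 _ (hWstar x hx))
    have key : ∀ z ∈ W, ‖⟪d, z Ω⟫_ℂ‖ ≤ e * ‖z Ω‖ := by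
      intro z hz
      have hzn : ‖star z Ω‖ = ‖z Ω‖ := by
        have h := lin z hz (star z) (hstarM (hWM z hz))
        rw [vstate_mul_eq_inner, vstate_mul_eq_inner, star_star] at h
        rw [norm_eq_sqrt_re_inner (𝕜 := ℂ), norm_eq_sqrt_re_inner (𝕜 := ℂ) (z Ω), h]
      have h1 : ⟪d, z Ω⟫_ℂ = ⟪star z Ω, T Ω - x Ω⟫_ℂ := by
        rw [inner_sub_right, ← vstate_mul_eq_inner, ← vstate_mul_eq_inner, hd, inner_sub_left,
          ← vstate_mul_eq_inner, ← vstate_mul_eq_inner, lin z hz T hT, lin z hz x (hWM x hx)]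
      rw [h1]
      calc ‖⟪star z Ω, T Ω - x Ω⟫_ℂ‖ ≤ ‖star z Ω‖ * ‖T Ω - x Ω‖ := norm_inner_le_norm _ _
        _ = e * ‖z Ω‖ := by rw [hzn, mul_comm]
    have hall : ∀ v ∈ V, ‖⟪d, v⟫_ℂ‖ ≤ e * ‖v‖ := by
      intro v hv
      have hcl : IsClosed {v : H | ‖⟪d, v⟫_ℂ‖ ≤ e * ‖v‖} :=
        isClosed_le ((continuous_const.inner continuous_id).norm)
          (continuous_const.mul continuous_norm)
      refine closure_minimal ?_ hcl hv
      rintro _ ⟨z, hz, rfl⟩
      exact key z hz
    have h := hall d hdV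
    rw [inner_self_eq_norm_sq_to_K, norm_pow] at h
    simp only [RCLike.norm_ofReal, abs_norm] at h
    rcases eq_or_lt_of_le (norm_nonneg d) with h0 | h0
    · rw [← h0]; exact norm_nonneg _
    · nlinarith
  intro T hT U hU
  refine eq_of_norm_sub_le_zero (le_of_forall_pos_le_add fun ε hε => ?_)
  set K := ‖U Ω‖ + ‖star U Ω‖ + 1 with hK
  have hKpos : 0 < K := by positivity
  obtain ⟨x, hx, hd⟩ := approx T hT (ε / K) (div_pos hε hKpos)
  have e1 : vstate Ω (T * U) - vstate Ω (x * U) = ⟪star T Ω - star x Ω, U Ω⟫_ℂ := by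
    rw [inner_sub_left, vstate_mul_eq_inner, vstate_mul_eq_inner]
  have e2 : vstate Ω (U * x) - vstate Ω (U * T) = ⟪star U Ω, x Ω - T Ω⟫_ℂ := by
    rw [inner_sub_right, vstate_mul_eq_inner, vstate_mul_eq_inner]
  have e3 : vstate Ω (T * U) - vstate Ω (U * T)
      = ⟪star T Ω - star x Ω, U Ω⟫_ℂ + ⟪star U Ω, x Ω - T Ω⟫_ℂ := by
    rw [← e1, ← e2, lin x hx U hU]; ring
  rw [e3, zero_add]
  refine (norm_add_le _ _).trans ?_
  have n1 : ‖⟪star T Ω - star x Ω, U Ω⟫_ℂ‖ ≤ ε / K * ‖U Ω‖ :=
    (norm_inner_le_norm _ _).trans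
      (mul_le_mul_of_nonneg_right ((adj T hT x hx).trans hd.le) (norm_nonneg _))
  have n2 : ‖⟪star U Ω, x Ω - T Ω⟫_ℂ‖ ≤ ‖star U Ω‖ * (ε / K) :=
    (norm_inner_le_norm _ _).trans
      (mul_le_mul_of_nonneg_left (by rw [norm_sub_rev]; exact hd.le) (norm_nonneg _))
  have hεK : ε / K * K = ε := div_mul_cancel₀ _ hKpos.ne'
  nlinarith [div_pos hε hKpos]

end TraceProperty

theorem isFaithfulTrace_model (hy : ∀ k, y k * y k = 1)
    (hgen : Subgroup.closure (Set.range y) = ⊤) :
    IsFaithfulTrace (omega : L2 (Bas G N))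
      (vnGen (Set.range (Xop y a) ∪ Set.range (Sop : Fin N → _))) := by
  have _ := hgen
  rw [← range_Lgen]
  refine ⟨norm_omega, trace_of_partners (Lgen y a) (Rgen y a) omega
    (fun z => star_eq_of_inner (inner_Lgen hy z)) (fun z => star_eq_of_inner (inner_Rgen hy z))
    Rgen_mem_centralizer Rgen_omega, fun T hT h0 => ?_⟩
  exact eq_zero_of_commute_right (fun g => hT _ (gR_mem_centralizer g))
    (fun c => hT _ (sR_mem_centralizer c)) h0

end Vale.Agent.P087
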